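import Mathlib
import Crest.Prelude.Def_DilutedSpinGlass
import Crest.Agent.R153.Filt2

/-!
Row 141: definitions (finite models, finite trials, the generic measure-side functional).
-/

set_option autoImplicit false

namespace Crest.Agent.R141

open Finset MeasureTheory Crest.Agent.R153 Crest.ProbabilityR.Diluted

/-! ### Finite models -/

/-- A finite factorized model: `b`, `f`, `h` are uniform on finite index sets. -/
structure FM where
  nb : ℕ
  nf : ℕ
  nh : ℕ
  b : Fin (nb + 1) → ℝ
  f : Fin (nf + 1) → Bool → ℝ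
  h : Fin (nh + 1) → ℝ
  β : ℝ
  H : ℝ
  β0 : 0 ≤ β
  β1 : β < 1
  hb : ∀ t, |b t| ≤ β
  hf : ∀ u s, |f u s| ≤ 1
  hh : ∀ v, |h v| ≤ H
  mom : ∀ n : ℕ, 1 ≤ n → 0 ≤ av fun t => (-b t) ^ n

/-- Put `ε` in the last coordinate. -/
def lastExt {p : ℕ} (s' : Fin (p - 1) → Bool) (ε : Bool) : Fin p → Bool :=
  fun ℓ => if h : ℓ.val < p - 1 then s' ⟨ℓ.val, h⟩ else ε

namespace FM
variable (M : FM)

/-- Interaction types. -/
abbrev Cl (p : ℕ) : Type := Fin (M.nb + 1) × (Fin p → Fin (M.nf + 1))

/-- Field types. -/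
abbrev Fl : Type := Fin (M.nh + 1)

/-- Boltzmann weight of an interaction. -/
def cw {p : ℕ} (c : M.Cl p) (s : Fin p → Bool) : ℝ := 1 + M.b c.1 * ∏ ℓ, M.f (c.2 ℓ) (s ℓ)

/-- Boltzmann weight of a field. -/
noncomputable def fw (v : M.Fl) (ε : Bool) : ℝ := Real.exp (M.h v * spinVal ε)

/-- An interaction type together with its sites. -/
abbrev Slot (p N : ℕ) : Type := M.Cl p × (Fin p → Fin N)

/-- The normalised partition function. -/
noncomputable def Z {p N K : ℕ} (F : Fin K → M.Slot p N) (vs : Fin N → M.Fl) : ℝ :=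
  av fun σ : Fin N → Bool => (∏ k, M.cw (F k).1 fun ℓ => σ ((F k).2 ℓ)) * ∏ i, M.fw (vs i) (σ i)

/-- Mean of the logarithm of the normalised partition function with `K` interactions. -/
noncomputable def gl (p N K : ℕ) : ℝ :=
  av fun F : Fin K → M.Slot p N => av fun vs : Fin N → M.Fl => Real.log (M.Z F vs)

/-- Fractional moment of the normalised partition function with `K` interactions. -/
noncomputable def Psi (p : ℕ) (m : ℝ) (N K : ℕ) : ℝ :=
  av fun F : Fin K → M.Slot p N => av fun vs : Fin N → M.Fl => M.Z F vs ^ m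

/-- The site weight as a function of the cavity spins. -/
noncomputable def siteV {p K : ℕ} (v : M.Fl) (cs : Fin K → M.Cl p)
    (s : Fin K × Fin (p - 1) → Bool) : ℝ :=
  av fun ε : Bool => M.fw v ε * ∏ j, M.cw (cs j) (lastExt (fun ℓ => s (j, ℓ)) ε)

/-- All logarithms of weights are bounded by `c`. -/
noncomputable def c : ℝ := M.H - Real.log (1 - M.β)

end FM

/-! ### Finite trials -/

section trial
variable {Ξ : Type} [Fintype Ξ] {D : ℕ} {Λ : Type} [Fintype Λ] [DecidableEq Λ]

/-- Power-mean functional of a function of independent trial spins. -/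
noncomputable def pmV (X : Filt Ξ D) (σ : Ξ → Bool) (γ : ℕ → ℝ) (v : (Λ → Bool) → ℝ) : ℝ :=
  (Filt.pi fun _ : Λ => X).pm γ fun x => v fun l => σ (x l)

/-- Logarithmic functional of a function of independent trial spins. -/
noncomputable def lgV (X : Filt Ξ D) (σ : Ξ → Bool) (γ : ℕ → ℝ) (v : (Λ → Bool) → ℝ) : ℝ :=
  (Filt.pi fun _ : Λ => X).Ex (fun x => Real.log
    ((Filt.pi fun _ : Λ => X).Q γ D (fun y => v fun l => σ (y l)) 0 x)) / ∏ d ∈ range D, γ d

variable (M : FM) (p : ℕ) (α : ℝ) (X : Filt Ξ D) (σ : Ξ → Bool) (γ : ℕ → ℝ)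

/-- The edge functional. -/
noncomputable def edgeE : ℝ := av fun c : M.Cl p => pmV X σ γ (M.cw c)

/-- The site functional with `K` interactions. -/
noncomputable def siteS (K : ℕ) : ℝ :=
  av fun cs : Fin K → M.Cl p => av fun v : M.Fl => pmV X σ γ (M.siteV v cs)

/-- The growth rate of the fractional moments predicted by the trial. -/
noncomputable def rho : ℝ :=
  edgeE M p X σ γ ^ α *
    ∑' K : ℕ, poissonWeight (α * p) K * (siteS M p X σ γ K / edgeE M p X σ γ ^ K)

/-- The cavity functional of a finite trial (without `log 2`). -/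
noncomputable def Bfin : ℝ :=
  (∑' K : ℕ, poissonWeight (α * p) K *
    av fun cs : Fin K → M.Cl p => av fun v : M.Fl => lgV X σ γ (M.siteV v cs)) -
  α * (p - 1 : ℝ) * av fun c : M.Cl p => lgV X σ γ (M.cw c)

end trial

/-! ### The measure side -/

section meas
variable {Λ : Type} [Fintype Λ] [DecidableEq Λ]

/-- Average of `v` over independent spins with messages `x`. -/
noncomputable def mixW (v : (Λ → Bool) → ℝ) (x : Λ → ℝ) : ℝ :=
  ∑ s : Λ → Bool, v s * ∏ l, tilt (x l) (s l)

/-- The logarithmic functional of a function of spins under a hierarchical trial. -/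
noncomputable def mT (r : ℕ) (m : Fin r → ℝ) (X : (Fin (r + 1) → unitInterval) → ℝ)
    (v : (Λ → Bool) → ℝ) : ℝ :=
  ∫ u, Real.log (powerMeans m
    (fun u' : Λ → Fin (r + 1) → unitInterval => mixW v fun l => X (u' l)) u) ∂(uniformArrays Λ r)

end meas

/-- The site weight for general interactions and field. -/
noncomputable def vSite {p K : ℕ} (h : ℝ) (θs : Fin K → Inter p)
    (s : Fin K × Fin (p - 1) → Bool) : ℝ :=
  av fun ε : Bool => Real.exp (h * spinVal ε + ∑ j, θs j (lastExt (fun ℓ => s (j, ℓ)) ε))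

/-- The edge weight for a general interaction. -/
noncomputable def vEdge {p : ℕ} (θ : Inter p) (s : Fin p → Bool) : ℝ := Real.exp (θ s)

/-- The law of `θ t` for a uniform `t`. -/
noncomputable def unifM {T E : Type} [Fintype T] [MeasurableSpace E] (θ : T → E) : Measure E :=
  ((Fintype.card T : ENNReal)⁻¹) • ∑ t, Measure.dirac (θ t)

/-- The interaction law of a finite model. -/
noncomputable def FM.mu (M : FM) (p : ℕ) : Measure (Inter p) :=
  unifM fun c : M.Cl p => fun s => Real.log (M.cw c s)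

/-- The field law of a finite model. -/
noncomputable def FM.nu (M : FM) : Measure ℝ := unifM M.h

/-- The cavity functional of a finite model for a hierarchical trial (without `log 2`). -/
noncomputable def Bm (M : FM) (p : ℕ) (α : ℝ) (r : ℕ) (m : Fin r → ℝ)
    (X : (Fin (r + 1) → unitInterval) → ℝ) : ℝ :=
  (∑' K : ℕ, poissonWeight (α * p) K *
    av fun cs : Fin K → M.Cl p => av fun v : M.Fl => mT r m X (M.siteV v cs)) -
  α * (p - 1 : ℝ) * av fun c : M.Cl p => mT r m X (M.cw c)

/-- The cell of `u` in the uniform grid with `n + 1` cells. -/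
noncomputable def digit (n : ℕ) (u : unitInterval) : Fin (n + 1) :=
  ⟨min n ⌊((n : ℝ) + 1) * u⌋₊, Nat.lt_succ_of_le (min_le_left _ _)⟩

lemma tilt_pos (x : ℝ) (s : Bool) : 0 < tilt x s :=
  div_pos (Real.exp_pos _) (mul_pos two_pos (Real.cosh_pos x))

/-- The finite trial attached to messages `g` on a grid: digit `j` is revealed at level `j`, the
spin at level `r + 1`. -/
noncomputable def gridF (r n : ℕ) (g : (Fin (r + 1) → Fin (n + 1)) → ℝ) :
    Filt ((Fin (r + 1) → Fin (n + 1)) × Bool) (r + 1) where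
  p x := tilt (g x.1) x.2
  p_pos _ := tilt_pos _ _
  rel d x y := (∀ j : Fin (r + 1), (j : ℕ) ≤ d → x.1 j = y.1 j) ∧ (r + 1 ≤ d → x.2 = y.2)
  refl _ _ := ⟨fun _ _ => rfl, fun _ => rfl⟩
  symm h := ⟨fun j hj => (h.1 j hj).symm, fun hd => (h.2 hd).symm⟩
  trans h h' := ⟨fun j hj => (h.1 j hj).trans (h'.1 j hj), fun hd => (h.2 hd).trans (h'.2 hd)⟩
  mono h := ⟨fun j hj => h.1 j (hj.trans (Nat.le_succ _)), fun hd => h.2 (hd.trans (Nat.le_succ _))⟩
  sep h := Prod.ext (funext fun j => h.1 j j.2.le) (h.2 le_rfl)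

/-- `Φ` realises the levels `0, …, r` of `X` by independent uniform variables. -/
structure Realizes {Ξ : Type} [Fintype Ξ] {D : ℕ} (X : Filt Ξ D) (r : ℕ)
    (Φ : (Fin (r + 1) → unitInterval) → Ξ) : Prop where
  meas : ∀ ξ, MeasurableSet {u | Φ u = ξ}
  zero : ∀ g : Ξ → ℝ, X.Meas 0 g →
    ∫ u, g (Φ u) ∂(Measure.pi fun _ : Fin (r + 1) => (volume : Measure unitInterval)) = X.Ex g
  step : ∀ (d : Fin r) (g : Ξ → ℝ), X.Meas (d + 1) g → ∀ u : Fin (r + 1) → unitInterval,
    ∫ v : unitInterval, g (Φ fun j => if j = d.succ then v else u j) = X.E d g (Φ u)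

/-- Centering of an interaction. -/
noncomputable def cen {p : ℕ} (θ : Inter p) : Inter p := fun s => θ s - av θ

/-- The interaction attached to `b` and `f`. -/
noncomputable def Lg {p : ℕ} (b : ℝ) (f : Fin p → Bool → ℝ) : Inter p :=
  fun s => Real.log (1 + b * ∏ ℓ, f ℓ (s ℓ))

/-- The law of `p + 1` independent uniform variables. -/
noncomputable def cube (p : ℕ) : Measure (unitInterval × (Fin p → unitInterval)) :=
  (volume : Measure unitInterval).prod (Measure.pi fun _ : Fin p => (volume : Measure unitInterval))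

/-- Up to a common shift, pressures and cavity functionals of two models differ by at most `ε`. -/
def Close (p : ℕ) (α : ℝ) (μ : Measure (Inter p)) (ν : Measure ℝ) (μ' : Measure (Inter p))
    (ν' : Measure ℝ) (ε : ℝ) : Prop :=
  ∃ s : ℝ, (∀ N : ℕ, 1 ≤ N → |pressure p α μ ν N - pressure p α μ' ν' N - s| ≤ ε) ∧
    ∀ (r : ℕ) (m : Fin r → ℝ) (X : (Fin (r + 1) → unitInterval) → ℝ), AdmissibleExponents m →
      Measurable X → |trialFunctional p α μ ν r m X - trialFunctional p α μ' ν' r m X - s| ≤ ε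

end Crest.Agent.R141
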