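import Mathlib
import Crest.Agent.R141.Defs

/-!
Row 141: elementary bounds on the weights and functionals; Poisson weights.
-/

set_option autoImplicit false

namespace Crest.Agent.R141

open Finset MeasureTheory Crest.Agent.R153 Crest.ProbabilityR.Diluted

/-! ### Poisson weights -/

lemma poissonWeight_nonneg {lam : ℝ} (h : 0 ≤ lam) (n : ℕ) : 0 ≤ poissonWeight lam n := by
  unfold poissonWeight; positivity

lemma poissonWeight_pos {lam : ℝ} (h : 0 < lam) (n : ℕ) : 0 < poissonWeight lam n := by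
  unfold poissonWeight; positivity

lemma hasSum_poisson_pow (lam x : ℝ) :
    HasSum (fun n => poissonWeight lam n * x ^ n) (Real.exp (lam * (x - 1))) := by
  have h := (NormedSpace.expSeries_div_hasSum_exp (lam * x)).mul_left (Real.exp (-lam))
  rw [← Real.exp_eq_exp_ℝ, ← Real.exp_add] at h
  have e1 : (fun n => poissonWeight lam n * x ^ n) =
      fun i => Real.exp (-lam) * ((lam * x) ^ i / (i.factorial : ℝ)) := by
    funext n; unfold poissonWeight; rw [mul_pow]; ring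
  rw [e1, show lam * (x - 1) = -lam + lam * x by ring]
  exact h

lemma hasSum_poisson (lam : ℝ) : HasSum (poissonWeight lam) 1 := by
  simpa using hasSum_poisson_pow lam 1

lemma poissonWeight_succ (lam : ℝ) (n : ℕ) :
    poissonWeight lam (n + 1) * ((n : ℝ) + 1) = lam * poissonWeight lam n := by
  unfold poissonWeight
  rw [Nat.factorial_succ]
  push_cast
  field_simp
  ring

lemma hasSum_poisson_mean (lam : ℝ) : HasSum (fun n : ℕ => poissonWeight lam n * n) lam := by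
  rw [← hasSum_nat_add_iff' 1]
  simp only [Finset.range_one, Finset.sum_singleton, Nat.cast_zero, mul_zero, sub_zero]
  push_cast
  simp only [poissonWeight_succ]
  simpa using (hasSum_poisson lam).mul_left lam

lemma hasSum_poisson_sq (lam : ℝ) :
    HasSum (fun n : ℕ => poissonWeight lam n * (n : ℝ) ^ 2) (lam ^ 2 + lam) := by
  rw [← hasSum_nat_add_iff' 1]
  simp only [Finset.range_one, Finset.sum_singleton, Nat.cast_zero, ne_eq, OfNat.ofNat_ne_zero,
    not_false_eq_true, zero_pow, mul_zero, sub_zero]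
  have h := ((hasSum_poisson_mean lam).add (hasSum_poisson lam)).mul_left lam
  have e1 : (fun n : ℕ => poissonWeight lam (n + 1) * ((n + 1 : ℕ) : ℝ) ^ 2) =
      fun i => lam * (poissonWeight lam i * i + poissonWeight lam i) := by
    funext n
    push_cast
    have := poissonWeight_succ lam n
    linear_combination ((n : ℝ) + 1) * this
  rw [e1, show lam ^ 2 + lam = lam * (lam + 1) by ring]
  exact h

/-- Functions of at most exponential growth are Poisson summable. -/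
lemma summable_poisson_of_le {lam : ℝ} (h : 0 ≤ lam) {t : ℕ → ℝ} {A x : ℝ}
    (ht : ∀ n, |t n| ≤ A * x ^ n) : Summable fun n => poissonWeight lam n * t n := by
  refine Summable.of_norm_bounded ((hasSum_poisson_pow lam x).summable.mul_left A) fun n => ?_
  rw [Real.norm_eq_abs, abs_mul, abs_of_nonneg (poissonWeight_nonneg h n)]
  calc _ ≤ poissonWeight lam n * (A * x ^ n) :=
        mul_le_mul_of_nonneg_left (ht n) (poissonWeight_nonneg h n)
    _ = _ := by ring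

/-- Functions of at most linear growth are Poisson summable. -/
lemma summable_poisson_of_linear {lam : ℝ} (h : 0 ≤ lam) {t : ℕ → ℝ} {A : ℝ}
    (ht : ∀ n, |t n| ≤ A * ((n : ℝ) + 1)) : Summable fun n => poissonWeight lam n * t n := by
  have hA : 0 ≤ A := by have := (abs_nonneg _).trans (ht 0); simpa using this
  refine summable_poisson_of_le h (A := A) (x := 2) fun n => (ht n).trans ?_
  refine mul_le_mul_of_nonneg_left ?_ hA
  exact_mod_cast Nat.lt_two_pow_self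

/-! ### Weights -/

lemma tilt_true_add_false (x : ℝ) : tilt x true + tilt x false = 1 := by
  unfold tilt spinVal
  have := Real.cosh_pos x
  rw [← add_div, div_eq_one_iff_eq (by positivity), Real.cosh_eq]
  simp
  ring

lemma abs_spinVal (ε : Bool) : |spinVal ε| = 1 := by
  cases ε <;> simp [spinVal]

namespace FM
variable (M : FM)

lemma H_nonneg : 0 ≤ M.H := (abs_nonneg _).trans (M.hh 0)

lemma neg_log_nonneg : 0 ≤ -Real.log (1 - M.β) := by
  have := Real.log_nonpos (x := 1 - M.β) (by linarith [M.β1]) (by linarith [M.β0])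
  linarith

lemma c_nonneg : 0 ≤ M.c := by
  unfold c; linarith [M.H_nonneg, M.neg_log_nonneg]

lemma abs_b_prod_le {ι : Type} [Fintype ι] (t : Fin (M.nb + 1)) (u : ι → Fin (M.nf + 1))
    (s : ι → Bool) : |M.b t * ∏ ℓ, M.f (u ℓ) (s ℓ)| ≤ M.β := by
  rw [abs_mul, Finset.abs_prod]
  exact (mul_le_of_le_one_right (abs_nonneg _)
    (Finset.prod_le_one (fun _ _ => abs_nonneg _) fun _ _ => M.hf _ _)).trans (M.hb t)

lemma cw_mem' {p : ℕ} (c : M.Cl p) (s : Fin p → Bool) :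
    1 - M.β ≤ M.cw c s ∧ M.cw c s ≤ 1 + M.β := by
  have := abs_le.1 (M.abs_b_prod_le c.1 c.2 s)
  unfold cw; constructor <;> linarith [this.1, this.2]

lemma cw_pos {p : ℕ} (c : M.Cl p) (s : Fin p → Bool) : 0 < M.cw c s :=
  lt_of_lt_of_le (by linarith [M.β1]) (M.cw_mem' c s).1

lemma cw_mem {p : ℕ} (c : M.Cl p) (s : Fin p → Bool) :
    Real.exp (-M.c) ≤ M.cw c s ∧ M.cw c s ≤ Real.exp M.c := by
  have h1 : 0 < 1 - M.β := by linarith [M.β1]
  have hH := M.H_nonneg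
  constructor
  · refine le_trans ?_ (M.cw_mem' c s).1
    rw [← Real.exp_log h1, Real.exp_le_exp]; unfold FM.c; linarith
  · refine (M.cw_mem' c s).2.trans ?_
    have h2 : 1 + M.β ≤ Real.exp (-Real.log (1 - M.β)) := by
      rw [Real.exp_neg, Real.exp_log h1, ← one_div, le_div_iff₀ h1]; nlinarith [sq_nonneg M.β]
    refine h2.trans (Real.exp_le_exp.2 ?_)
    unfold FM.c; linarith

lemma fw_pos (v : M.Fl) (ε : Bool) : 0 < M.fw v ε := Real.exp_pos _

lemma fw_mem (v : M.Fl) (ε : Bool) : Real.exp (-M.c) ≤ M.fw v ε ∧ M.fw v ε ≤ Real.exp M.c := by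
  have h1 : |M.h v * spinVal ε| ≤ M.c := by
    rw [abs_mul, abs_spinVal, mul_one]
    refine (M.hh v).trans ?_
    unfold FM.c; linarith [M.neg_log_nonneg]
  have := abs_le.1 h1
  exact ⟨Real.exp_le_exp.2 this.1, Real.exp_le_exp.2 this.2⟩

end FM

lemma prod_exp_mem {ι : Type} [Fintype ι] {c : ℝ} {f : ι → ℝ}
    (hf : ∀ i, Real.exp (-c) ≤ f i ∧ f i ≤ Real.exp c) :
    Real.exp (-(c * Fintype.card ι)) ≤ ∏ i, f i ∧ ∏ i, f i ≤ Real.exp (c * Fintype.card ι) := by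
  constructor
  · calc Real.exp (-(c * Fintype.card ι)) = ∏ _i : ι, Real.exp (-c) := by
          rw [Finset.prod_const, Finset.card_univ, ← Real.exp_nat_mul]; congr 1; ring
      _ ≤ _ := Finset.prod_le_prod (fun _ _ => (Real.exp_pos _).le) fun i _ => (hf i).1
  · calc ∏ i, f i ≤ ∏ _i : ι, Real.exp c :=
          Finset.prod_le_prod (fun i _ => (Real.exp_pos _).le.trans (hf i).1) fun i _ => (hf i).2
      _ = _ := by rw [Finset.prod_const, Finset.card_univ, ← Real.exp_nat_mul]; congr 1; ring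

lemma mul_exp_mem {a b x y : ℝ} (hx : Real.exp (-a) ≤ x ∧ x ≤ Real.exp a)
    (hy : Real.exp (-b) ≤ y ∧ y ≤ Real.exp b) :
    Real.exp (-(a + b)) ≤ x * y ∧ x * y ≤ Real.exp (a + b) := by
  rw [neg_add, Real.exp_add, Real.exp_add]
  have hx0 := (Real.exp_pos _).le.trans hx.1
  exact ⟨mul_le_mul hx.1 hy.1 (Real.exp_pos _).le hx0,
    mul_le_mul hx.2 hy.2 ((Real.exp_pos _).le.trans hy.1) (Real.exp_pos _).le⟩

lemma abs_log_le_of_mem {a x : ℝ} (hx : Real.exp (-a) ≤ x ∧ x ≤ Real.exp a) :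
    |Real.log x| ≤ a := by
  have hx0 : 0 < x := (Real.exp_pos _).trans_le hx.1
  exact abs_le.2 ⟨(Real.le_log_iff_exp_le hx0).2 hx.1, (Real.log_le_iff_le_exp hx0).2 hx.2⟩

namespace FM
variable (M : FM)

lemma siteV_mem {p K : ℕ} (v : M.Fl) (cs : Fin K → M.Cl p) (s : Fin K × Fin (p - 1) → Bool) :
    Real.exp (-(M.c * (K + 1))) ≤ M.siteV v cs s ∧ M.siteV v cs s ≤ Real.exp (M.c * (K + 1)) := by
  have h : ∀ ε, Real.exp (-(M.c * (K + 1))) ≤
      M.fw v ε * ∏ j, M.cw (cs j) (lastExt (fun ℓ => s (j, ℓ)) ε) ∧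
      M.fw v ε * ∏ j, M.cw (cs j) (lastExt (fun ℓ => s (j, ℓ)) ε) ≤ Real.exp (M.c * (K + 1)) := by
    intro ε
    have := mul_exp_mem (M.fw_mem v ε)
      (prod_exp_mem fun j => M.cw_mem (cs j) (lastExt (fun ℓ => s (j, ℓ)) ε))
    rwa [Fintype.card_fin, show M.c + M.c * K = M.c * (K + 1) by ring] at this
  exact ⟨le_av_of_le fun ε => (h ε).1, av_le_of_le fun ε => (h ε).2⟩

lemma siteV_pos {p K : ℕ} (v : M.Fl) (cs : Fin K → M.Cl p) (s : Fin K × Fin (p - 1) → Bool) :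
    0 < M.siteV v cs s := (Real.exp_pos _).trans_le (M.siteV_mem v cs s).1

lemma Z_mem {p N K : ℕ} (F : Fin K → M.Slot p N) (vs : Fin N → M.Fl) :
    Real.exp (-(M.c * (K + N))) ≤ M.Z F vs ∧ M.Z F vs ≤ Real.exp (M.c * (K + N)) := by
  have h : ∀ σ : Fin N → Bool, Real.exp (-(M.c * (K + N))) ≤
      (∏ k, M.cw (F k).1 fun ℓ => σ ((F k).2 ℓ)) * ∏ i, M.fw (vs i) (σ i) ∧
      (∏ k, M.cw (F k).1 fun ℓ => σ ((F k).2 ℓ)) * ∏ i, M.fw (vs i) (σ i) ≤
        Real.exp (M.c * (K + N)) := by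
    intro σ
    have := mul_exp_mem (prod_exp_mem fun k => M.cw_mem (F k).1 fun ℓ => σ ((F k).2 ℓ))
      (prod_exp_mem fun i => M.fw_mem (vs i) (σ i))
    rwa [Fintype.card_fin, Fintype.card_fin, ← mul_add] at this
  exact ⟨le_av_of_le fun σ => (h σ).1, av_le_of_le fun σ => (h σ).2⟩

lemma Z_pos {p N K : ℕ} (F : Fin K → M.Slot p N) (vs : Fin N → M.Fl) : 0 < M.Z F vs :=
  (Real.exp_pos _).trans_le (M.Z_mem F vs).1

lemma slot_nonempty (p : ℕ) {N : ℕ} (hN : 1 ≤ N) : Nonempty (M.Slot p N) :=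
  ⟨((0, fun _ => 0), fun _ => ⟨0, hN⟩)⟩

lemma Psi_pos (p : ℕ) (m : ℝ) {N : ℕ} (hN : 1 ≤ N) (K : ℕ) : 0 < M.Psi p m N K := by
  have := M.slot_nonempty p hN
  exact av_pos fun F => av_pos fun vs => Real.rpow_pos_of_pos (M.Z_pos F vs) _

lemma abs_gl_le (p N K : ℕ) : |M.gl p N K| ≤ M.c * (K + N) := by
  have h0 : 0 ≤ M.c * (K + N) := mul_nonneg M.c_nonneg (by positivity)
  exact (abs_av_le _).trans (av_le_of_le' h0 fun F => (abs_av_le _).trans
    (av_le_of_le' h0 fun vs => abs_log_le_of_mem (M.Z_mem F vs)))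

end FM

/-! ### Trial functionals -/

lemma Q_zero_mem {Ω : Type} [Fintype Ω] {D : ℕ} (F : Filt Ω D) {γ : ℕ → ℝ} (hγ : Adm γ)
    {V : Ω → ℝ} {a : ℝ} (hV : ∀ ω, Real.exp (-a) ≤ V ω ∧ V ω ≤ Real.exp a) (ω : Ω) :
    Real.exp (-(a * ∏ d ∈ range D, γ d)) ≤ F.Q γ D V 0 ω ∧
      F.Q γ D V 0 ω ≤ Real.exp (a * ∏ d ∈ range D, γ d) := by
  have h1 := F.Q_mono hγ D (V := fun _ => Real.exp (-a)) (fun _ => (Real.exp_pos _).le)
    (fun x => (hV x).1) 0 ω
  have h2 := F.Q_mono hγ D (W := fun _ => Real.exp a)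
    (fun x => (Real.exp_pos _).le.trans (hV x).1) (fun x => (hV x).2) 0 ω
  rw [F.Q_const γ (Nat.zero_le D) (Real.exp_pos _), ← Real.exp_mul, ← Finset.range_eq_Ico] at h1 h2
  rw [neg_mul] at h1
  exact ⟨h1, h2⟩

section trial
variable {Ξ : Type} [Fintype Ξ] [Nonempty Ξ] {D : ℕ} {Λ : Type} [Fintype Λ] [DecidableEq Λ]
  (X : Filt Ξ D) (σ : Ξ → Bool) {γ : ℕ → ℝ}

lemma pmV_mem (hγ : Adm γ) {v : (Λ → Bool) → ℝ} {a : ℝ}
    (hv : ∀ s, Real.exp (-a) ≤ v s ∧ v s ≤ Real.exp a) :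
    Real.exp (-(a * ∏ d ∈ range D, γ d)) ≤ pmV X σ γ v ∧
      pmV X σ γ v ≤ Real.exp (a * ∏ d ∈ range D, γ d) :=
  ⟨Filt.le_Ex_of_le _ fun x => (Q_zero_mem _ hγ (fun _ => hv _) x).1,
    Filt.Ex_le_of_le _ fun x => (Q_zero_mem _ hγ (fun _ => hv _) x).2⟩

lemma abs_lgV_le (hγ : Adm γ) {v : (Λ → Bool) → ℝ} {a : ℝ}
    (hv : ∀ s, Real.exp (-a) ≤ v s ∧ v s ≤ Real.exp a) : |lgV X σ γ v| ≤ a := by
  have hm : 0 < ∏ d ∈ range D, γ d := Filt.adm_prod_pos hγ _
  unfold lgV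
  rw [abs_div, abs_of_pos hm, div_le_iff₀ hm]
  exact (Filt.abs_Ex_le _ _).trans (Filt.Ex_le_of_le _ fun x =>
    abs_log_le_of_mem (Q_zero_mem _ hγ (fun _ => hv _) x))

variable (M : FM) (p : ℕ)

lemma edgeE_mem (hγ : Adm γ) :
    Real.exp (-(M.c * ∏ d ∈ range D, γ d)) ≤ edgeE M p X σ γ ∧
      edgeE M p X σ γ ≤ Real.exp (M.c * ∏ d ∈ range D, γ d) :=
  ⟨le_av_of_le fun c => (pmV_mem X σ hγ (M.cw_mem c)).1,
    av_le_of_le fun c => (pmV_mem X σ hγ (M.cw_mem c)).2⟩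

lemma edgeE_pos (hγ : Adm γ) : 0 < edgeE M p X σ γ :=
  (Real.exp_pos _).trans_le (edgeE_mem X σ M p hγ).1

lemma siteS_mem (hγ : Adm γ) (K : ℕ) :
    Real.exp (-(M.c * (K + 1) * ∏ d ∈ range D, γ d)) ≤ siteS M p X σ γ K ∧
      siteS M p X σ γ K ≤ Real.exp (M.c * (K + 1) * ∏ d ∈ range D, γ d) :=
  ⟨le_av_of_le fun cs => le_av_of_le fun v => (pmV_mem X σ hγ (M.siteV_mem v cs)).1,
    av_le_of_le fun cs => av_le_of_le fun v => (pmV_mem X σ hγ (M.siteV_mem v cs)).2⟩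

lemma siteS_pos (hγ : Adm γ) (K : ℕ) : 0 < siteS M p X σ γ K :=
  (Real.exp_pos _).trans_le (siteS_mem X σ M p hγ K).1

/-- Uniform bound on the terms of `rho`. -/
lemma site_div_edge_le (hγ : Adm γ) (K : ℕ) :
    siteS M p X σ γ K / edgeE M p X σ γ ^ K ≤ Real.exp M.c * Real.exp (2 * M.c) ^ K := by
  have hm0 : 0 < ∏ d ∈ range D, γ d := Filt.adm_prod_pos hγ _
  have hm1 : ∏ d ∈ range D, γ d ≤ 1 := Filt.adm_prod_le_one hγ _
  have hc := M.c_nonneg
  have h1 : siteS M p X σ γ K ≤ Real.exp (M.c * (K + 1)) :=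
    (siteS_mem X σ M p hγ K).2.trans (Real.exp_le_exp.2
      (mul_le_of_le_one_right (by positivity) hm1))
  have h2 : Real.exp (-M.c) ≤ edgeE M p X σ γ :=
    (Real.exp_le_exp.2 (neg_le_neg (mul_le_of_le_one_right hc hm1))).trans
      (edgeE_mem X σ M p hγ).1
  refine (div_le_div₀ (Real.exp_pos _).le h1 (pow_pos (Real.exp_pos _) K)
    (pow_le_pow_left₀ (Real.exp_pos _).le h2 K)).trans (le_of_eq ?_)
  rw [← Real.exp_nat_mul, ← Real.exp_nat_mul, ← Real.exp_sub, ← Real.exp_add]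
  congr 1; ring

lemma rho_summable {lam : ℝ} (h : 0 ≤ lam) (hγ : Adm γ) :
    Summable fun K : ℕ => poissonWeight lam K * (siteS M p X σ γ K / edgeE M p X σ γ ^ K) :=
  summable_poisson_of_le h fun K => by
    rw [abs_of_pos (div_pos (siteS_pos X σ M p hγ K) (pow_pos (edgeE_pos X σ M p hγ) K))]
    exact site_div_edge_le X σ M p hγ K

lemma rho_pos {α : ℝ} (hα : 0 ≤ α) (hγ : Adm γ) : 0 < rho M p α X σ γ := by
  have h : 0 ≤ α * p := by positivity
  refine mul_pos (Real.rpow_pos_of_pos (edgeE_pos X σ M p hγ) _) ?_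
  refine (rho_summable X σ M p h hγ).tsum_pos (fun K => mul_nonneg (poissonWeight_nonneg h K)
    (div_pos (siteS_pos X σ M p hγ K) (pow_pos (edgeE_pos X σ M p hγ) K)).le) 0 ?_
  refine mul_pos ?_ (div_pos (siteS_pos X σ M p hγ 0) (pow_pos (edgeE_pos X σ M p hγ) 0))
  unfold poissonWeight; positivity

end trial

end Crest.Agent.R141
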