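import Mathlib
import Crest.Agent.R141.Basic

/-!
Row 141: basic properties of the measure-side functional.
-/

set_option autoImplicit false

namespace Crest.Agent.R141

open Finset MeasureTheory Filter Crest.Agent.R153 Crest.ProbabilityR.Diluted

section aux
variable {Λ : Type} [Fintype Λ] {r : ℕ}

/-- resampling of one level -/
def mt_upd (lvl : Fin (r + 1)) (u : Λ → Fin (r + 1) → unitInterval) (v : Λ → unitInterval) :
    Λ → Fin (r + 1) → unitInterval := fun ω j => if j = lvl then v ω else u ω j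

instance mt_prob : IsProbabilityMeasure (uniformArrays Λ r) := by
  unfold uniformArrays; infer_instance

omit [Fintype Λ] in
lemma mt_upd_measurable (lvl : Fin (r + 1)) :
    Measurable fun p : (Λ → Fin (r + 1) → unitInterval) × (Λ → unitInterval) =>
      mt_upd lvl p.1 p.2 := by
  refine measurable_pi_lambda _ fun ω => measurable_pi_lambda _ fun j => ?_
  unfold mt_upd
  split_ifs <;> fun_prop

lemma mt_upd_one (lvl : Fin (r + 1)) :
    MeasurePreserving (fun p : (Fin (r + 1) → unitInterval) × unitInterval =>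
      fun j => if j = lvl then p.2 else p.1 j)
      ((Measure.pi fun _ : Fin (r + 1) => (volume : Measure unitInterval)).prod volume)
      (Measure.pi fun _ : Fin (r + 1) => (volume : Measure unitInterval)) := by
  have hm : Measurable (fun p : (Fin (r + 1) → unitInterval) × unitInterval =>
      fun j => if j = lvl then p.2 else p.1 j) := by
    refine measurable_pi_lambda _ fun j => ?_
    split_ifs <;> fun_prop
  refine ⟨hm, (Measure.pi_eq fun s hs => ?_).symm⟩
  rw [Measure.map_apply hm (MeasurableSet.univ_pi hs)]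
  have : (fun p : (Fin (r + 1) → unitInterval) × unitInterval =>
      fun j => if j = lvl then p.2 else p.1 j) ⁻¹' Set.univ.pi s
      = (Set.univ.pi (Function.update s lvl Set.univ)) ×ˢ s lvl := by
    ext ⟨x, t⟩
    simp only [Set.mem_preimage, Set.mem_pi, Set.mem_univ, forall_true_left, Set.mem_prod]
    constructor
    · intro h
      refine ⟨fun j => ?_, by simpa using h lvl⟩
      by_cases hj : j = lvl
      · subst hj; simp
      · simpa [hj] using h j
    · rintro ⟨h1, h2⟩ j
      by_cases hj : j = lvl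
      · subst hj; simpa using h2
      · simpa [hj] using h1 j
  rw [this, Measure.prod_prod, Measure.pi_pi, ← Finset.prod_erase_mul _ _ (mem_univ lvl),
    ← Finset.prod_erase_mul _ (fun i => volume (s i)) (mem_univ lvl)]
  simp only [Function.update_self, measure_univ, mul_one]
  congr 1
  exact Finset.prod_congr rfl fun j hj => by rw [Function.update_of_ne (ne_of_mem_erase hj)]

lemma mt_upd_mp (lvl : Fin (r + 1)) :
    MeasurePreserving (fun p : (Λ → Fin (r + 1) → unitInterval) × (Λ → unitInterval) =>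
      mt_upd lvl p.1 p.2)
      ((uniformArrays Λ r).prod (Measure.pi fun _ : Λ => (volume : Measure unitInterval)))
      (uniformArrays Λ r) := by
  have h1 := (measurePreserving_arrowProdEquivProdArrow (Fin (r + 1) → unitInterval) unitInterval Λ
    (fun _ => Measure.pi fun _ : Fin (r + 1) => (volume : Measure unitInterval))
    (fun _ => volume)).symm
  have h2 := measurePreserving_pi
    (fun _ : Λ => (Measure.pi fun _ : Fin (r + 1) => (volume : Measure unitInterval)).prod
      (volume : Measure unitInterval))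
    (fun _ : Λ => Measure.pi fun _ : Fin (r + 1) => (volume : Measure unitInterval))
    (fun _ => mt_upd_one lvl)
  exact h2.comp h1

/-- measurable functions with two-sided exponential bounds -/
def mt_Good (a : ℝ) (W : (Λ → Fin (r + 1) → unitInterval) → ℝ) : Prop :=
  Measurable W ∧ ∀ u, Real.exp (-a) ≤ W u ∧ W u ≤ Real.exp a

lemma mt_rpow_mem {a m x : ℝ} (hm : 0 ≤ m) (hx : Real.exp (-a) ≤ x ∧ x ≤ Real.exp a) :
    Real.exp (-(a * m)) ≤ x ^ m ∧ x ^ m ≤ Real.exp (a * m) := by
  rw [← neg_mul, Real.exp_mul, Real.exp_mul]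
  exact ⟨Real.rpow_le_rpow (Real.exp_pos _).le hx.1 hm,
    Real.rpow_le_rpow ((Real.exp_pos _).le.trans hx.1) hx.2 hm⟩

lemma mt_integrable {α : Type*} [MeasurableSpace α] {μ : Measure α} [IsFiniteMeasure μ]
    {f : α → ℝ} (hf : Measurable f) {C : ℝ} (h : ∀ x, |f x| ≤ C) : Integrable f μ :=
  Integrable.of_bound hf.aestronglyMeasurable C (Eventually.of_forall h)

lemma mt_abs_le_of_mem {a x : ℝ} (hx : Real.exp (-a) ≤ x ∧ x ≤ Real.exp a) : |x| ≤ Real.exp a := by
  rw [abs_of_nonneg ((Real.exp_pos _).le.trans hx.1)]; exact hx.2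

omit [Fintype Λ] in
lemma mt_Good.meas_sec {a : ℝ} {W : (Λ → Fin (r + 1) → unitInterval) → ℝ} (hW : mt_Good a W)
    (lvl : Fin (r + 1)) (u : Λ → Fin (r + 1) → unitInterval) :
    Measurable fun v => W (mt_upd lvl u v) :=
  hW.1.comp ((mt_upd_measurable lvl).comp measurable_prodMk_left)

lemma mt_Good.int_sec {a : ℝ} {W : (Λ → Fin (r + 1) → unitInterval) → ℝ} (hW : mt_Good a W)
    {m : ℝ} (hm : 0 ≤ m) (lvl : Fin (r + 1)) (u : Λ → Fin (r + 1) → unitInterval) :
    Integrable (fun v => W (mt_upd lvl u v) ^ m)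
      (Measure.pi fun _ : Λ => (volume : Measure unitInterval)) :=
  mt_integrable ((hW.meas_sec lvl u).pow_const m) fun _ => mt_abs_le_of_mem (mt_rpow_mem hm (hW.2 _))

lemma mt_Good.int_mem {a : ℝ} {W : (Λ → Fin (r + 1) → unitInterval) → ℝ} (hW : mt_Good a W)
    {m : ℝ} (hm : 0 ≤ m) (lvl : Fin (r + 1)) (u : Λ → Fin (r + 1) → unitInterval) :
    Real.exp (-(a * m)) ≤ ∫ v, W (mt_upd lvl u v) ^ m
        ∂(Measure.pi fun _ : Λ => (volume : Measure unitInterval)) ∧
      ∫ v, W (mt_upd lvl u v) ^ m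
        ∂(Measure.pi fun _ : Λ => (volume : Measure unitInterval)) ≤ Real.exp (a * m) := by
  constructor
  · have := integral_mono (integrable_const (Real.exp (-(a * m)))) (hW.int_sec hm lvl u)
      fun v => (mt_rpow_mem hm (hW.2 _)).1
    simpa using this
  · have := integral_mono (hW.int_sec hm lvl u) (integrable_const (Real.exp (a * m)))
      fun v => (mt_rpow_mem hm (hW.2 _)).2
    simpa using this

lemma mt_pmStep_eq (m : ℝ) (lvl : Fin (r + 1)) (W : (Λ → Fin (r + 1) → unitInterval) → ℝ)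
    (u : Λ → Fin (r + 1) → unitInterval) : pmStep m lvl W u =
      (∫ v, W (mt_upd lvl u v) ^ m
        ∂(Measure.pi fun _ : Λ => (volume : Measure unitInterval))) ^ (1 / m) := rfl

lemma mt_Good.step {a : ℝ} {W : (Λ → Fin (r + 1) → unitInterval) → ℝ} (hW : mt_Good a W)
    {m : ℝ} (hm : 0 < m) (lvl : Fin (r + 1)) : mt_Good a (pmStep m lvl W) := by
  constructor
  · have h1 : StronglyMeasurable
        fun p : (Λ → Fin (r + 1) → unitInterval) × (Λ → unitInterval) =>
          W (mt_upd lvl p.1 p.2) ^ m :=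
      ((hW.1.comp (mt_upd_measurable lvl)).pow_const m).stronglyMeasurable
    exact (h1.integral_prod_right'
      (ν := Measure.pi fun _ : Λ => (volume : Measure unitInterval))).measurable.pow_const _
  · intro u
    have := mt_rpow_mem (m := 1 / m) (by positivity) (hW.int_mem hm.le lvl u)
    rwa [mul_assoc, mul_one_div_cancel hm.ne', mul_one] at this

lemma mt_step_le {a a' c : ℝ} {W W' : (Λ → Fin (r + 1) → unitInterval) → ℝ} (hW : mt_Good a W)
    (hW' : mt_Good a' W') (h : ∀ u, W u ≤ Real.exp c * W' u) {m : ℝ} (hm : 0 < m)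
    (lvl : Fin (r + 1)) (u : Λ → Fin (r + 1) → unitInterval) :
    pmStep m lvl W u ≤ Real.exp c * pmStep m lvl W' u := by
  rw [mt_pmStep_eq, mt_pmStep_eq]
  have h0 := (Real.exp_pos _).le.trans (hW.int_mem hm.le lvl u).1
  have h0' := (Real.exp_pos _).le.trans (hW'.int_mem hm.le lvl u).1
  have h1 : ∫ v, W (mt_upd lvl u v) ^ m ∂(Measure.pi fun _ : Λ => (volume : Measure unitInterval))
      ≤ Real.exp c ^ m * ∫ v, W' (mt_upd lvl u v) ^ m
        ∂(Measure.pi fun _ : Λ => (volume : Measure unitInterval)) := by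
    rw [← integral_const_mul]
    refine integral_mono (hW.int_sec hm.le lvl u) ((hW'.int_sec hm.le lvl u).const_mul _)
      fun v => ?_
    simp only
    rw [← Real.mul_rpow (Real.exp_pos _).le ((Real.exp_pos _).le.trans (hW'.2 _).1)]
    exact Real.rpow_le_rpow ((Real.exp_pos _).le.trans (hW.2 _).1) (h _) hm.le
  refine (Real.rpow_le_rpow h0 h1 (by positivity)).trans (le_of_eq ?_)
  rw [Real.mul_rpow (by positivity) h0', ← Real.rpow_mul (Real.exp_pos _).le,
    mul_one_div_cancel hm.ne', Real.rpow_one]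

lemma mt_fold_good {a : ℝ} {W : (Λ → Fin (r + 1) → unitInterval) → ℝ} (hW : mt_Good a W)
    {m : Fin r → ℝ} (hm : ∀ d, 0 < m d) (l : List (Fin r)) :
    mt_Good a (l.foldr (fun d acc => pmStep (m d) d.succ acc) W) := by
  induction l with
  | nil => exact hW
  | cons d l ih => exact ih.step (hm d) _

lemma mt_fold_le {a a' c : ℝ} {W W' : (Λ → Fin (r + 1) → unitInterval) → ℝ} (hW : mt_Good a W)
    (hW' : mt_Good a' W') (h : ∀ u, W u ≤ Real.exp c * W' u) {m : Fin r → ℝ} (hm : ∀ d, 0 < m d)
    (l : List (Fin r)) (u : Λ → Fin (r + 1) → unitInterval) :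
    l.foldr (fun d acc => pmStep (m d) d.succ acc) W u ≤
      Real.exp c * l.foldr (fun d acc => pmStep (m d) d.succ acc) W' u := by
  induction l generalizing u with
  | nil => exact h u
  | cons d l ih => exact mt_step_le (mt_fold_good hW hm l) (mt_fold_good hW' hm l) ih (hm d) _ u

lemma mt_Good.int_log {a : ℝ} {W : (Λ → Fin (r + 1) → unitInterval) → ℝ} (hW : mt_Good a W) :
    Integrable (fun u => Real.log (W u)) (uniformArrays Λ r) :=
  mt_integrable hW.1.log fun u => abs_log_le_of_mem (hW.2 u)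

lemma mt_log_sub_le {b x y : ℝ} (hx : Real.exp (-b) ≤ x) (hy : Real.exp (-b) ≤ y) :
    |Real.log x - Real.log y| ≤ Real.exp b * |x - y| := by
  have key : ∀ x y : ℝ, Real.exp (-b) ≤ x → Real.exp (-b) ≤ y →
      Real.log x - Real.log y ≤ Real.exp b * |x - y| := by
    intro x y hx hy
    have hx0 := (Real.exp_pos _).trans_le hx
    have hy0 := (Real.exp_pos _).trans_le hy
    rw [← Real.log_div hx0.ne' hy0.ne']
    have h1 := Real.log_le_sub_one_of_pos (div_pos hx0 hy0)
    have h2 : x / y - 1 = (x - y) * y⁻¹ := by field_simp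
    have h3 : y⁻¹ ≤ Real.exp b := by
      rw [inv_le_comm₀ hy0 (Real.exp_pos _), ← Real.exp_neg]; exact hy
    calc _ ≤ (x - y) * y⁻¹ := h2 ▸ h1
      _ ≤ |x - y| * y⁻¹ := by gcongr; exact le_abs_self _
      _ ≤ |x - y| * Real.exp b := by gcongr
      _ = _ := mul_comm _ _
  rw [abs_le]
  refine ⟨?_, key x y hx hy⟩
  have := key y x hy hx
  rw [abs_sub_comm] at this
  linarith

lemma mt_sub_le_log {b x y : ℝ} (hx0 : 0 < x) (hy0 : 0 < y) (hx : x ≤ Real.exp b)
    (hy : y ≤ Real.exp b) : |x - y| ≤ Real.exp b * |Real.log x - Real.log y| := by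
  have key : ∀ x y : ℝ, 0 < x → 0 < y → x ≤ Real.exp b →
      x - y ≤ Real.exp b * |Real.log x - Real.log y| := by
    intro x y hx0 hy0 hx
    have h1 := Real.log_le_sub_one_of_pos (div_pos hy0 hx0)
    rw [Real.log_div hy0.ne' hx0.ne'] at h1
    have h2 : x - y = x * (1 - y / x) := by field_simp
    calc x - y = x * (1 - y / x) := h2
      _ ≤ x * |Real.log x - Real.log y| := by
          gcongr; linarith [le_abs_self (Real.log x - Real.log y)]
      _ ≤ _ := by gcongr
  rw [abs_le]
  refine ⟨?_, key x y hx0 hy0 hx⟩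
  have := key y x hy0 hx0 hy
  rw [abs_sub_comm] at this
  linarith

lemma mt_step_lip {a : ℝ} (ha : 0 ≤ a) {W W' : (Λ → Fin (r + 1) → unitInterval) → ℝ}
    (hW : mt_Good a W) (hW' : mt_Good a W') {m : ℝ} (hm : 0 < m) (hm1 : m ≤ 1)
    (lvl : Fin (r + 1)) (u : Λ → Fin (r + 1) → unitInterval) :
    |Real.log (pmStep m lvl W u) - Real.log (pmStep m lvl W' u)| ≤ Real.exp (2 * a) *
      ∫ v, |Real.log (W (mt_upd lvl u v)) - Real.log (W' (mt_upd lvl u v))|
        ∂(Measure.pi fun _ : Λ => (volume : Measure unitInterval)) := by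
  have hI := hW.int_mem hm.le lvl u
  have hI' := hW'.int_mem hm.le lvl u
  rw [mt_pmStep_eq, mt_pmStep_eq, Real.log_rpow ((Real.exp_pos _).trans_le hI.1),
    Real.log_rpow ((Real.exp_pos _).trans_le hI'.1), ← mul_sub, abs_mul,
    abs_of_pos (one_div_pos.2 hm)]
  have hint : Integrable (fun v => |Real.log (W (mt_upd lvl u v)) - Real.log (W' (mt_upd lvl u v))|)
      (Measure.pi fun _ : Λ => (volume : Measure unitInterval)) :=
    ((mt_integrable (hW.meas_sec lvl u).log fun v => abs_log_le_of_mem (hW.2 _)).sub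
      (mt_integrable (hW'.meas_sec lvl u).log fun v => abs_log_le_of_mem (hW'.2 _))).abs
  have h1 := mt_log_sub_le hI.1 hI'.1
  rw [← integral_sub (hW.int_sec hm.le lvl u) (hW'.int_sec hm.le lvl u)] at h1
  have h2 : |∫ v, (W (mt_upd lvl u v) ^ m - W' (mt_upd lvl u v) ^ m)
        ∂(Measure.pi fun _ : Λ => (volume : Measure unitInterval))| ≤ (Real.exp (a * m) * m) *
      ∫ v, |Real.log (W (mt_upd lvl u v)) - Real.log (W' (mt_upd lvl u v))|
        ∂(Measure.pi fun _ : Λ => (volume : Measure unitInterval)) := by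
    rw [← integral_const_mul]
    refine abs_integral_le_integral_abs.trans (integral_mono
      ((hW.int_sec hm.le lvl u).sub (hW'.int_sec hm.le lvl u)).abs (hint.const_mul _) fun v => ?_)
    have p1 := (Real.exp_pos _).trans_le (hW.2 (mt_upd lvl u v)).1
    have p2 := (Real.exp_pos _).trans_le (hW'.2 (mt_upd lvl u v)).1
    have := mt_sub_le_log (Real.rpow_pos_of_pos p1 m) (Real.rpow_pos_of_pos p2 m)
      (mt_rpow_mem hm.le (hW.2 _)).2 (mt_rpow_mem hm.le (hW'.2 _)).2
    rw [Real.log_rpow p1, Real.log_rpow p2, ← mul_sub, abs_mul, abs_of_pos hm, ← mul_assoc] at this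
    exact this
  set J := ∫ v, |Real.log (W (mt_upd lvl u v)) - Real.log (W' (mt_upd lvl u v))|
        ∂(Measure.pi fun _ : Λ => (volume : Measure unitInterval))
  have hJ : 0 ≤ J := integral_nonneg fun _ => abs_nonneg _
  have h3 : Real.exp (a * m) * Real.exp (a * m) ≤ Real.exp (2 * a) := by
    rw [← Real.exp_add, Real.exp_le_exp]; nlinarith
  calc _ ≤ 1 / m * (Real.exp (a * m) * ((Real.exp (a * m) * m) * J)) := by
        gcongr
        exact h1.trans (by gcongr)
    _ = Real.exp (a * m) * Real.exp (a * m) * J := by field_simp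
    _ ≤ _ := by gcongr

lemma mt_step_lip_int {a : ℝ} (ha : 0 ≤ a) {W W' : (Λ → Fin (r + 1) → unitInterval) → ℝ}
    (hW : mt_Good a W) (hW' : mt_Good a W') {m : ℝ} (hm : 0 < m) (hm1 : m ≤ 1)
    (lvl : Fin (r + 1)) :
    ∫ u, |Real.log (pmStep m lvl W u) - Real.log (pmStep m lvl W' u)| ∂(uniformArrays Λ r) ≤
      Real.exp (2 * a) * ∫ u, |Real.log (W u) - Real.log (W' u)| ∂(uniformArrays Λ r) := by
  have hint : Integrable (fun u => |Real.log (W u) - Real.log (W' u)|) (uniformArrays Λ r) :=
    (hW.int_log.sub hW'.int_log).abs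
  have hint2 := (mt_upd_mp (Λ := Λ) lvl).integrable_comp_of_integrable hint
  have h1 : ∫ u, |Real.log (W u) - Real.log (W' u)| ∂(uniformArrays Λ r) =
      ∫ u, ∫ v, |Real.log (W (mt_upd lvl u v)) - Real.log (W' (mt_upd lvl u v))|
        ∂(Measure.pi fun _ : Λ => (volume : Measure unitInterval)) ∂(uniformArrays Λ r) := by
    refine Eq.trans ?_ (integral_prod _ hint2)
    conv_lhs => rw [← (mt_upd_mp (Λ := Λ) lvl).map_eq]
    rw [integral_map (mt_upd_mp (Λ := Λ) lvl).measurable.aemeasurable]
    · rfl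
    · exact ((hW.1.log.sub hW'.1.log).abs).aestronglyMeasurable
  rw [h1, ← integral_const_mul]
  exact integral_mono ((hW.step hm lvl).int_log.sub (hW'.step hm lvl).int_log).abs
    (hint2.integral_prod_left.const_mul _) fun u => mt_step_lip ha hW hW' hm hm1 lvl u

lemma mt_fold_lip {a : ℝ} (ha : 0 ≤ a) {W W' : (Λ → Fin (r + 1) → unitInterval) → ℝ}
    (hW : mt_Good a W) (hW' : mt_Good a W') {m : Fin r → ℝ} (hm : ∀ d, 0 < m d ∧ m d ≤ 1)
    (l : List (Fin r)) :
    ∫ u, |Real.log (l.foldr (fun d acc => pmStep (m d) d.succ acc) W u)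
        - Real.log (l.foldr (fun d acc => pmStep (m d) d.succ acc) W' u)| ∂(uniformArrays Λ r) ≤
      Real.exp (2 * a * l.length) * ∫ u, |Real.log (W u) - Real.log (W' u)| ∂(uniformArrays Λ r) := by
  induction l with
  | nil => simp
  | cons d l ih =>
    refine (mt_step_lip_int ha (mt_fold_good hW (fun d => (hm d).1) l)
      (mt_fold_good hW' (fun d => (hm d).1) l) (hm d).1 (hm d).2 d.succ).trans ?_
    refine (mul_le_mul_of_nonneg_left ih (Real.exp_pos _).le).trans (le_of_eq ?_)
    rw [← mul_assoc, ← Real.exp_add, List.length_cons]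
    congr 2; push_cast; ring

variable [DecidableEq Λ]

lemma mt_sum_prod_tilt (x : Λ → ℝ) : ∑ s : Λ → Bool, ∏ l, tilt (x l) (s l) = 1 := by
  rw [← Fintype.prod_sum (fun l (b : Bool) => tilt (x l) b)]
  simp [tilt_true_add_false]

lemma mt_mixW_mono {v v' : (Λ → Bool) → ℝ} (h : ∀ s, v s ≤ v' s) (x : Λ → ℝ) :
    mixW v x ≤ mixW v' x :=
  Finset.sum_le_sum fun s _ => mul_le_mul_of_nonneg_right (h s)
    (Finset.prod_nonneg fun _ _ => (tilt_pos _ _).le)

lemma mt_mixW_const (c : ℝ) (x : Λ → ℝ) : mixW (fun _ => c) x = c := by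
  rw [mixW, ← Finset.mul_sum, mt_sum_prod_tilt, mul_one]

lemma mt_mixW_const_mul (c : ℝ) (v : (Λ → Bool) → ℝ) (x : Λ → ℝ) :
    mixW (fun s => c * v s) x = c * mixW v x := by
  simp only [mixW, Finset.mul_sum, mul_assoc]

lemma mt_mixW_mem {v : (Λ → Bool) → ℝ} {a : ℝ}
    (hv : ∀ s, Real.exp (-a) ≤ v s ∧ v s ≤ Real.exp a) (x : Λ → ℝ) :
    Real.exp (-a) ≤ mixW v x ∧ mixW v x ≤ Real.exp a :=
  ⟨(mt_mixW_const _ x).symm.le.trans (mt_mixW_mono (fun s => (hv s).1) x),
    (mt_mixW_mono (fun s => (hv s).2) x).trans (mt_mixW_const _ x).le⟩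

lemma mt_tilt_measurable (s : Bool) : Measurable fun x => tilt x s := by
  unfold tilt; fun_prop

lemma mt_good_mixW {X : (Fin (r + 1) → unitInterval) → ℝ} (hX : Measurable X)
    {v : (Λ → Bool) → ℝ} {a : ℝ} (hv : ∀ s, Real.exp (-a) ≤ v s ∧ v s ≤ Real.exp a) :
    mt_Good a fun u' : Λ → Fin (r + 1) → unitInterval => mixW v fun l => X (u' l) := by
  refine ⟨?_, fun u => mt_mixW_mem hv _⟩
  unfold mixW
  refine Finset.measurable_sum _ fun s _ => Measurable.const_mul ?_ _
  exact Finset.measurable_prod _ fun l _ =>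
    (mt_tilt_measurable _).comp (hX.comp (measurable_pi_apply l))

omit [DecidableEq Λ] in
lemma mt_exists_bound {v : (Λ → Bool) → ℝ} (hv : ∀ s, 0 < v s) :
    ∃ a : ℝ, ∀ s, Real.exp (-a) ≤ v s ∧ v s ≤ Real.exp a := by
  obtain ⟨a, ha⟩ := (Set.finite_range fun s => |Real.log (v s)|).bddAbove
  refine ⟨a, fun s => ?_⟩
  have := abs_le.1 (ha ⟨s, rfl⟩)
  exact ⟨(Real.le_log_iff_exp_le (hv s)).1 this.1, (Real.log_le_iff_le_exp (hv s)).1 this.2⟩

lemma mt_mixW_update {v : (Λ → Bool) → ℝ} {C : ℝ} (hv : ∀ s, |v s| ≤ C) (x : Λ → ℝ) (l : Λ)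
    (y : ℝ) : |mixW v (Function.update x l y) - mixW v x| ≤
      C * (2 * |tilt y true - tilt (x l) true|) := by
  have e : ∀ (z : ℝ) (s : Λ → Bool), ∏ l', tilt (Function.update x l z l') (s l')
      = tilt z (s l) * ∏ l' ∈ univ.erase l, tilt (x l') (s l') := by
    intro z s
    rw [← Finset.mul_prod_erase _ _ (mem_univ l), Function.update_self]
    congr 1
    exact Finset.prod_congr rfl fun j hj => by rw [Function.update_of_ne (ne_of_mem_erase hj)]
  let g : Λ → Bool → ℝ := Function.update (fun l' => tilt (x l')) l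
    fun b => |tilt y b - tilt (x l) b|
  have e2 : ∀ s : Λ → Bool, ∏ l', g l' (s l')
      = |tilt y (s l) - tilt (x l) (s l)| * ∏ l' ∈ univ.erase l, tilt (x l') (s l') := by
    intro s
    rw [← Finset.mul_prod_erase _ _ (mem_univ l)]
    simp only [g, Function.update_self]
    congr 1
    exact Finset.prod_congr rfl fun j hj => by rw [Function.update_of_ne (ne_of_mem_erase hj)]
  have e3 : ∑ s : Λ → Bool, ∏ l', g l' (s l') = 2 * |tilt y true - tilt (x l) true| := by
    rw [← Fintype.prod_sum g, ← Finset.mul_prod_erase _ _ (mem_univ l), Finset.prod_eq_one,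
      mul_one]
    · simp only [g, Function.update_self, Fintype.sum_bool]
      have h1 := tilt_true_add_false y
      have h2 := tilt_true_add_false (x l)
      rw [show tilt y false - tilt (x l) false = -(tilt y true - tilt (x l) true) by linarith,
        abs_neg]
      ring
    · intro j hj
      simp only [g]
      rw [Function.update_of_ne (ne_of_mem_erase hj), Fintype.sum_bool, tilt_true_add_false]
  conv_lhs => rw [← Function.update_eq_self l x]
  rw [Function.update_idem, ← e3, Finset.mul_sum]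
  simp only [mixW, e, e2]
  rw [← Finset.sum_sub_distrib]
  refine (Finset.abs_sum_le_sum_abs _ _).trans (Finset.sum_le_sum fun s _ => ?_)
  have hP : 0 ≤ ∏ l' ∈ univ.erase l, tilt (x l') (s l') :=
    Finset.prod_nonneg fun _ _ => (tilt_pos _ _).le
  rw [← mul_sub, ← sub_mul, abs_mul, abs_mul, abs_of_nonneg hP]
  gcongr
  exact hv s

lemma mt_mixW_lip {v : (Λ → Bool) → ℝ} {C : ℝ} (hv : ∀ s, |v s| ≤ C) (x x' : Λ → ℝ) :
    |mixW v x - mixW v x'| ≤ C * (2 * ∑ l, |tilt (x l) true - tilt (x' l) true|) := by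
  have key : ∀ S : Finset Λ, |mixW v (S.piecewise x x') - mixW v x'| ≤
      C * (2 * ∑ l ∈ S, |tilt (x l) true - tilt (x' l) true|) := by
    intro S
    induction S using Finset.induction_on with
    | empty => simp
    | insert l S hl ih =>
      rw [Finset.piecewise_insert, Finset.sum_insert hl]
      have h1 := mt_mixW_update hv (S.piecewise x x') l (x l)
      rw [Finset.piecewise_eq_of_notMem _ _ _ hl] at h1
      have h2 := abs_sub_le (mixW v (Function.update (S.piecewise x x') l (x l)))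
        (mixW v (S.piecewise x x')) (mixW v x')
      linarith
  simpa using key univ

end aux

section
variable {Λ : Type} [Fintype Λ] [DecidableEq Λ] {r : ℕ} {m : Fin r → ℝ}
  {X X' : (Fin (r + 1) → unitInterval) → ℝ}

theorem mT_le (hm : ∀ d, 0 < m d) (hX : Measurable X) {v v' : (Λ → Bool) → ℝ}
    (hv : ∀ s, 0 < v s) (hv' : ∀ s, 0 < v' s) {c : ℝ} (h : ∀ s, v s ≤ Real.exp c * v' s) :
    mT r m X v ≤ mT r m X v' + c := by
  obtain ⟨a, ha⟩ := mt_exists_bound hv
  obtain ⟨a', ha'⟩ := mt_exists_bound hv'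
  have hW := mt_good_mixW hX ha
  have hW' := mt_good_mixW hX ha'
  have hG := mt_fold_good hW hm (List.finRange r)
  have hG' := mt_fold_good hW' hm (List.finRange r)
  have hle := mt_fold_le hW hW' (c := c)
    (fun u => (mt_mixW_mono h _).trans (mt_mixW_const_mul _ _ _).le) hm (List.finRange r)
  have := integral_mono hG.int_log (hG'.int_log.add (integrable_const c)) fun u => by
    have p1 := (Real.exp_pos _).trans_le (hG.2 u).1
    have p2 := (Real.exp_pos _).trans_le (hG'.2 u).1
    have := Real.log_le_log p1 (hle u)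
    rw [Real.log_mul (Real.exp_pos _).ne' p2.ne', Real.log_exp] at this
    simp only [Pi.add_apply]
    linarith
  rw [integral_add' hG'.int_log (integrable_const c)] at this
  simpa [mT, powerMeans] using this

theorem abs_mT_le (hm : ∀ d, 0 < m d) (hX : Measurable X) {v : (Λ → Bool) → ℝ} {a : ℝ}
    (hv : ∀ s, Real.exp (-a) ≤ v s ∧ v s ≤ Real.exp a) : |mT r m X v| ≤ a := by
  have hG := mt_fold_good (mt_good_mixW hX hv) hm (List.finRange r)
  have := norm_integral_le_of_norm_le_const (μ := uniformArrays Λ r) (C := a)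
    (f := fun u => Real.log ((List.finRange r).foldr (fun d acc => pmStep (m d) d.succ acc)
      (fun u' : Λ → Fin (r + 1) → unitInterval => mixW v fun l => X (u' l)) u))
    (Eventually.of_forall fun u => abs_log_le_of_mem (hG.2 u))
  simpa [mT, powerMeans] using this

theorem mT_lip (hm : ∀ d, 0 < m d ∧ m d ≤ 1) (hX : Measurable X) (hX' : Measurable X')
    {v : (Λ → Bool) → ℝ} {a : ℝ} (hv : ∀ s, Real.exp (-a) ≤ v s ∧ v s ≤ Real.exp a) :
    |mT r m X v - mT r m X' v| ≤ Real.exp (a * (2 * r + 2)) * 2 * Fintype.card Λ *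
      ∫ u, |tilt (X u) true - tilt (X' u) true|
        ∂(Measure.pi fun _ : Fin (r + 1) => (volume : Measure unitInterval)) := by
  have ha : 0 ≤ a := by
    have := Real.exp_le_exp.1 ((hv fun _ => true).1.trans (hv fun _ => true).2)
    linarith
  have hW := mt_good_mixW (Λ := Λ) hX hv
  have hW' := mt_good_mixW (Λ := Λ) hX' hv
  have hG := mt_fold_good hW (fun d => (hm d).1) (List.finRange r)
  have hG' := mt_fold_good hW' (fun d => (hm d).1) (List.finRange r)
  have h1 := mt_fold_lip ha hW hW' hm (List.finRange r)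
  rw [List.length_finRange] at h1
  have hd : Measurable fun u => |tilt (X u) true - tilt (X' u) true| :=
    (((mt_tilt_measurable _).comp hX).sub ((mt_tilt_measurable _).comp hX')).abs
  have hb : ∀ x y : ℝ, |(|tilt x true - tilt y true|)| ≤ 1 := by
    intro x y
    have := tilt_true_add_false x
    have := tilt_true_add_false y
    have := tilt_pos x true
    have := tilt_pos x false
    have := tilt_pos y true
    have := tilt_pos y false
    rw [abs_abs, abs_le]; constructor <;> linarith
  have hi : ∀ l : Λ, Integrable (fun u : Λ → Fin (r + 1) → unitInterval =>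
      |tilt (X (u l)) true - tilt (X' (u l)) true|) (uniformArrays Λ r) := fun l =>
    mt_integrable (hd.comp (measurable_pi_apply l)) fun u => hb _ _
  have he : ∀ l : Λ, ∫ u, |tilt (X (u l)) true - tilt (X' (u l)) true| ∂(uniformArrays Λ r) =
      ∫ u, |tilt (X u) true - tilt (X' u) true|
        ∂(Measure.pi fun _ : Fin (r + 1) => (volume : Measure unitInterval)) := by
    intro l
    have hmp := measurePreserving_eval
      (fun _ : Λ => Measure.pi fun _ : Fin (r + 1) => (volume : Measure unitInterval)) l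
    conv_rhs => rw [← hmp.map_eq]
    rw [integral_map hmp.measurable.aemeasurable hd.aestronglyMeasurable]
    rfl
  have h2 : ∫ u, |Real.log (mixW v fun l => X (u l)) - Real.log (mixW v fun l => X' (u l))|
      ∂(uniformArrays Λ r) ≤ Real.exp a * (Real.exp a * (2 * (Fintype.card Λ *
        ∫ u, |tilt (X u) true - tilt (X' u) true|
          ∂(Measure.pi fun _ : Fin (r + 1) => (volume : Measure unitInterval))))) := by
    have : (Fintype.card Λ : ℝ) * ∫ u, |tilt (X u) true - tilt (X' u) true|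
          ∂(Measure.pi fun _ : Fin (r + 1) => (volume : Measure unitInterval))
        = ∫ u, ∑ l, |tilt (X (u l)) true - tilt (X' (u l)) true| ∂(uniformArrays Λ r) := by
      rw [integral_finsetSum _ fun l _ => hi l]
      simp [he]
    rw [this, ← integral_const_mul, ← integral_const_mul, ← integral_const_mul]
    refine integral_mono (hW.int_log.sub hW'.int_log).abs
      ((((integrable_finsetSum _ fun l _ => hi l).const_mul _).const_mul _).const_mul _)
      fun u => ?_
    refine (mt_log_sub_le (hW.2 u).1 (hW'.2 u).1).trans ?_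
    exact mul_le_mul_of_nonneg_left (mt_mixW_lip (fun s => mt_abs_le_of_mem (hv s)) _ _)
      (Real.exp_pos _).le
  unfold mT powerMeans
  rw [← integral_sub hG.int_log hG'.int_log]
  refine abs_integral_le_integral_abs.trans (h1.trans ?_)
  refine (mul_le_mul_of_nonneg_left h2 (Real.exp_pos _).le).trans (le_of_eq ?_)
  rw [show a * (2 * r + 2) = 2 * a * r + a + a by ring, Real.exp_add, Real.exp_add]
  ring

end

lemma mt_siteTerm_eq {p K : ℕ} (h : ℝ) (θs : Fin K → Inter p) (x : Fin K → Fin (p - 1) → ℝ) :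
    siteTerm h θs x = mixW (vSite h θs) fun l => x l.1 l.2 := by
  have key : ∀ ε : Bool, Real.exp (h * spinVal ε + ∑ j, siteMessage (θs j) (x j) ε) =
      ∑ s : Fin K × Fin (p - 1) → Bool,
        Real.exp (h * spinVal ε + ∑ j, θs j (lastExt (fun ℓ => s (j, ℓ)) ε)) *
          ∏ l : Fin K × Fin (p - 1), tilt (x l.1 l.2) (s l) := by
    intro ε
    have h1 : ∀ j, Real.exp (siteMessage (θs j) (x j) ε) = ∑ s' : Fin (p - 1) → Bool,
        Real.exp (θs j (lastExt s' ε)) * ∏ ℓ, tilt (x j ℓ) (s' ℓ) := by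
      intro j
      refine Real.exp_log (Finset.sum_pos (fun s' _ => ?_) Finset.univ_nonempty)
      exact mul_pos (Real.exp_pos _) (Finset.prod_pos fun _ _ => tilt_pos _ _)
    rw [Real.exp_add, Real.exp_sum]
    simp only [h1]
    rw [Fintype.prod_sum (fun j (s' : Fin (p - 1) → Bool) =>
      Real.exp (θs j (lastExt s' ε)) * ∏ ℓ, tilt (x j ℓ) (s' ℓ)), Finset.mul_sum]
    refine (Fintype.sum_equiv (Equiv.curry (Fin K) (Fin (p - 1)) Bool) _ _ fun s => ?_).symm
    rw [Real.exp_add, Real.exp_sum, Fintype.prod_prod_type, Finset.prod_mul_distrib, mul_assoc]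
    rfl
  simp only [siteTerm, key, mixW, vSite, av_bool, Fintype.sum_bool]
  rw [← Finset.sum_add_distrib, Finset.mul_sum]
  refine Finset.sum_congr rfl fun s _ => ?_
  ring

theorem trial_eq (p : ℕ) (α : ℝ) (μ : Measure (Inter p)) (ν : Measure ℝ) (r : ℕ) (m : Fin r → ℝ)
    (X : (Fin (r + 1) → unitInterval) → ℝ) :
    trialFunctional p α μ ν r m X = Real.log 2 +
      (∑' K : ℕ, poissonWeight (α * p) K *
        ∫ θs, ∫ h, mT r m X (vSite h θs) ∂ν ∂(Measure.pi fun _ : Fin K => μ)) -
      α * (p - 1 : ℝ) * ∫ θ, mT r m X (vEdge θ) ∂μ := by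
  simp only [trialFunctional, mT, mt_siteTerm_eq]
  rfl

end Crest.Agent.R141
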