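import Mathlib
import Crest.Agent.R141.Basic

/-!
Row 141: uniform finite laws, digits and approximation by step functions.
-/

set_option autoImplicit false

namespace Crest.Agent.R141

open Finset MeasureTheory Filter Crest.Agent.R153 Crest.ProbabilityR.Diluted

section
variable {T T' E E' : Type} [Fintype T] [Fintype T'] [MeasurableSpace E] [MeasurableSpace E']

theorem grid_unifM_apply (θ : T → E) {s : Set E} (hs : MeasurableSet s) :
    unifM θ s = (Fintype.card T : ENNReal)⁻¹ * ∑ t, s.indicator 1 (θ t) := by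
  simp only [unifM, Measure.smul_apply, Measure.coe_finsetSum, Finset.sum_apply, smul_eq_mul,
    Measure.dirac_apply' _ hs]

theorem grid_unifM_empty [IsEmpty T] (θ : T → E) : unifM θ = 0 := by
  simp [unifM]

theorem unifM_prob [Nonempty T] (θ : T → E) : IsProbabilityMeasure (unifM θ) := by
  refine ⟨?_⟩
  rw [grid_unifM_apply θ MeasurableSet.univ]
  simp only [Set.indicator_univ, Pi.one_apply, Finset.sum_const, Finset.card_univ, nsmul_eq_mul,
    mul_one]
  exact ENNReal.inv_mul_cancel (by exact_mod_cast Fintype.card_ne_zero) (ENNReal.natCast_ne_top _)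

theorem integrable_unifM [MeasurableSingletonClass E] (θ : T → E) (G : E → ℝ) :
    Integrable G (unifM θ) := by
  rcases isEmpty_or_nonempty T with h | h
  · rw [grid_unifM_empty]; exact integrable_zero_measure
  · refine Integrable.smul_measure ?_ (ENNReal.inv_ne_top.2 (by exact_mod_cast Fintype.card_ne_zero))
    exact integrable_finsetSum_measure.2 fun t _ => integrable_dirac (by simp)

theorem integral_unifM [MeasurableSingletonClass E] (θ : T → E) (G : E → ℝ) :
    ∫ x, G x ∂(unifM θ) = av fun t => G (θ t) := by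
  rw [unifM, integral_smul_measure,
    integral_finsetSum_measure fun t _ => integrable_dirac (by simp)]
  simp [av, div_eq_inv_mul]

theorem map_unifM (θ : T → E) {φ : E → E'} (hφ : Measurable φ) :
    (unifM θ).map φ = unifM fun t => φ (θ t) := by
  ext s hs
  rw [Measure.map_apply hφ hs, grid_unifM_apply _ hs, grid_unifM_apply _ (hφ hs)]
  rfl

theorem pi_unifM [Nonempty T] (ι : Type) [Fintype ι] [DecidableEq ι] (θ : T → E) :
    (Measure.pi fun _ : ι => unifM θ) = unifM fun (t : ι → T) (i : ι) => θ (t i) := by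
  have := unifM_prob θ
  refine Measure.pi_eq fun s hs => ?_
  rw [grid_unifM_apply _ (MeasurableSet.univ_pi hs)]
  simp only [grid_unifM_apply _ (hs _)]
  rw [Finset.prod_mul_distrib, Fintype.prod_sum, Finset.prod_const, Finset.card_univ,
    Fintype.card_fun, Nat.cast_pow, ENNReal.inv_pow]
  congr 1
  refine Finset.sum_congr rfl fun t _ => ?_
  by_cases h : ∀ i, θ (t i) ∈ s i
  · rw [Set.indicator_of_mem (by simpa using h)]
    exact (Finset.prod_eq_one fun i _ => by rw [Set.indicator_of_mem (h i)]; rfl).symm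
  · rw [Set.indicator_of_notMem (by simpa using h)]
    push Not at h
    obtain ⟨i, hi⟩ := h
    exact (Finset.prod_eq_zero (Finset.mem_univ i) (Set.indicator_of_notMem hi _)).symm

theorem prod_unifM (θ : T → E) (θ' : T' → E') :
    (unifM θ).prod (unifM θ') = unifM fun t : T × T' => (θ t.1, θ' t.2) := by
  rcases isEmpty_or_nonempty T with h | h
  · rw [grid_unifM_empty θ, grid_unifM_empty (T := T × T'), Measure.zero_prod]
  rcases isEmpty_or_nonempty T' with h' | h'
  · rw [grid_unifM_empty θ', grid_unifM_empty (T := T × T'), Measure.prod_zero]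
  have := unifM_prob θ
  have := unifM_prob θ'
  refine Measure.prod_eq fun s t hs ht => ?_
  rw [grid_unifM_apply _ (hs.prod ht), grid_unifM_apply _ hs, grid_unifM_apply _ ht,
    mul_mul_mul_comm, Finset.sum_mul_sum, Fintype.sum_prod_type, Fintype.card_prod, Nat.cast_mul,
    ENNReal.mul_inv (Or.inr (ENNReal.natCast_ne_top _)) (Or.inl (ENNReal.natCast_ne_top _))]
  congr 1
  refine Finset.sum_congr rfl fun a _ => Finset.sum_congr rfl fun b _ => ?_
  by_cases h1 : θ a ∈ s <;> by_cases h2 : θ' b ∈ t <;> simp [h1, h2]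

end

theorem measurable_digit (n : ℕ) : Measurable (digit n) := by
  have h1 : Measurable fun u : unitInterval => ⌊((n : ℝ) + 1) * u⌋₊ :=
    Nat.measurable_floor.comp (measurable_const.mul measurable_subtype_coe)
  exact (measurable_from_top (f := fun k : ℕ =>
    (⟨min n k, Nat.lt_succ_of_le (min_le_left _ _)⟩ : Fin (n + 1)))).comp h1

theorem map_digit (n : ℕ) :
    (volume : Measure unitInterval).map (digit n) = unifM fun t : Fin (n + 1) => t := by
  refine Measure.ext_of_singleton fun i => ?_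
  have hn : (0 : ℝ) < (n : ℝ) + 1 := by positivity
  have hi : ((i : ℕ) : ℝ) + 1 ≤ (n : ℝ) + 1 := by exact_mod_cast i.2
  let a : unitInterval := ⟨(i : ℕ) / ((n : ℝ) + 1), by positivity,
    (div_le_one hn).2 (by linarith)⟩
  let b : unitInterval := ⟨((i : ℕ) + 1) / ((n : ℝ) + 1), by positivity, (div_le_one hn).2 hi⟩
  have hae : digit n ⁻¹' {i} =ᵐ[volume] Set.Ico a b := by
    have h1 : ∀ᵐ u : unitInterval, u ≠ 1 := by simp [ae_iff]
    filter_upwards [h1] with u hu
    have hu1 : (u : ℝ) < 1 := lt_of_le_of_ne u.2.2 fun h => hu (Subtype.ext h)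
    have hu0 : (0 : ℝ) ≤ ((n : ℝ) + 1) * u := mul_nonneg hn.le u.2.1
    have h2 : ⌊((n : ℝ) + 1) * u⌋₊ ≤ n := by
      rw [← Nat.lt_succ_iff, Nat.floor_lt hu0]
      push_cast
      nlinarith
    refine propext ?_
    change digit n u = i ↔ a ≤ u ∧ u < b
    rw [Fin.ext_iff]
    change min n _ = _ ↔ ((i : ℕ) : ℝ) / ((n : ℝ) + 1) ≤ u ∧ (u : ℝ) < ((i : ℕ) + 1) / ((n : ℝ) + 1)
    rw [min_eq_right h2, Nat.floor_eq_iff hu0, div_le_iff₀ hn, lt_div_iff₀ hn, mul_comm (u : ℝ)]
  rw [Measure.map_apply (measurable_digit n) (measurableSet_singleton i), measure_congr hae,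
    unitInterval.volume_Ico, grid_unifM_apply _ (measurableSet_singleton i),
    Finset.sum_eq_single i (fun j _ hj => Set.indicator_of_notMem (by simpa using hj) _) (by simp)]
  have e : (b : ℝ) - a = ((n : ℝ) + 1)⁻¹ := by
    change ((i : ℕ) + 1) / ((n : ℝ) + 1) - (i : ℕ) / ((n : ℝ) + 1) = _
    field_simp
    ring
  rw [e, ENNReal.ofReal_inv_of_pos hn]
  simp only [Fintype.card_fin, Set.mem_singleton_iff, Set.indicator_of_mem, Pi.one_apply, mul_one]
  congr 1
  exact_mod_cast ENNReal.ofReal_natCast (n + 1)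

theorem integral_digit (n : ℕ) (g : Fin (n + 1) → ℝ) :
    ∫ u : unitInterval, g (digit n u) = av g := by
  rw [← integral_map (measurable_digit n).aemeasurable
    (measurable_from_top (f := g)).aestronglyMeasurable, map_digit, integral_unifM]

/-- The left endpoint of a cell. -/
noncomputable def gridCorner (n : ℕ) (i : Fin (n + 1)) : unitInterval :=
  ⟨(i : ℕ) / ((n : ℝ) + 1), by positivity, (div_le_one (by positivity)).2 (by
    have : ((i : ℕ) : ℝ) + 1 ≤ (n : ℝ) + 1 := by exact_mod_cast i.2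
    linarith)⟩

theorem grid_dist_corner (n : ℕ) (u : unitInterval) :
    dist u (gridCorner n (digit n u)) ≤ 1 / ((n : ℝ) + 1) := by
  have hn : (0 : ℝ) < (n : ℝ) + 1 := by positivity
  have hu0 : (0 : ℝ) ≤ ((n : ℝ) + 1) * u := mul_nonneg hn.le u.2.1
  have h1 : ((min n ⌊((n : ℝ) + 1) * u⌋₊ : ℕ) : ℝ) ≤ ((n : ℝ) + 1) * u :=
    le_trans (by exact_mod_cast min_le_right _ _) (Nat.floor_le hu0)
  have h2 : ((n : ℝ) + 1) * u ≤ ((min n ⌊((n : ℝ) + 1) * u⌋₊ : ℕ) : ℝ) + 1 := by
    rcases le_total n ⌊((n : ℝ) + 1) * u⌋₊ with h | h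
    · rw [min_eq_left h]
      nlinarith [u.2.2]
    · rw [min_eq_right h]
      exact (Nat.lt_floor_add_one _).le
  change |(u : ℝ) - ((min n ⌊((n : ℝ) + 1) * u⌋₊ : ℕ) : ℝ) / ((n : ℝ) + 1)| ≤ _
  have e : (u : ℝ) - ((min n ⌊((n : ℝ) + 1) * u⌋₊ : ℕ) : ℝ) / ((n : ℝ) + 1)
      = (((n : ℝ) + 1) * u - ((min n ⌊((n : ℝ) + 1) * u⌋₊ : ℕ) : ℝ)) / ((n : ℝ) + 1) := by
    field_simp
  rw [e, abs_div, abs_of_pos hn, abs_of_nonneg (by linarith)]
  exact div_le_div_of_nonneg_right (by linarith) hn.le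

theorem grid_aux {Y : Type} [MetricSpace Y] [CompactSpace Y] [MeasurableSpace Y] [BorelSpace Y]
    (μ : Measure Y) [IsProbabilityMeasure μ] (q : ℕ → Y → Y)
    (hq : ∀ n y, dist y (q n y) ≤ 1 / ((n : ℝ) + 1)) {F : Y → ℝ} (hF : Integrable F μ) {ε : ℝ}
    (hε : 0 < ε) : ∃ (G : Y → ℝ) (n₀ : ℕ), ∀ n : ℕ, n₀ ≤ n → ∫ u, |F u - G (q n u)| ∂μ ≤ ε := by
  obtain ⟨G, hG, hGi⟩ := hF.exists_boundedContinuous_integral_sub_le (half_pos hε)
  obtain ⟨δ, hδ, hU⟩ := Metric.uniformContinuous_iff.1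
    (CompactSpace.uniformContinuous_of_continuous G.continuous) _ (half_pos hε)
  obtain ⟨n₀, hn₀⟩ := exists_nat_one_div_lt hδ
  refine ⟨G, n₀, fun n hn => ?_⟩
  have h1 : ∀ u, |F u - G (q n u)| ≤ ‖F u - G u‖ + ε / 2 := fun u => by
    have h2 : dist u (q n u) < δ := (hq n u).trans_lt (lt_of_le_of_lt
      (one_div_le_one_div_of_le (by positivity) (by exact_mod_cast Nat.succ_le_succ hn)) hn₀)
    have h3 := (hU h2).le
    rw [Real.dist_eq] at h3
    exact (abs_sub_le _ (G u) _).trans (add_le_add le_rfl h3)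
  have hi : Integrable (fun u => ‖F u - G u‖) μ := (hF.sub hGi).norm
  calc _ ≤ ∫ u, (‖F u - G u‖ + ε / 2) ∂μ :=
        integral_mono_of_nonneg (Eventually.of_forall fun _ => abs_nonneg _)
          (hi.add (integrable_const _)) (Eventually.of_forall h1)
    _ = ∫ u, ‖F u - G u‖ ∂μ + ε / 2 := by rw [integral_add hi (integrable_const _)]; simp
    _ ≤ ε := by linarith

theorem grid_approx (ι : Type) [Fintype ι] [DecidableEq ι] {F : (ι → unitInterval) → ℝ}
    (hF : Integrable F (Measure.pi fun _ : ι => (volume : Measure unitInterval))) {ε : ℝ}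
    (hε : 0 < ε) : ∃ n₀ : ℕ, ∀ n : ℕ, n₀ ≤ n → ∃ g : (ι → Fin (n + 1)) → ℝ,
      ∫ u, |F u - g fun i => digit n (u i)|
        ∂(Measure.pi fun _ : ι => (volume : Measure unitInterval)) ≤ ε := by
  have hq : ∀ (n : ℕ) (u : ι → unitInterval),
      dist u (fun i => gridCorner n (digit n (u i))) ≤ 1 / ((n : ℝ) + 1) := fun n u =>
    (dist_pi_le_iff (by positivity)).2 fun i => grid_dist_corner n (u i)
  obtain ⟨G, n₀, h⟩ := grid_aux (Y := ι → unitInterval) _
    (fun n u i => gridCorner n (digit n (u i))) hq hF hε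
  exact ⟨n₀, fun n hn => ⟨fun t => G fun i => gridCorner n (t i), h n hn⟩⟩

theorem grid_approx_one {F : unitInterval → ℝ} (hF : Integrable F) {ε : ℝ} (hε : 0 < ε) :
    ∃ n₀ : ℕ, ∀ n : ℕ, n₀ ≤ n → ∃ g : Fin (n + 1) → ℝ, ∫ u, |F u - g (digit n u)| ≤ ε := by
  obtain ⟨G, n₀, h⟩ := grid_aux _ (fun n u => gridCorner n (digit n u)) grid_dist_corner hF hε
  exact ⟨n₀, fun n hn => ⟨fun t => G (gridCorner n t), h n hn⟩⟩

end Crest.Agent.R141
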