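import Mathlib
import Crest.Agent.R141.Grid

/-!
Row 141: finite filtered spaces realised by uniform variables.
-/

set_option autoImplicit false

namespace Crest.Agent.R141

open Finset MeasureTheory Filter Crest.Agent.R153 Crest.ProbabilityR.Diluted

lemma realize_measurable {Ξ Ω : Type} [Fintype Ξ] [MeasurableSpace Ω] {ψ : Ω → Ξ}
    (hψ : ∀ ξ, MeasurableSet {u | ψ u = ξ}) (g : Ξ → ℝ) : Measurable fun u => g (ψ u) := by
  let _ : MeasurableSpace Ξ := ⊤
  exact (measurable_from_top (f := g)).comp (measurable_to_countable' hψ)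

lemma realize_integrable {Ξ Ω : Type} [Fintype Ξ] [MeasurableSpace Ω] {ψ : Ω → Ξ}
    (hψ : ∀ ξ, MeasurableSet {u | ψ u = ξ}) (g : Ξ → ℝ) (μ : Measure Ω) [IsFiniteMeasure μ] :
    Integrable (fun u => g (ψ u)) μ :=
  Integrable.of_bound (realize_measurable hψ g).aestronglyMeasurable (∑ ξ, |g ξ|)
    (Filter.Eventually.of_forall fun _ =>
      Finset.single_le_sum (f := fun ξ => |g ξ|) (fun _ _ => abs_nonneg _) (Finset.mem_univ _))

theorem Realizes.measurable {Ξ : Type} [Fintype Ξ] {D r : ℕ} {X : Filt Ξ D}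
    {Φ : (Fin (r + 1) → unitInterval) → Ξ} (h : Realizes X r Φ) (g : Ξ → ℝ) :
    Measurable fun u => g (Φ u) := realize_measurable h.meas g

/-- Sampling a probability vector with one uniform variable. -/
lemma realize_sampler {Ξ : Type} [Fintype Ξ] [Nonempty Ξ] {k : Ξ → ℝ} (h0 : ∀ ξ, 0 ≤ k ξ)
    (h1 : ∑ ξ, k ξ = 1) : ∃ s : unitInterval → Ξ, (∀ ξ, MeasurableSet {v | s v = ξ}) ∧
      ∀ g : Ξ → ℝ, ∫ v, g (s v) = ∑ ξ, k ξ * g ξ := by
  let _ : MeasurableSpace Ξ := ⊤
  have _ : DiscreteMeasurableSpace Ξ := ⟨fun _ => trivial⟩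
  let q : PMF Ξ := PMF.ofFintype (fun ξ => ENNReal.ofReal (k ξ)) (by
    rw [← ENNReal.ofReal_sum_of_nonneg fun ξ _ => h0 ξ, h1, ENNReal.ofReal_one])
  obtain ⟨s, hs, hm⟩ := q.toMeasure.exists_measurable_map_eq
  refine ⟨s, fun ξ => hs (measurableSet_singleton ξ), fun g => ?_⟩
  rw [← integral_map hs.aemeasurable (measurable_from_top (f := g)).aestronglyMeasurable, hm,
    PMF.integral_eq_sum]
  refine Finset.sum_congr rfl fun ξ _ => ?_
  simp [q, ENNReal.toReal_ofReal (h0 ξ)]

/-- Sampling the conditional kernel. -/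
lemma realize_ker_sampler {Ξ : Type} [Fintype Ξ] [Nonempty Ξ] {D : ℕ} (X : Filt Ξ D) (d : ℕ)
    (a : Ξ) : ∃ s : unitInterval → Ξ, (∀ ξ, MeasurableSet {v | s v = ξ}) ∧
      (∀ v, X.rel d a (s v)) ∧ ∀ g : Ξ → ℝ, ∫ v, g (s v) = X.E d g a := by
  classical
  obtain ⟨s, hs, hi⟩ := realize_sampler (X.ker_nonneg d a) (X.sum_ker d a)
  refine ⟨fun v => if X.rel d a (s v) then s v else a, fun ξ => ?_, fun v => ?_, fun g => ?_⟩
  · let _ : MeasurableSpace Ξ := ⊤
    exact ((measurable_from_top (f := fun x => if X.rel d a x then x else a)).comp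
      (measurable_to_countable' hs)) (t := {ξ}) trivial
  · dsimp only
    split_ifs with h
    · exact h
    · exact X.refl d a
  · rw [hi fun x => g (if X.rel d a x then x else a), ← X.E_eq_sum]
    exact X.E_congr_rel d a fun x hx => by rw [if_pos hx]

theorem exists_realizes {Ξ : Type} [Fintype Ξ] [Nonempty Ξ] {D : ℕ} (X : Filt Ξ D) (r : ℕ) :
    ∃ Φ : (Fin (r + 1) → unitInterval) → Ξ, Realizes X r Φ := by
  classical
  obtain ⟨s₀, hs₀, hi₀⟩ := realize_sampler (k := fun ξ => X.p ξ / ∑ ω, X.p ω)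
    (fun ξ => div_nonneg (X.p_pos ξ).le X.sum_p_pos.le)
    (by rw [← Finset.sum_div]; exact div_self X.sum_p_pos.ne')
  choose s hs hr hi using realize_ker_sampler X
  obtain ⟨P, hP0, hPs⟩ : ∃ P : ℕ → (ℕ → unitInterval) → Ξ, (∀ w, P 0 w = s₀ (w 0)) ∧
      ∀ d w, P (d + 1) w = s d (P d w) (w (d + 1)) :=
    ⟨fun n w => Nat.rec (s₀ (w 0)) (fun d a => s d a (w (d + 1))) n, fun _ => rfl, fun _ _ => rfl⟩
  have hrel : ∀ w d e, d ≤ e → X.rel d (P d w) (P e w) := by
    intro w d e hde
    induction e, hde using Nat.le_induction with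
    | base => exact X.refl _ _
    | succ e hde ih =>
      refine X.trans ih (X.rel_mono hde ?_)
      rw [hPs]
      exact hr _ _ _
  have hdep : ∀ w w' d, (∀ j, j ≤ d → w j = w' j) → P d w = P d w' := by
    intro w w' d
    induction d with
    | zero => intro h; rw [hP0, hP0, h 0 le_rfl]
    | succ d ih =>
      intro h
      rw [hPs, hPs, ih fun j hj => h j (hj.trans (Nat.le_succ d)), h _ le_rfl]
  obtain ⟨ext, hext, hextm⟩ : ∃ ext : (Fin (r + 1) → unitInterval) → ℕ → unitInterval,
      (∀ u (j : Fin (r + 1)), ext u j = u j) ∧ Measurable ext := by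
    refine ⟨fun u n => u ⟨min n r, Nat.lt_succ_of_le (min_le_right _ _)⟩, fun u j => ?_,
      measurable_pi_lambda _ fun n => measurable_pi_apply _⟩
    exact congrArg u (Fin.ext (min_eq_left (Nat.le_of_lt_succ j.2)))
  refine ⟨fun u => P r (ext u), fun ξ => ?_, fun g hg => ?_, fun d g hg u => ?_⟩
  · let _ : MeasurableSpace Ξ := ⊤
    have _ : DiscreteMeasurableSpace Ξ := ⟨fun _ => trivial⟩
    have hm : ∀ d, Measurable (P d) := by
      intro d
      induction d with
      | zero =>
        rw [show P 0 = fun w => s₀ (w 0) from funext hP0]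
        exact (measurable_to_countable' hs₀).comp (measurable_pi_apply 0)
      | succ d ih =>
        rw [show P (d + 1) = fun w => s d (P d w) (w (d + 1)) from funext (hPs d)]
        have h2 : Measurable fun q : Ξ × unitInterval => s d q.1 q.2 :=
          measurable_from_prod_countable_right fun a => measurable_to_countable' (hs d a)
        exact h2.comp (ih.prodMk (measurable_pi_apply (d + 1)))
    exact ((hm r).comp hextm) (measurableSet_singleton ξ)
  · have e : ∀ u, g (P r (ext u)) = g (s₀ (u 0)) := fun u => by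
      rw [← hg _ _ (hrel (ext u) 0 r (Nat.zero_le r)), hP0]
      exact congrArg (fun v => g (s₀ v)) (hext u 0)
    simp only [e]
    rw [integral_comp_eval (μ := fun _ : Fin (r + 1) => (volume : Measure unitInterval)) (i := 0)
      (f := fun v => g (s₀ v)) (realize_measurable hs₀ g).aestronglyMeasurable, hi₀, Filt.Ex,
      Finset.sum_div]
    exact Finset.sum_congr rfl fun ξ _ => by ring
  · have e : ∀ v : unitInterval, g (P r (ext fun j => if j = d.succ then v else u j)) =
        g (s d (P d (ext u)) v) := fun v => by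
      rw [← hg _ _ (hrel _ (d + 1) r d.2), hPs]
      have e1 : ext (fun j => if j = d.succ then v else u j) (d + 1) = v := by
        have := hext (fun j => if j = d.succ then v else u j) d.succ
        simpa using this
      have e2 : P d (ext fun j => if j = d.succ then v else u j) = P d (ext u) := by
        refine hdep _ _ _ fun j hj => ?_
        have hj' : j < r + 1 := by have := d.2; omega
        have h1 := hext (fun j => if j = d.succ then v else u j) ⟨j, hj'⟩
        have h2 := hext u ⟨j, hj'⟩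
        have h3 : (⟨j, hj'⟩ : Fin (r + 1)) ≠ d.succ := fun h => by
          have := congrArg Fin.val h
          simp at this
          omega
        simp only [if_neg h3] at h1
        exact h1.trans h2.symm
      rw [e1, e2]
    simp only [e]
    rw [hi]
    exact X.meas_E d g _ _ (hrel _ _ _ d.2.le)

/-- Independent copies. -/
lemma realize_pi_integral {Ξ : Type} [Fintype Ξ] {D : ℕ} (X : Filt Ξ D) (e : ℕ)
    {Λ : Type} [Fintype Λ] [DecidableEq Λ] {Ω : Type} [MeasurableSpace Ω] (μ : Measure Ω)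
    [IsProbabilityMeasure μ] {ψ : Λ → Ω → Ξ} (hψ : ∀ l ξ, MeasurableSet {v | ψ l v = ξ})
    {G : (Λ → Ξ) → ℝ} (hG : (Filt.pi fun _ : Λ => X).Meas e G) :
    ∫ v, G (fun l => ψ l (v l)) ∂(Measure.pi fun _ : Λ => μ) =
      ∑ ξ : Λ → Ξ, (∏ l, ∫ v, X.ker e (ψ l v) (ξ l) ∂μ) * G ξ := by
  have h1 : ∀ x, G x = ∑ ξ : Λ → Ξ, (∏ l, X.ker e (x l) (ξ l)) * G ξ := fun x => by
    rw [← (Filt.pi fun _ : Λ => X).E_of_meas hG x, Filt.E_eq_sum]
    simp only [Filt.ker_pi]
  rw [show (fun v : Λ → Ω => G fun l => ψ l (v l)) =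
    fun v => ∑ ξ : Λ → Ξ, (∏ l, X.ker e (ψ l (v l)) (ξ l)) * G ξ from funext fun v => h1 _,
    integral_finsetSum]
  · refine Finset.sum_congr rfl fun ξ _ => ?_
    rw [integral_mul_const, integral_fintype_prod_eq_prod fun l v => X.ker e (ψ l v) (ξ l)]
  · intro ξ _
    exact (Integrable.fintype_prod (f := fun l v => X.ker e (ψ l v) (ξ l)) fun l =>
      realize_integrable (hψ l) (fun x => X.ker e x (ξ l)) μ).mul_const _

lemma realize_meas_ker {Ξ : Type} [Fintype Ξ] {D : ℕ} (X : Filt Ξ D) (e : ℕ) (ξ : Ξ) :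
    X.Meas e fun x => X.ker e x ξ := by
  intro ω ω' h
  have : ∀ x, ind (X.rel e ω x) = ind (X.rel e ω' x) := fun x =>
    ind_congr ⟨fun hx => X.trans (X.symm h) hx, fun hx => X.trans h hx⟩
  simp only [Filt.ker, this]

lemma realize_pi_expand {Ξ : Type} [Fintype Ξ] {D : ℕ} (X : Filt Ξ D) (e : ℕ)
    {Λ : Type} [Fintype Λ] [DecidableEq Λ] {G : (Λ → Ξ) → ℝ}
    (hG : (Filt.pi fun _ : Λ => X).Meas e G) :
    G = fun x => ∑ ξ : Λ → Ξ, (∏ l, X.ker e (x l) (ξ l)) * G ξ := funext fun x => by
  rw [← (Filt.pi fun _ : Λ => X).E_of_meas hG x, Filt.E_eq_sum]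
  simp only [Filt.ker_pi]

lemma realize_pi_zero {Ξ : Type} [Fintype Ξ] {D r : ℕ} {X : Filt Ξ D}
    {Φ : (Fin (r + 1) → unitInterval) → Ξ} (h : Realizes X r Φ)
    {Λ : Type} [Fintype Λ] [DecidableEq Λ] {G : (Λ → Ξ) → ℝ}
    (hG : (Filt.pi fun _ : Λ => X).Meas 0 G) :
    ∫ u, G (fun l => Φ (u l)) ∂(uniformArrays Λ r) = (Filt.pi fun _ : Λ => X).Ex G := by
  unfold uniformArrays
  rw [realize_pi_integral X 0 _ (ψ := fun _ => Φ) (fun _ => h.meas) hG]
  conv_rhs => rw [realize_pi_expand X 0 hG]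
  rw [Filt.Ex_sum]
  refine Finset.sum_congr rfl fun ξ _ => ?_
  rw [Filt.Ex_mul_const, Filt.Ex_pi_prod (fun _ : Λ => X) fun l x => X.ker 0 x (ξ l)]
  congr 1
  exact Finset.prod_congr rfl fun l _ => h.zero _ (realize_meas_ker X 0 (ξ l))

lemma realize_pi_step {Ξ : Type} [Fintype Ξ] {D r : ℕ} {X : Filt Ξ D}
    {Φ : (Fin (r + 1) → unitInterval) → Ξ} (h : Realizes X r Φ)
    {Λ : Type} [Fintype Λ] [DecidableEq Λ] (d : Fin r) {G : (Λ → Ξ) → ℝ}
    (hG : (Filt.pi fun _ : Λ => X).Meas (d + 1) G) (u : Λ → Fin (r + 1) → unitInterval) :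
    ∫ v : Λ → unitInterval, G (fun l => Φ fun j => if j = d.succ then v l else u l j)
        ∂(Measure.pi fun _ : Λ => (volume : Measure unitInterval)) =
      (Filt.pi fun _ : Λ => X).E d G fun l => Φ (u l) := by
  rw [realize_pi_integral X (d + 1) _
    (ψ := fun l v => Φ fun j => if j = d.succ then v else u l j) (fun l ξ => ?_) hG]
  · conv_rhs => rw [realize_pi_expand X (d + 1) hG]
    rw [Filt.E_sum]
    refine Finset.sum_congr rfl fun ξ _ => ?_
    rw [Filt.E_mul_const, Filt.E_pi_prod (fun _ : Λ => X) d fun l x => X.ker (d + 1) x (ξ l)]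
    congr 1
    exact Finset.prod_congr rfl fun l _ => h.step d _ (realize_meas_ker X (d + 1) (ξ l)) (u l)
  · have hm : Measurable fun (v : unitInterval) (j : Fin (r + 1)) =>
        if j = d.succ then v else u l j := by
      refine measurable_pi_lambda _ fun j => ?_
      split_ifs
      · exact measurable_id
      · exact measurable_const
    exact hm (h.meas ξ)

theorem realize_pm {Ξ : Type} [Fintype Ξ] {D r : ℕ} {X : Filt Ξ D}
    {Φ : (Fin (r + 1) → unitInterval) → Ξ} (h : Realizes X r Φ) {γ : ℕ → ℝ} (hγ : Adm γ)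
    {m : Fin r → ℝ} (hm : ∀ d : Fin r, m d = ∏ j ∈ Finset.Ico ((d : ℕ) + 1) (r + 1), γ j)
    {Λ : Type} [Fintype Λ] [DecidableEq Λ] {W : (Λ → Ξ) → ℝ} (hW : ∀ x, 0 < W x)
    (hWm : (Filt.pi fun _ : Λ => X).Meas r W) :
    ∫ u, Real.log (powerMeans m
        (fun u' : Λ → Fin (r + 1) → unitInterval => W fun l => Φ (u' l)) u) ∂(uniformArrays Λ r) =
      (Filt.pi fun _ : Λ => X).Ex (fun x => Real.log
        ((Filt.pi fun _ : Λ => X).Q γ r (fun y => W y ^ γ r) 0 x)) / ∏ j ∈ range (r + 1), γ j := by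
  have hV : ∀ y, 0 < W y ^ γ r := fun y => Real.rpow_pos_of_pos (hW y) _
  have hVm : (Filt.pi fun _ : Λ => X).Meas r fun y => W y ^ γ r := hWm.comp fun t => t ^ γ r
  have hQ := (Filt.pi fun _ : Λ => X).Q_pos γ r hV
  have key : ∀ d, d ≤ r → ∀ u : Λ → Fin (r + 1) → unitInterval,
      ((List.finRange r).drop d).foldr (fun d acc => pmStep (m d) d.succ acc)
        (fun u' : Λ → Fin (r + 1) → unitInterval => W fun l => Φ (u' l)) u =
      ((Filt.pi fun _ : Λ => X).Q γ r (fun y => W y ^ γ r) d fun l => Φ (u l)) ^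
        (∏ j ∈ Finset.Ico d (r + 1), γ j)⁻¹ := by
    refine Filt.down_induction (fun u => ?_) fun d hd ih u => ?_
    · rw [List.drop_of_length_le (by simp), List.foldr_nil, Filt.Q_self, Nat.Ico_succ_singleton,
        Finset.prod_singleton, Real.rpow_rpow_inv (hW _).le (hγ r).1.ne']
    · have hμ := Filt.adm_prod_pos hγ (Finset.Ico (d + 1) (r + 1))
      rw [List.drop_eq_getElem_cons (by simpa using hd), List.foldr_cons, List.getElem_finRange,
        pmStep]
      simp only [ih]
      simp only [hm, Fin.val_cast, Real.rpow_inv_rpow (hQ _ _).le hμ.ne']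
      have h1 := realize_pi_step h ⟨d, hd⟩ ((Filt.pi fun _ : Λ => X).meas_Q γ hVm hd) u
      refine (congrArg (fun t => t ^ (1 / ∏ j ∈ Finset.Ico (d + 1) (r + 1), γ j)) h1).trans ?_
      rw [Filt.Q_succ _ γ hd, ← Real.rpow_mul ((Filt.pi fun _ : Λ => X).E_pos d (hQ _) _).le,
        Finset.prod_eq_prod_Ico_succ_bot (show d < r + 1 by omega)]
      congr 1
      have := (hγ d).1.ne'
      field_simp
  have e : ∀ u : Λ → Fin (r + 1) → unitInterval, Real.log (powerMeans m
      (fun u' : Λ → Fin (r + 1) → unitInterval => W fun l => Φ (u' l)) u) =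
      Real.log ((Filt.pi fun _ : Λ => X).Q γ r (fun y => W y ^ γ r) 0 fun l => Φ (u l)) /
        ∏ j ∈ range (r + 1), γ j := fun u => by
    have := key 0 (Nat.zero_le r) u
    rw [List.drop_zero] at this
    rw [powerMeans, this, Real.log_rpow (hQ _ _), Finset.range_eq_Ico, div_eq_inv_mul]
  simp only [e]
  rw [← Filt.Ex_div_const]
  exact realize_pi_zero h (((Filt.pi fun _ : Λ => X).meas_Q γ hVm (Nat.zero_le r)).comp
    fun t => Real.log t / ∏ j ∈ range (r + 1), γ j)

lemma realize_gridF_E {r n d : ℕ} (hd : d ≤ r) (g : (Fin (r + 1) → Fin (n + 1)) → ℝ)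
    (f : (Fin (r + 1) → Fin (n + 1)) × Bool → ℝ) (x : (Fin (r + 1) → Fin (n + 1)) × Bool) :
    (gridF r n g).E d f x =
      (UF r n).E d (fun y => tilt (g y) true * f (y, true) + tilt (g y) false * f (y, false))
        x.1 := by
  have hr : ∀ y s, ind ((gridF r n g).rel d x (y, s)) = ind ((UF r n).rel d x.1 y) := by
    intro y s
    refine ind_congr ⟨fun h j hj => h.1 j ?_, fun h => ⟨fun j hj => h j (Or.inl hj), fun h => ?_⟩⟩
    · rcases hj with hj | hj
      · exact hj
      · have := j.2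
        omega
    · omega
  have hp : ∀ y, (UF r n).p y = 1 := fun y => by simp [UF, Filt.pi, Filt.coin]
  have hp' : ∀ y s, (gridF r n g).p (y, s) = tilt (g y) s := fun _ _ => rfl
  unfold Filt.E
  simp only [Fintype.sum_prod_type, hr, hp, hp', Fintype.sum_bool, mul_one]
  congr 1
  · exact Finset.sum_congr rfl fun y _ => by ring
  · exact Finset.sum_congr rfl fun y _ => by rw [← mul_add, tilt_true_add_false, mul_one]

lemma realize_UF_step {r n : ℕ} (d : Fin r) {h : U r n → ℝ} (hh : (UF r n).Meas (d + 1) h)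
    (x : U r n) : (UF r n).E d h x = av fun c => h (Function.update x d.succ c) := by
  have hp : ∀ y, (UF r n).p y = 1 := fun y => by simp [UF, Filt.pi, Filt.coin]
  have hd := d.2
  have hr : ∀ (e : ℕ) (y z : U r n), (UF r n).rel e y z ↔
      ∀ j : Fin (r + 1), ((j : ℕ) ≤ e ∨ r ≤ e) → y j = z j := fun _ _ _ => Iff.rfl
  have hm : (UF r n).Meas d fun y => av fun c => h (Function.update y d.succ c) := by
    intro y z hyz
    refine av_congr fun c => hh _ _ ((hr _ _ _).2 fun j hj => ?_)
    by_cases hj' : j = d.succ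
    · subst hj'; simp
    · rw [Function.update_of_ne hj', Function.update_of_ne hj']
      refine (hr _ _ _).1 hyz j (Or.inl ?_)
      have h1 : (j : ℕ) ≠ d + 1 := fun h => hj' (Fin.ext h)
      have := j.2
      omega
  rw [← (UF r n).E_of_meas hm x]
  unfold Filt.E
  congr 1
  simp only [hp, mul_one]
  have h1 := av_update d.succ fun y : U r n => ind ((UF r n).rel d x y) * h y
  have h2 : ∀ (y : U r n) (c : Fin (n + 1)),
      ind ((UF r n).rel d x (Function.update y d.succ c)) = ind ((UF r n).rel d x y) := by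
    intro y c
    refine ind_congr (forall_congr' fun j => forall_congr' fun hj => ?_)
    rw [Function.update_of_ne]
    intro h
    have := congrArg Fin.val h
    simp only [Fin.val_succ] at this
    omega
  simp only [h2, av_const_mul] at h1
  have hc : (Fintype.card (U r n) : ℝ) ≠ 0 := by exact_mod_cast Fintype.card_ne_zero
  exact ((div_left_inj' hc).1 h1).symm

theorem realizes_grid (r n : ℕ) (g : (Fin (r + 1) → Fin (n + 1)) → ℝ) :
    Realizes (gridF r n g) r fun u => (fun j => digit n (u j), true) := by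
  have hdig : Measurable fun (u : Fin (r + 1) → unitInterval) (j : Fin (r + 1)) => digit n (u j) :=
    measurable_pi_lambda _ fun j => (measurable_digit n).comp (measurable_pi_apply j)
  have hs : ∀ {e : ℕ} {f : (Fin (r + 1) → Fin (n + 1)) × Bool → ℝ}, e ≤ r →
      (gridF r n g).Meas e f → ∀ y, f (y, false) = f (y, true) := by
    intro e f he hf y
    exact hf _ _ ⟨fun _ _ => rfl, fun h => absurd h (by omega)⟩
  refine ⟨fun ξ => (hdig.prodMk measurable_const) (measurableSet_singleton ξ), fun f hf => ?_,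
    fun d f hf u => ?_⟩
  · have hp' : ∀ y s, (gridF r n g).p (y, s) = tilt (g y) s := fun _ _ => rfl
    have _ : ∀ _ : Fin (r + 1), SigmaFinite ((volume : Measure unitInterval).map (digit n)) :=
      fun _ => inferInstance
    rw [← integral_map hdig.aemeasurable (f := fun y => f (y, true))
      (measurable_of_finite _).aestronglyMeasurable,
      Measure.pi_map_pi fun _ => (measurable_digit n).aemeasurable]
    simp only [map_digit]
    rw [pi_unifM, integral_unifM]
    unfold Filt.Ex av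
    simp only [Fintype.sum_prod_type, hp', Fintype.sum_bool, hs (Nat.zero_le r) hf, ← add_mul,
      tilt_true_add_false, one_mul, Finset.sum_const, Finset.card_univ, nsmul_eq_mul, mul_one]
  · rw [realize_gridF_E d.2.le]
    simp only [hs d.2 hf, ← add_mul, tilt_true_add_false, one_mul]
    rw [realize_UF_step d (h := fun y => f (y, true))
      (fun y z hyz => hf _ _ ⟨fun j hj => hyz j (Or.inl hj), fun _ => rfl⟩), ← integral_digit]
    congr 1
    funext v
    congr 2
    funext j
    by_cases hj : j = d.succ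
    · subst hj; simp
    · simp [hj]

theorem gridF_E (r n : ℕ) (g : (Fin (r + 1) → Fin (n + 1)) → ℝ) (s : Bool)
    (x : (Fin (r + 1) → Fin (n + 1)) × Bool) :
    (gridF r n g).E r (fun y => ind (y.2 = s)) x = tilt (g x.1) s := by
  rw [realize_gridF_E le_rfl, Filt.E_top _ le_rfl]
  cases s <;> simp [ind]

end Crest.Agent.R141
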