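import Mathlib
import Crest.Agent.R141.MT
import Crest.Agent.R141.Realize

/-!
Row 141: hierarchical trials versus finite trials.
-/

set_option autoImplicit false

namespace Crest.Agent.R141

open Finset MeasureTheory Filter Crest.Agent.R153 Crest.ProbabilityR.Diluted

section H
variable {Ω : Type} [Fintype Ω] {D : ℕ}

/-- The logarithmic functional of a positive weight on a finite filtered space. -/
noncomputable def brH (F : Filt Ω D) (γ : ℕ → ℝ) (V : Ω → ℝ) : ℝ :=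
  F.Ex (fun x => Real.log (F.Q γ D V 0 x)) / ∏ d ∈ range D, γ d

lemma brH_le [Nonempty Ω] (F : Filt Ω D) {γ : ℕ → ℝ} (hγ : Adm γ) {V V' : Ω → ℝ}
    (hV : ∀ x, 0 < V x) (hV' : ∀ x, 0 < V' x) {c : ℝ} (h : ∀ x, V x ≤ Real.exp c * V' x) :
    brH F γ V ≤ brH F γ V' + c := by
  have hm : 0 < ∏ d ∈ range D, γ d := Filt.adm_prod_pos hγ _
  unfold brH
  rw [div_add' _ _ _ hm.ne']
  refine div_le_div_of_nonneg_right ?_ hm.le
  have : F.Ex (fun x => Real.log (F.Q γ D V' 0 x)) + c * ∏ d ∈ range D, γ d =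
      F.Ex fun x => Real.log (F.Q γ D V' 0 x) + c * ∏ d ∈ range D, γ d := by
    rw [Filt.Ex_add, Filt.Ex_const]
  rw [this]
  refine F.Ex_mono fun x => ?_
  have h1 := F.Q_mono hγ D (fun x => (hV x).le) h 0 x
  rw [F.Q_meas_mul γ (Nat.zero_le D) (F.meas_const 0 (Real.exp c)) (fun _ => Real.exp_pos c)
    (fun x => (hV' x).le) x, ← Finset.range_eq_Ico, ← Real.exp_mul] at h1
  have h2 := Real.log_le_log (F.Q_pos γ D hV 0 x) h1
  rw [Real.log_mul (Real.exp_pos _).ne' (F.Q_pos γ D hV' 0 x).ne', Real.log_exp] at h2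
  linarith

lemma abs_brH_le [Nonempty Ω] (F : Filt Ω D) {γ : ℕ → ℝ} (hγ : Adm γ) {V : Ω → ℝ} {a : ℝ}
    (hV : ∀ x, Real.exp (-a) ≤ V x ∧ V x ≤ Real.exp a) : |brH F γ V| ≤ a := by
  have hm : 0 < ∏ d ∈ range D, γ d := Filt.adm_prod_pos hγ _
  unfold brH
  rw [abs_div, abs_of_pos hm, div_le_iff₀ hm]
  exact (F.abs_Ex_le _).trans
    (F.Ex_le_of_le fun x => abs_log_le_of_mem (Q_zero_mem F hγ hV x))

lemma brH_pow_le (F : Filt Ω D) {γ γ' : ℕ → ℝ} (hγ : Adm γ) (hγ' : Adm γ') {θ : ℝ}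
    (hθ0 : 0 < θ) (hm : ∀ d, d ≤ D → θ * ∏ j ∈ Finset.Ico d D, γ j ≤ ∏ j ∈ Finset.Ico d D, γ' j)
    {V : Ω → ℝ} (hV : ∀ x, 0 < V x) : brH F γ (fun x => V x ^ θ) ≤ θ * brH F γ' V := by
  have hV0 : ∀ ω, 0 ≤ V ω := fun ω => (hV ω).le
  have hW : ∀ ω, 0 < V ω ^ θ := fun ω => Real.rpow_pos_of_pos (hV ω) _
  have hW0 : ∀ ω, 0 ≤ V ω ^ θ := fun ω => (hW ω).le
  have key : ∀ d, d ≤ D → ∀ ω, F.Q γ D (fun x => V x ^ θ) d ω ^
      ((∏ j ∈ Finset.Ico d D, γ' j) / (θ * ∏ j ∈ Finset.Ico d D, γ j)) ≤ F.Q γ' D V d ω := by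
    refine Filt.down_induction (fun ω => ?_) fun d hd ih ω => ?_
    · simp only [Filt.Q_self, Finset.Ico_self, Finset.prod_empty, mul_one]
      rw [← Real.rpow_mul (hV0 ω), mul_one_div_cancel hθ0.ne', Real.rpow_one]
    · have hp : 0 < ∏ j ∈ Finset.Ico (d + 1) D, γ j := Filt.adm_prod_pos hγ _
      set κ := (∏ j ∈ Finset.Ico (d + 1) D, γ' j) / (θ * ∏ j ∈ Finset.Ico (d + 1) D, γ j) with hκ
      have hκ1 : 1 ≤ κ := (one_le_div (mul_pos hθ0 hp)).2 (hm (d + 1) hd)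
      have hA := F.Q_nonneg γ D hW0 (d + 1)
      have hE := F.E_nonneg d hA ω
      have he : γ d * ((∏ j ∈ Finset.Ico d D, γ' j) / (θ * ∏ j ∈ Finset.Ico d D, γ j)) =
          κ * γ' d := by
        rw [Finset.prod_eq_prod_Ico_succ_bot hd, Finset.prod_eq_prod_Ico_succ_bot hd, hκ]
        have := (hγ d).1.ne'
        field_simp
      rw [F.Q_succ γ hd, F.Q_succ γ' hd, ← Real.rpow_mul hE, he, Real.rpow_mul hE]
      exact Real.rpow_le_rpow (Real.rpow_nonneg hE _)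
        ((F.rpow_E_le d hκ1 hA ω).trans (F.E_mono d ih ω)) (hγ' d).1.le
  have hp : 0 < ∏ j ∈ range D, γ j := Filt.adm_prod_pos hγ _
  have hp' : 0 < ∏ j ∈ range D, γ' j := Filt.adm_prod_pos hγ' _
  unfold brH
  rw [← mul_div_assoc, ← Filt.Ex_const_mul, ← Filt.Ex_div_const, ← Filt.Ex_div_const]
  refine F.Ex_mono fun x => ?_
  have h1 := key 0 (Nat.zero_le D) x
  rw [← Finset.range_eq_Ico] at h1
  have hQ := F.Q_pos γ D hW 0 x
  have h2 := Real.log_le_log (Real.rpow_pos_of_pos hQ _) h1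
  rw [Real.log_rpow hQ, div_mul_eq_mul_div, div_le_iff₀ (mul_pos hθ0 hp)] at h2
  rw [div_le_div_iff₀ hp hp']
  linarith

lemma brH_exp_le [Nonempty Ω] (F : Filt Ω D) {γ γ' : ℕ → ℝ} (hγ : Adm γ) (hγ' : Adm γ') {θ : ℝ}
    (hθ0 : 0 < θ) (hθ1 : θ ≤ 1)
    (hm : ∀ d, d ≤ D → θ * ∏ j ∈ Finset.Ico d D, γ j ≤ ∏ j ∈ Finset.Ico d D, γ' j)
    {V : Ω → ℝ} {a : ℝ} (hV : ∀ x, Real.exp (-a) ≤ V x ∧ V x ≤ Real.exp a) :
    brH F γ V ≤ brH F γ' V + 2 * (1 - θ) * a := by
  have hV0 : ∀ x, 0 < V x := fun x => (Real.exp_pos _).trans_le (hV x).1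
  have h1 := brH_pow_le F hγ hγ' hθ0 hm hV0
  have h2 : brH F γ V ≤ brH F γ (fun x => V x ^ θ) + a * (1 - θ) := by
    refine brH_le F hγ hV0 (fun x => Real.rpow_pos_of_pos (hV0 x) _) fun x => ?_
    calc V x = V x ^ (1 - θ) * V x ^ θ := by
          rw [← Real.rpow_add (hV0 x), sub_add_cancel, Real.rpow_one]
      _ ≤ _ := by
          refine mul_le_mul_of_nonneg_right ?_ (Real.rpow_nonneg (hV0 x).le _)
          rw [Real.exp_mul]
          exact Real.rpow_le_rpow (hV0 x).le (hV x).2 (by linarith)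
  have h3 := (abs_le.1 (abs_brH_le F hγ' hV)).1
  nlinarith [mul_nonneg (sub_nonneg.2 hθ1) (sub_nonneg.2 h3)]

lemma brH_eq_last {r : ℕ} (F : Filt Ω (r + 1)) (γ : ℕ → ℝ) (V : Ω → ℝ) :
    brH F γ V = F.Ex (fun x => Real.log (F.Q γ r (fun y => F.E r V y ^ γ r) 0 x)) /
      ∏ j ∈ range (r + 1), γ j := by
  unfold brH
  have h : F.Q γ (r + 1) V r = fun y => F.E r V y ^ γ r := by
    funext y
    rw [F.Q_succ γ (Nat.lt_succ_self r), Filt.Q_self]
  rw [← h, F.Q_comp γ (Nat.zero_le r) (Nat.le_succ r)]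

lemma brH_E {r : ℕ} (F : Filt Ω (r + 1)) (γ : ℕ → ℝ) (V : Ω → ℝ) :
    brH F γ (F.E r V) = brH F γ V := by
  rw [brH_eq_last, brH_eq_last]
  simp only [F.E_E_of_le le_rfl]

end H

section spins
variable {Ξ : Type} [Fintype Ξ] {D : ℕ} {Λ : Type} [Fintype Λ] [DecidableEq Λ]

lemma br_E_spin (Y : Filt Ξ D) (σ : Ξ → Bool) (d : ℕ) (v : (Λ → Bool) → ℝ) (x : Λ → Ξ) :
    (Filt.pi fun _ : Λ => Y).E d (fun y => v fun l => σ (y l)) x =
      ∑ s : Λ → Bool, v s * ∏ l, Y.E d (fun y => ind (σ y = s l)) (x l) := by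
  have h : ∀ y : Λ → Ξ, (v fun l => σ (y l)) =
      ∑ s : Λ → Bool, v s * ∏ l, ind (σ (y l) = s l) := by
    intro y
    rw [Finset.sum_eq_single (fun l => σ (y l))]
    · simp [ind_pos]
    · intro s _ hs
      rw [← ind_forall, ind_neg, mul_zero]
      exact fun h => hs (funext fun l => (h l).symm)
    · simp
  rw [Filt.E_congr _ d h, Filt.E_sum]
  refine Finset.sum_congr rfl fun s _ => ?_
  rw [Filt.E_const_mul, Filt.E_pi_prod (fun _ : Λ => Y) d (fun l y => ind (σ y = s l)) x]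

omit [Fintype Ξ] in
lemma br_sum_prod {q : Λ → Bool → ℝ} (hq : ∀ l, q l true + q l false = 1) :
    ∑ s : Λ → Bool, ∏ l, q l (s l) = 1 := by
  rw [← Fintype.prod_sum (fun l (b : Bool) => q l b)]
  simp [hq]

omit [Fintype Ξ] in
lemma br_mix_mem {q : Λ → Bool → ℝ} (hq0 : ∀ l b, 0 ≤ q l b) (hq : ∀ l, q l true + q l false = 1)
    {v : (Λ → Bool) → ℝ} {lo hi : ℝ} (hv : ∀ s, lo ≤ v s ∧ v s ≤ hi) :
    lo ≤ ∑ s : Λ → Bool, v s * ∏ l, q l (s l) ∧ ∑ s : Λ → Bool, v s * ∏ l, q l (s l) ≤ hi := by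
  have h0 : ∀ s : Λ → Bool, 0 ≤ ∏ l, q l (s l) := fun s => Finset.prod_nonneg fun l _ => hq0 _ _
  constructor
  · calc lo = ∑ s : Λ → Bool, lo * ∏ l, q l (s l) := by
          rw [← Finset.mul_sum, br_sum_prod hq, mul_one]
      _ ≤ _ := Finset.sum_le_sum fun s _ => mul_le_mul_of_nonneg_right (hv s).1 (h0 s)
  · calc _ ≤ ∑ s : Λ → Bool, hi * ∏ l, q l (s l) :=
          Finset.sum_le_sum fun s _ => mul_le_mul_of_nonneg_right (hv s).2 (h0 s)
      _ = hi := by rw [← Finset.mul_sum, br_sum_prod hq, mul_one]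

omit [Fintype Ξ] in
lemma br_mix_close {q : Λ → Bool → ℝ} (hq0 : ∀ l b, 0 ≤ q l b)
    (hq : ∀ l, q l true + q l false = 1) {η : ℝ} (hη0 : 0 ≤ η) (hη1 : η ≤ 1)
    {v : (Λ → Bool) → ℝ} {a : ℝ} (hv : ∀ s, Real.exp (-a) ≤ v s ∧ v s ≤ Real.exp a) :
    |(∑ s : Λ → Bool, v s * ∏ l, ((1 - η) * q l (s l) + η / 2)) -
      ∑ s : Λ → Bool, v s * ∏ l, q l (s l)| ≤ Fintype.card Λ * η * Real.exp a := by
  set k := Fintype.card Λ
  have hv0 : ∀ s, 0 ≤ v s := fun s => (Real.exp_pos _).le.trans (hv s).1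
  have hq' : ∀ l, ((1 - η) * q l true + η / 2) + ((1 - η) * q l false + η / 2) = 1 := fun l => by
    linear_combination (1 - η) * hq l
  have hS := br_sum_prod hq
  have hS' := br_sum_prod (q := fun l b => (1 - η) * q l b + η / 2) hq'
  have hle : ∀ s : Λ → Bool,
      (1 - η) ^ k * ∏ l, q l (s l) ≤ ∏ l, ((1 - η) * q l (s l) + η / 2) := fun s => by
    rw [show (1 - η) ^ k = ∏ _l : Λ, (1 - η) by simp [k], ← Finset.prod_mul_distrib]
    exact Finset.prod_le_prod (fun l _ => mul_nonneg (by linarith) (hq0 _ _))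
      fun l _ => by linarith
  have hb : 1 - (1 - η) ^ k ≤ k * η := by
    have := one_add_mul_le_pow (a := -η) (by linarith) k
    rw [← sub_eq_add_neg] at this
    linarith
  have hb1 : (1 - η) ^ k ≤ 1 := pow_le_one₀ (by linarith) (by linarith)
  obtain ⟨hW0, hW1⟩ := br_mix_mem hq0 hq hv
  set W := ∑ s : Λ → Bool, v s * ∏ l, q l (s l) with hW
  have hR : (∑ s : Λ → Bool, v s * ∏ l, ((1 - η) * q l (s l) + η / 2)) - (1 - η) ^ k * W =
      ∑ s : Λ → Bool, v s * (∏ l, ((1 - η) * q l (s l) + η / 2) - (1 - η) ^ k * ∏ l, q l (s l)) := by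
    rw [hW, Finset.mul_sum, ← Finset.sum_sub_distrib]
    exact Finset.sum_congr rfl fun s _ => by ring
  have hR0 : 0 ≤ ∑ s : Λ → Bool,
      v s * (∏ l, ((1 - η) * q l (s l) + η / 2) - (1 - η) ^ k * ∏ l, q l (s l)) :=
    Finset.sum_nonneg fun s _ => mul_nonneg (hv0 s) (sub_nonneg.2 (hle s))
  have hR1 : ∑ s : Λ → Bool,
      v s * (∏ l, ((1 - η) * q l (s l) + η / 2) - (1 - η) ^ k * ∏ l, q l (s l)) ≤
      Real.exp a * (1 - (1 - η) ^ k) := by
    calc _ ≤ ∑ s : Λ → Bool, Real.exp a *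
          (∏ l, ((1 - η) * q l (s l) + η / 2) - (1 - η) ^ k * ∏ l, q l (s l)) :=
          Finset.sum_le_sum fun s _ => mul_le_mul_of_nonneg_right (hv s).2 (sub_nonneg.2 (hle s))
      _ = _ := by
          rw [← Finset.mul_sum, Finset.sum_sub_distrib, ← Finset.mul_sum, hS, hS', mul_one]
  have hE := Real.exp_pos a
  have hW2 : 0 ≤ W := (Real.exp_pos _).le.trans hW0
  have h1 : (1 - (1 - η) ^ k) * W ≤ k * η * Real.exp a :=
    mul_le_mul hb hW1 hW2 (by positivity)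
  have h2 : Real.exp a * (1 - (1 - η) ^ k) ≤ k * η * Real.exp a := by nlinarith
  have h3 : 0 ≤ (1 - (1 - η) ^ k) * W := mul_nonneg (by linarith) hW2
  rw [abs_le]
  constructor <;> nlinarith

end spins

lemma br_le_exp_mul {x y a δ : ℝ} (hy : Real.exp (-a) ≤ y) (hδ : 0 ≤ δ) (h : x - y ≤ δ) :
    x ≤ Real.exp (δ * Real.exp a) * y := by
  have h1 : 1 ≤ Real.exp a * y := by
    calc 1 = Real.exp a * Real.exp (-a) := by rw [← Real.exp_add]; simp
      _ ≤ _ := mul_le_mul_of_nonneg_left hy (Real.exp_pos a).le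
  have hy0 : 0 ≤ y := (Real.exp_pos _).le.trans hy
  have h2 := mul_le_mul_of_nonneg_right (Real.add_one_le_exp (δ * Real.exp a)) hy0
  nlinarith [mul_le_mul_of_nonneg_left h1 hδ]

/-- The message with prescribed probability of the spin `true`. -/
noncomputable def brMsg (q : ℝ) : ℝ := Real.log (q / (1 - q)) / 2

lemma tilt_brMsg_true {q : ℝ} (h0 : 0 < q) (h1 : q < 1) : tilt (brMsg q) true = q := by
  have h2 : 0 < 1 - q := by linarith
  have h3 : Real.exp (brMsg q) * Real.exp (brMsg q) = q / (1 - q) := by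
    rw [← Real.exp_add, brMsg, add_halves, Real.exp_log (div_pos h0 h2)]
  have h4 := Real.exp_pos (brMsg q)
  unfold tilt spinVal
  rw [Real.cosh_eq, Real.exp_neg]
  simp only [if_true, mul_one]
  rw [eq_div_iff h2.ne'] at h3
  field_simp
  nlinarith

lemma tilt_brMsg_false {q : ℝ} (h0 : 0 < q) (h1 : q < 1) : tilt (brMsg q) false = 1 - q := by
  have := tilt_true_add_false (brMsg q)
  rw [tilt_brMsg_true h0 h1] at this
  linarith

lemma br_gamma {μ : ℕ → ℝ} (h0 : ∀ j, 0 < μ j) (h1 : ∀ j, μ j ≤ μ (j + 1)) :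
    ∃ γ : ℕ → ℝ, Adm γ ∧ ∀ d e, d ≤ e → ∏ j ∈ Finset.Ico d e, γ j = μ d / μ e := by
  refine ⟨fun j => μ j / μ (j + 1), fun j => ⟨div_pos (h0 _) (h0 _), (div_le_one (h0 _)).2 (h1 j)⟩,
    fun d e hde => ?_⟩
  induction e, hde using Nat.le_induction with
  | base => simp [(h0 d).ne']
  | succ e hde ih =>
    rw [Finset.prod_Ico_succ_top hde, ih]
    have := (h0 e).ne'
    have := (h0 (e + 1)).ne'
    field_simp

/-- Exact identification of the measure-side functional along a realisation. -/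
lemma br_mT_eq {Ξ : Type} [Fintype Ξ] {r : ℕ} {Y : Filt Ξ (r + 1)}
    {Φ : (Fin (r + 1) → unitInterval) → Ξ} (h : Realizes Y r Φ) {γ : ℕ → ℝ} (hγ : Adm γ)
    {m : Fin r → ℝ} (hm : ∀ d : Fin r, m d = ∏ j ∈ Finset.Ico ((d : ℕ) + 1) (r + 1), γ j)
    {xh : Ξ → ℝ} (hx : Y.Meas r xh) {Λ : Type} [Fintype Λ] [DecidableEq Λ]
    {v : (Λ → Bool) → ℝ} {a : ℝ} (hv : ∀ s, Real.exp (-a) ≤ v s ∧ v s ≤ Real.exp a) :
    mT r m (fun u => xh (Φ u)) v =
      brH (Filt.pi fun _ : Λ => Y) γ fun x => mixW v fun l => xh (x l) := by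
  have hWm : (Filt.pi fun _ : Λ => Y).Meas r fun x => mixW v fun l => xh (x l) := by
    intro x y hxy
    have : (fun l => xh (x l)) = fun l => xh (y l) := funext fun l => hx _ _ (hxy l)
    simp only [this]
  have hW : ∀ x : Λ → Ξ, 0 < mixW v fun l => xh (x l) := fun x =>
    (Real.exp_pos _).trans_le (br_mix_mem (q := fun l b => tilt (xh (x l)) b)
      (fun _ _ => (tilt_pos _ _).le) (fun _ => tilt_true_add_false _) hv).1
  have := realize_pm h hγ hm hW hWm
  rw [brH_eq_last]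
  simp only [Filt.E_of_meas _ hWm]
  exact this

theorem bridge_to_fin (r : ℕ) (m : Fin r → ℝ) (X : (Fin (r + 1) → unitInterval) → ℝ)
    (hm : AdmissibleExponents m) (hX : Measurable X) (a : ℝ) {ε m₀ : ℝ} (hε : 0 < ε)
    (hm₀ : 0 < m₀) (L : ℕ) :
    ∃ (D : ℕ) (Ξ : Type) (_ : Fintype Ξ) (_ : Nonempty Ξ) (Y : Filt Ξ D) (σ : Ξ → Bool)
      (γ : ℕ → ℝ), 1 ≤ D ∧ Adm γ ∧ ∏ d ∈ range D, γ d ≤ m₀ ∧
      ∀ (Λ : Type) [Fintype Λ] [DecidableEq Λ], Fintype.card Λ ≤ L → ∀ v : (Λ → Bool) → ℝ,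
        (∀ s, Real.exp (-a) ≤ v s ∧ v s ≤ Real.exp a) → |mT r m X v - lgV Y σ γ v| ≤ ε := by
  -- exponents
  let μ' : ℕ → ℝ := fun j => if h : j < r then m ⟨j, h⟩ else 1
  have hμ'0 : ∀ j, 0 < μ' j ∧ μ' j ≤ 1 := fun j => by
    simp only [μ']
    split_ifs with h
    · exact ⟨(hm.2 _).1, (hm.2 _).2.le⟩
    · exact ⟨one_pos, le_rfl⟩
  have hμ'1 : ∀ j, μ' j ≤ μ' (j + 1) := fun j => by
    by_cases h : j + 1 < r
    · have h' : j < r := by omega
      simp only [μ', dif_pos h, dif_pos h']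
      exact hm.1.monotone (by simp [Fin.le_def])
    · have : μ' (j + 1) = 1 := by simp only [μ', dif_neg h]
      rw [this]; exact (hμ'0 j).2
  let μ : ℕ → ℝ := fun j => Nat.casesOn j (min m₀ 1 * μ' 0) μ'
  have hmin : 0 < min m₀ 1 := lt_min hm₀ one_pos
  obtain ⟨γ, hγ, hprod⟩ := br_gamma (μ := μ)
    (fun j => by
      cases j with
      | zero => exact mul_pos hmin (hμ'0 0).1
      | succ j => exact (hμ'0 j).1)
    (fun j => by
      cases j with
      | zero => exact mul_le_of_le_one_left (hμ'0 0).1.le (min_le_right _ _)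
      | succ j => exact hμ'1 j)
  have hμr : μ (r + 1) = 1 := by simp only [μ, μ', dif_neg (lt_irrefl r)]
  have hmγ : ∀ d : Fin r, m d = ∏ j ∈ Finset.Ico ((d : ℕ) + 1) (r + 1), γ j := fun d => by
    rw [hprod _ _ (by omega), hμr, div_one]
    simp only [μ, μ', dif_pos d.2]
  -- the grid
  set C : ℝ := Real.exp (a * (2 * r + 2)) * 2 * (L + 1) with hC
  have hC0 : 0 < C := by positivity
  set η : ℝ := min (1 / 4) (ε / (2 * C)) with hη
  have hη0 : 0 < η := lt_min (by norm_num) (by positivity)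
  have hη1 : η ≤ 1 / 4 := min_le_left _ _
  have hη2 : η ≤ ε / (2 * C) := min_le_right _ _
  have htm : Measurable fun x : ℝ => tilt x true := by unfold tilt; fun_prop
  have ht1 : ∀ x, 0 ≤ tilt x true ∧ tilt x true ≤ 1 := fun x =>
    ⟨(tilt_pos _ _).le, by linarith [tilt_true_add_false x, tilt_pos x false]⟩
  have hF : Integrable (fun u => tilt (X u) true)
      (Measure.pi fun _ : Fin (r + 1) => (volume : Measure unitInterval)) :=
    Integrable.of_bound (htm.comp hX).aestronglyMeasurable 1 (ae_of_all _ fun u => by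
      rw [Real.norm_eq_abs, abs_of_nonneg (ht1 _).1]; exact (ht1 _).2)
  obtain ⟨n, hn⟩ := grid_approx (Fin (r + 1)) hF hη0
  obtain ⟨g, hg⟩ := hn n le_rfl
  let g' : (Fin (r + 1) → Fin (n + 1)) → ℝ := fun t => max η (min (1 - η) (g t))
  have hg'0 : ∀ t, 0 < g' t := fun t => hη0.trans_le (le_max_left _ _)
  have hg'1 : ∀ t, g' t < 1 := fun t =>
    max_lt (by linarith) ((min_le_left _ _).trans_lt (by linarith))
  have hreal := realizes_grid r n fun t => brMsg (g' t)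
  refine ⟨r + 1, _, inferInstance, inferInstance, gridF r n fun t => brMsg (g' t), Prod.snd, γ,
    Nat.le_add_left _ _, hγ, ?_, fun Λ _ _ hΛ v hv => ?_⟩
  · rw [Finset.range_eq_Ico, hprod _ _ (Nat.zero_le _), hμr, div_one]
    exact (mul_le_of_le_one_right hmin.le (hμ'0 0).2).trans (min_le_left _ _)
  have hxm : (gridF r n fun t => brMsg (g' t)).Meas r fun x => brMsg (g' x.1) := by
    intro x y hxy
    have : x.1 = y.1 := funext fun j => hxy.1 j (Nat.lt_succ_iff.1 j.2)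
    simp only [this]
  have h1 := br_mT_eq hreal hγ hmγ hxm hv
  have h2 : lgV (gridF r n fun t => brMsg (g' t)) Prod.snd γ v =
      brH (Filt.pi fun _ : Λ => gridF r n fun t => brMsg (g' t)) γ
        fun x => mixW v fun l => brMsg (g' (x l).1) := by
    change brH _ γ _ = _
    rw [← brH_E]
    congr 1
    funext x
    rw [br_E_spin]
    simp only [gridF_E]
    rfl
  rw [h2, ← h1]
  have hX' := hreal.measurable fun x => brMsg (g' x.1)
  refine (mT_lip (fun d => ⟨(hm.2 d).1, (hm.2 d).2.le⟩) hX hX' hv).trans ?_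
  have hgi : Integrable (fun u : Fin (r + 1) → unitInterval => g fun i => digit n (u i))
      (Measure.pi fun _ : Fin (r + 1) => (volume : Measure unitInterval)) :=
    Integrable.of_bound (hreal.measurable fun x => g x.1).aestronglyMeasurable (∑ t, |g t|)
      (ae_of_all _ fun u => Finset.single_le_sum (f := fun t => |g t|)
        (fun t _ => abs_nonneg _) (Finset.mem_univ _))
  have h3 : ∫ u, |tilt (X u) true - tilt (brMsg (g' fun j => digit n (u j))) true|
      ∂(Measure.pi fun _ : Fin (r + 1) => (volume : Measure unitInterval)) ≤ 2 * η := by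
    calc _ ≤ ∫ u, (|tilt (X u) true - g fun j => digit n (u j)| + η)
          ∂(Measure.pi fun _ : Fin (r + 1) => (volume : Measure unitInterval)) := by
          refine integral_mono_of_nonneg (ae_of_all _ fun u => abs_nonneg _)
            ((hF.sub hgi).abs.add (integrable_const η)) (ae_of_all _ fun u => ?_)
          simp only [tilt_brMsg_true (hg'0 _) (hg'1 _), g']
          have := ht1 (X u)
          rw [abs_le]
          have h4 := le_abs_self (tilt (X u) true - g fun j => digit n (u j))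
          have h5 := neg_abs_le (tilt (X u) true - g fun j => digit n (u j))
          have h6 := abs_nonneg (tilt (X u) true - g fun j => digit n (u j))
          constructor
          · have : max η (min (1 - η) (g fun j => digit n (u j))) ≤ tilt (X u) true +
                (|tilt (X u) true - g fun j => digit n (u j)| + η) :=
              max_le (by linarith) ((min_le_right _ _).trans (by linarith))
            linarith
          · have : tilt (X u) true - (|tilt (X u) true - g fun j => digit n (u j)| + η) ≤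
                max η (min (1 - η) (g fun j => digit n (u j))) :=
              le_max_of_le_right (le_min (by linarith) (by linarith))
            linarith
      _ ≤ 2 * η := by
          rw [integral_add (f := fun u => |tilt (X u) true - g fun j => digit n (u j)|)
            (hF.sub hgi).abs (integrable_const η)]
          simp only [integral_const, probReal_univ, smul_eq_mul, one_mul]
          linarith
  have hΛ' : (Fintype.card Λ : ℝ) ≤ L + 1 := by
    have : (Fintype.card Λ : ℝ) ≤ L := by exact_mod_cast hΛ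
    linarith
  calc _ ≤ C * (2 * η) :=
        mul_le_mul (mul_le_mul_of_nonneg_left hΛ' (by positivity)) h3
          (integral_nonneg fun u => abs_nonneg _) hC0.le
    _ ≤ C * (2 * (ε / (2 * C))) := by gcongr
    _ = ε := by field_simp

theorem bridge_to_meas {D : ℕ} {Ξ : Type} [Fintype Ξ] [Nonempty Ξ] (Y : Filt Ξ D) (σ : Ξ → Bool)
    {γ : ℕ → ℝ} (hD : 1 ≤ D) (hγ : Adm γ) (a : ℝ) {ε : ℝ} (hε : 0 < ε) (L : ℕ) :
    ∃ (r : ℕ) (m : Fin r → ℝ) (X : (Fin (r + 1) → unitInterval) → ℝ),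
      AdmissibleExponents m ∧ Measurable X ∧
      ∀ (Λ : Type) [Fintype Λ] [DecidableEq Λ], Fintype.card Λ ≤ L → ∀ v : (Λ → Bool) → ℝ,
        (∀ s, Real.exp (-a) ≤ v s ∧ v s ≤ Real.exp a) → |mT r m X v - lgV Y σ γ v| ≤ ε := by
  obtain ⟨r, rfl⟩ : ∃ r, D = r + 1 := ⟨D - 1, by omega⟩
  obtain ⟨Φ, hΦ⟩ := exists_realizes Y r
  -- exponents
  set δ : ℝ := min (1 / 2) (ε / (4 * (|a| + 1))) with hδ
  have hδ0 : 0 < δ := lt_min (by norm_num) (by positivity)
  have hδ1 : δ ≤ 1 / 2 := min_le_left _ _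
  have hδ2 : δ ≤ ε / (4 * (|a| + 1)) := min_le_right _ _
  set δ' : ℝ := δ / (r + 1) with hδ'
  have hδ'0 : 0 < δ' := by positivity
  have hδ'1 : δ' ≤ δ := div_le_self hδ0.le (by have := Nat.cast_nonneg (α := ℝ) r; linarith)
  let γ' : ℕ → ℝ := fun j => (1 - δ') * γ j
  have hγ'1 : ∀ j, γ' j < 1 := fun j =>
    (mul_le_of_le_one_right (by linarith) (hγ j).2).trans_lt (by linarith)
  have hγ' : Adm γ' := fun j => ⟨mul_pos (by linarith) (hγ j).1, (hγ'1 j).le⟩
  have hP : ∀ d, ∏ j ∈ Finset.Ico d (r + 1), γ' j =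
      (1 - δ') ^ (r + 1 - d) * ∏ j ∈ Finset.Ico d (r + 1), γ j := fun d => by
    simp only [γ']
    rw [Finset.prod_mul_distrib, Finset.prod_const, Nat.card_Ico]
  have hP1 : ∀ d, d ≤ r + 1 → (1 - δ) * ∏ j ∈ Finset.Ico d (r + 1), γ j ≤
      ∏ j ∈ Finset.Ico d (r + 1), γ' j := fun d _ => by
    rw [hP]
    refine mul_le_mul_of_nonneg_right ?_ (Filt.adm_prod_pos hγ _).le
    have h1 := one_add_mul_le_pow (a := -δ') (by linarith) (r + 1)
    rw [← sub_eq_add_neg] at h1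
    have h2 : (1 - δ') ^ (r + 1) ≤ (1 - δ') ^ (r + 1 - d) :=
      pow_le_pow_of_le_one (by linarith) (by linarith) (Nat.sub_le _ _)
    have h3 : ((r + 1 : ℕ) : ℝ) * δ' = δ := by rw [hδ']; push_cast; field_simp
    linarith
  have hP2 : ∀ d, d ≤ r + 1 → (1 - δ) * ∏ j ∈ Finset.Ico d (r + 1), γ' j ≤
      ∏ j ∈ Finset.Ico d (r + 1), γ j := fun d _ => by
    refine (mul_le_of_le_one_left (Filt.adm_prod_pos hγ' _).le (by linarith)).trans ?_
    rw [hP]
    exact mul_le_of_le_one_left (Filt.adm_prod_pos hγ _).le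
      (pow_le_one₀ (by linarith) (by linarith))
  let μ : ℕ → ℝ := fun d => ∏ j ∈ Finset.Ico d (r + 1), γ' j
  have hμ : ∀ d, d < r + 1 → μ d < μ (d + 1) := fun d hd => by
    simp only [μ]
    rw [Finset.prod_eq_prod_Ico_succ_bot hd]
    exact mul_lt_of_lt_one_left (Filt.adm_prod_pos hγ' _) (hγ'1 d)
  -- messages
  set C : ℝ := (L + 1) * Real.exp a * Real.exp a with hC
  have hC0 : 0 < C := by positivity
  set η : ℝ := min 1 (ε / (2 * C)) with hη
  have hη0 : 0 < η := lt_min one_pos (by positivity)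
  have hη1 : η ≤ 1 := min_le_left _ _
  have hη2 : η ≤ ε / (2 * C) := min_le_right _ _
  let q : Ξ → Bool → ℝ := fun ξ b => Y.E r (fun y => ind (σ y = b)) ξ
  have hq0 : ∀ ξ b, 0 ≤ q ξ b := fun ξ b => Y.E_nonneg r (fun _ => ind_nonneg _) ξ
  have hq : ∀ ξ, q ξ true + q ξ false = 1 := fun ξ => by
    simp only [q]
    rw [← Filt.E_add, Filt.E_congr _ r (g := fun _ => 1), Filt.E_const]
    intro y
    cases σ y <;> simp [ind_pos, ind_neg]
  let xh : Ξ → ℝ := fun ξ => brMsg ((1 - η) * q ξ true + η / 2)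
  have hxh : ∀ ξ b, tilt (xh ξ) b = (1 - η) * q ξ b + η / 2 := fun ξ b => by
    have h1 := hq0 ξ true
    have h2 := hq0 ξ false
    have h3 := hq ξ
    have h4 : 0 < (1 - η) * q ξ true + η / 2 := by nlinarith
    have h5 : (1 - η) * q ξ true + η / 2 < 1 := by nlinarith
    cases b
    · rw [tilt_brMsg_false h4 h5]; linear_combination (η - 1) * h3
    · exact tilt_brMsg_true h4 h5
  have hxm : Y.Meas r xh := (Y.meas_E r _).comp fun t => brMsg ((1 - η) * t + η / 2)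
  refine ⟨r, fun d => μ (d + 1), fun u => xh (Φ u), ⟨?_, fun d => ⟨Filt.adm_prod_pos hγ' _, ?_⟩⟩,
    hΦ.measurable xh, fun Λ _ _ hΛ v hv => ?_⟩
  · cases r with
    | zero => exact fun d => d.elim0
    | succ r =>
      refine Fin.strictMono_iff_lt_succ.2 fun d => ?_
      have := hμ (d + 1) (by omega)
      simpa using this
  · exact (hμ (d + 1) (by omega)).trans_le (Filt.adm_prod_le_one hγ' _)
  rw [br_mT_eq hΦ hγ' (fun d => rfl) hxm hv]
  have ha : 0 ≤ a := by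
    have := Real.exp_le_exp.1 ((hv fun _ => true).1.trans (hv fun _ => true).2)
    linarith
  let W : (Λ → Ξ) → ℝ := fun x => ∑ s : Λ → Bool, v s * ∏ l, q (x l) (s l)
  have h2 : lgV Y σ γ v = brH (Filt.pi fun _ : Λ => Y) γ W := by
    change brH _ γ _ = _
    rw [← brH_E]
    congr 1
    funext x
    rw [br_E_spin]
  rw [h2]
  have hW : ∀ x, Real.exp (-a) ≤ W x ∧ W x ≤ Real.exp a := fun x =>
    br_mix_mem (q := fun l b => q (x l) b) (fun _ _ => hq0 _ _) (fun _ => hq _) hv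
  have hW' : ∀ x : Λ → Ξ, Real.exp (-a) ≤ (mixW v fun l => xh (x l)) ∧
      (mixW v fun l => xh (x l)) ≤ Real.exp a := fun x =>
    br_mix_mem (q := fun l b => tilt (xh (x l)) b)
      (fun _ _ => (tilt_pos _ _).le) (fun _ => tilt_true_add_false _) hv
  have hWW : ∀ x : Λ → Ξ, |(mixW v fun l => xh (x l)) - W x| ≤
      Fintype.card Λ * η * Real.exp a := fun x => by
    unfold mixW
    simp only [hxh]
    exact br_mix_close (q := fun l b => q (x l) b) (fun _ _ => hq0 _ _) (fun _ => hq _)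
      hη0.le hη1 hv
  have hW0 : ∀ x, 0 < W x := fun x => (Real.exp_pos _).trans_le (hW x).1
  have hW'0 : ∀ x : Λ → Ξ, 0 < mixW v fun l => xh (x l) := fun x =>
    (Real.exp_pos _).trans_le (hW' x).1
  have e1 := brH_le (Filt.pi fun _ : Λ => Y) hγ' hW'0 hW0 fun x =>
    br_le_exp_mul (hW x).1 (by positivity) (abs_le.1 (hWW x)).2
  have e2 := brH_le (Filt.pi fun _ : Λ => Y) hγ' hW0 hW'0 fun x =>
    br_le_exp_mul (δ := Fintype.card Λ * η * Real.exp a) (hW' x).1 (by positivity)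
      (by linarith [(abs_le.1 (hWW x)).1])
  have e3 := brH_exp_le (Filt.pi fun _ : Λ => Y) hγ hγ' (by linarith) (by linarith) hP1 hW
  have e4 := brH_exp_le (Filt.pi fun _ : Λ => Y) hγ' hγ (by linarith) (by linarith) hP2 hW
  have hΛ' : (Fintype.card Λ : ℝ) ≤ L + 1 := by
    have : (Fintype.card Λ : ℝ) ≤ L := by exact_mod_cast hΛ
    linarith
  have b1 : Fintype.card Λ * η * Real.exp a * Real.exp a ≤ ε / 2 := by
    calc _ ≤ (L + 1) * (ε / (2 * C)) * Real.exp a * Real.exp a := by gcongr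
      _ = C * (ε / (2 * C)) := by rw [hC]; ring
      _ = ε / 2 := by field_simp
  have b2 : 2 * (1 - (1 - δ)) * a ≤ ε / 2 := by
    rw [abs_of_nonneg ha, le_div_iff₀ (by positivity)] at hδ2
    nlinarith
  rw [abs_le]
  constructor <;> linarith

end Crest.Agent.R141
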