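import Mathlib
import Crest.Agent.R141.Basic

/-!
Row 141: fractional moments versus mean logarithm; Poissonisation.
-/

set_option autoImplicit false

namespace Crest.Agent.R141

open Finset MeasureTheory Filter Crest.Agent.R153 Crest.ProbabilityR.Diluted

/-! ### Bounded differences -/

lemma conc_exp_le {d x m : ℝ} (hd : 0 < d) (hx : |x| ≤ d) :
    Real.exp (m * x) ≤ Real.cosh (m * d) + x * (Real.sinh (m * d) / d) := by
  have h1 := abs_le.1 hx
  have ha : 0 ≤ (d + x) / (2 * d) := div_nonneg (by linarith) (by linarith)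
  have hb : 0 ≤ (d - x) / (2 * d) := div_nonneg (by linarith) (by linarith)
  have hab : (d + x) / (2 * d) + (d - x) / (2 * d) = 1 := by field_simp; ring
  have h := convexOn_exp.2 (Set.mem_univ (m * d)) (Set.mem_univ (-(m * d))) ha hb hab
  simp only [smul_eq_mul] at h
  have e1 : (d + x) / (2 * d) * (m * d) + (d - x) / (2 * d) * -(m * d) = m * x := by
    field_simp; ring
  rw [e1] at h
  refine h.trans (le_of_eq ?_)
  rw [Real.cosh_eq, Real.sinh_eq]
  field_simp
  ring

lemma conc_hoeff {T : Type} [Fintype T] [Nonempty T] {d : ℝ} (hd : 0 < d) (m : ℝ) (Y : T → ℝ)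
    (hY : ∀ a b, |Y a - Y b| ≤ d) :
    (av fun a => Real.exp (m * Y a)) ≤ Real.exp (m * av Y + m ^ 2 * d ^ 2 / 2) := by
  have hx : ∀ a, |Y a - av Y| ≤ d := by
    intro a
    have : Y a - av Y = av fun b => Y a - Y b := by rw [av_sub, av_const]
    rw [this]
    exact (abs_av_le _).trans (av_le_of_le fun b => hY a b)
  have h1 : ∀ a, Real.exp (m * Y a) ≤ Real.exp (m * av Y) *
      (Real.cosh (m * d) + (Y a - av Y) * (Real.sinh (m * d) / d)) := by
    intro a
    have : Real.exp (m * Y a) = Real.exp (m * av Y) * Real.exp (m * (Y a - av Y)) := by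
      rw [← Real.exp_add]; congr 1; ring
    rw [this]
    exact mul_le_mul_of_nonneg_left (conc_exp_le hd (hx a)) (Real.exp_pos _).le
  refine (av_mono h1).trans ?_
  rw [av_const_mul, av_add, av_const, av_mul_const, av_sub, av_const, sub_self, zero_mul, add_zero,
    Real.exp_add]
  refine mul_le_mul_of_nonneg_left ?_ (Real.exp_pos _).le
  have := Real.cosh_le_exp_half_sq (m * d)
  rwa [mul_pow] at this

lemma conc_bdd {T : Type} [Fintype T] [Nonempty T] {d : ℝ} (hd : 0 < d) (m : ℝ) (n : ℕ) :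
    ∀ Y : (Fin n → T) → ℝ, (∀ ω i t, |Y (Function.update ω i t) - Y ω| ≤ d) →
      (av fun ω => Real.exp (m * Y ω)) ≤ Real.exp (m * av Y + m ^ 2 * d ^ 2 / 2 * n) := by
  induction n with
  | zero =>
    intro Y _
    rw [av_fin_zero, av_fin_zero]
    simp
  | succ n ih =>
    intro Y hY
    rw [av_fin_cons, av_fin_cons Y]
    have h1 : ∀ c : T, (av fun G : Fin n → T => Real.exp (m * Y (Fin.cons c G))) ≤
        Real.exp (m * av fun G : Fin n → T => Y (Fin.cons c G)) *
          Real.exp (m ^ 2 * d ^ 2 / 2 * n) := by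
      intro c
      rw [← Real.exp_add]
      refine ih (fun G => Y (Fin.cons c G)) fun ω i t => ?_
      simp only [Fin.cons_update]
      exact hY _ _ _
    refine (av_mono h1).trans ?_
    rw [av_mul_const]
    have h2 := conc_hoeff hd m (fun c : T => av fun G : Fin n → T => Y (Fin.cons c G)) (by
      intro a b
      rw [← av_sub]
      refine (abs_av_le _).trans (av_le_of_le fun G => ?_)
      have := hY (Fin.cons b G) 0 a
      rwa [Fin.update_cons_zero] at this)
    refine (mul_le_mul_of_nonneg_right h2 (Real.exp_pos _).le).trans (le_of_eq ?_)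
    rw [← Real.exp_add]
    congr 1
    push_cast
    ring

lemma conc_prod_le {ι : Type} [Fintype ι] [DecidableEq ι] {f g : ι → ℝ} {A : ℝ} (i : ι)
    (h : ∀ j, j ≠ i → f j = g j) (hg : ∀ j, 0 ≤ g j) (hi : f i ≤ A * g i) :
    ∏ j, f j ≤ A * ∏ j, g j := by
  rw [← Finset.mul_prod_erase _ f (Finset.mem_univ i), ← Finset.mul_prod_erase _ g (Finset.mem_univ i),
    Finset.prod_congr rfl fun j hj => h j (Finset.ne_of_mem_erase hj), ← mul_assoc]
  exact mul_le_mul_of_nonneg_right hi (Finset.prod_nonneg fun j _ => hg j)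

lemma conc_ratio {c x y : ℝ} (hx : Real.exp (-c) ≤ x ∧ x ≤ Real.exp c)
    (hy : Real.exp (-c) ≤ y ∧ y ≤ Real.exp c) : x ≤ Real.exp (2 * c) * y := by
  refine hx.2.trans ?_
  calc Real.exp c = Real.exp (2 * c) * Real.exp (-c) := by rw [← Real.exp_add]; congr 1; ring
    _ ≤ _ := mul_le_mul_of_nonneg_left hy.1 (Real.exp_pos _).le

lemma conc_abs_log_sub {c x y : ℝ} (hx : 0 < x) (hy : 0 < y) (h1 : x ≤ Real.exp c * y)
    (h2 : y ≤ Real.exp c * x) : |Real.log x - Real.log y| ≤ c := by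
  have a1 := Real.log_le_log hx h1
  have a2 := Real.log_le_log hy h2
  rw [Real.log_mul (Real.exp_pos _).ne' hy.ne', Real.log_exp] at a1
  rw [Real.log_mul (Real.exp_pos _).ne' hx.ne', Real.log_exp] at a2
  exact abs_le.2 ⟨by linarith, by linarith⟩

lemma conc_Z_slot (M : FM) {p N K : ℕ} {F F' : Fin K → M.Slot p N} (vs : Fin N → M.Fl) (k : Fin K)
    (h : ∀ j, j ≠ k → F j = F' j) : M.Z F vs ≤ Real.exp (2 * M.c) * M.Z F' vs := by
  unfold FM.Z
  rw [← av_const_mul]
  refine av_mono fun σ => ?_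
  rw [← mul_assoc]
  refine mul_le_mul_of_nonneg_right ?_ (Finset.prod_nonneg fun i _ => (M.fw_pos _ _).le)
  exact conc_prod_le k (fun j hj => by rw [h j hj]) (fun j => (M.cw_pos _ _).le)
    (conc_ratio (M.cw_mem _ _) (M.cw_mem _ _))

lemma conc_Z_field (M : FM) {p N K : ℕ} (F : Fin K → M.Slot p N) {vs vs' : Fin N → M.Fl}
    (k : Fin N) (h : ∀ j, j ≠ k → vs j = vs' j) :
    M.Z F vs ≤ Real.exp (2 * M.c) * M.Z F vs' := by
  unfold FM.Z
  rw [← av_const_mul]
  refine av_mono fun σ => ?_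
  rw [mul_left_comm]
  refine mul_le_mul_of_nonneg_left ?_ (Finset.prod_nonneg fun i _ => (M.cw_pos _ _).le)
  exact conc_prod_le k (fun j hj => by rw [h j hj]) (fun j => (M.fw_pos _ _).le)
    (conc_ratio (M.fw_mem _ _) (M.fw_mem _ _))

lemma conc_rpow (M : FM) {p N K : ℕ} (F : Fin K → M.Slot p N) (vs : Fin N → M.Fl) (m : ℝ) :
    M.Z F vs ^ m = Real.exp (m * Real.log (M.Z F vs)) := by
  rw [Real.rpow_def_of_pos (M.Z_pos F vs), mul_comm]

theorem gl_le_psi (M : FM) (p : ℕ) {m : ℝ} (hm : 0 < m) {N : ℕ} (hN : 1 ≤ N) (K : ℕ) :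
    m * M.gl p N K ≤ Real.log (M.Psi p m N K) := by
  have := M.slot_nonempty p hN
  rw [Real.le_log_iff_exp_le (M.Psi_pos p m hN K)]
  unfold FM.gl FM.Psi
  rw [← av_const_mul]
  refine (ConvexOn.map_av_le convexOn_exp fun _ => Set.mem_univ _).trans (av_mono fun F => ?_)
  rw [← av_const_mul]
  refine (ConvexOn.map_av_le convexOn_exp fun _ => Set.mem_univ _).trans (av_mono fun vs => ?_)
  rw [conc_rpow]

theorem psi_le_gl (M : FM) : ∃ C : ℝ, 0 ≤ C ∧ ∀ (p : ℕ) (m : ℝ) (N K : ℕ), 0 < m → m ≤ 1 → 1 ≤ N →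
    Real.log (M.Psi p m N K) ≤ m * M.gl p N K + C * m ^ 2 * (K + N) := by
  have hc := M.c_nonneg
  have hd : 0 < 2 * M.c + 1 := by linarith
  refine ⟨(2 * M.c + 1) ^ 2 / 2, by positivity, fun p m N K _ _ hN => ?_⟩
  have := M.slot_nonempty p hN
  rw [Real.log_le_iff_le_exp (M.Psi_pos p m hN K)]
  unfold FM.gl FM.Psi
  have h1 : ∀ F : Fin K → M.Slot p N, (av fun vs : Fin N → M.Fl => M.Z F vs ^ m) ≤
      Real.exp (m * av fun vs : Fin N → M.Fl => Real.log (M.Z F vs)) *
        Real.exp (m ^ 2 * (2 * M.c + 1) ^ 2 / 2 * N) := by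
    intro F
    rw [← Real.exp_add]
    simp only [conc_rpow]
    refine conc_bdd hd m N (fun vs => Real.log (M.Z F vs)) fun ω i t => ?_
    refine (conc_abs_log_sub (M.Z_pos _ _) (M.Z_pos _ _)
      (conc_Z_field M F i fun j hj => by rw [Function.update_of_ne hj])
      (conc_Z_field M F i fun j hj => by rw [Function.update_of_ne hj])).trans (by linarith)
  refine (av_mono h1).trans ?_
  rw [av_mul_const]
  have h2 := conc_bdd hd m K
    (fun F : Fin K → M.Slot p N => av fun vs : Fin N → M.Fl => Real.log (M.Z F vs)) (by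
      intro ω i t
      rw [← av_sub]
      refine (abs_av_le _).trans (av_le_of_le fun vs => ?_)
      refine (conc_abs_log_sub (M.Z_pos _ _) (M.Z_pos _ _)
        (conc_Z_slot M vs i fun j hj => by rw [Function.update_of_ne hj])
        (conc_Z_slot M vs i fun j hj => by rw [Function.update_of_ne hj])).trans (by linarith))
  refine (mul_le_mul_of_nonneg_right h2 (Real.exp_pos _).le).trans (le_of_eq ?_)
  rw [← Real.exp_add]
  congr 1
  ring

/-! ### Dependence on the number of interactions -/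

lemma conc_lip {g : ℕ → ℝ} {c : ℝ} (h : ∀ n, |g (n + 1) - g n| ≤ c) (K K' : ℕ) :
    |g K - g K'| ≤ c * |(K : ℝ) - K'| := by
  have key : ∀ a j : ℕ, |g (a + j) - g a| ≤ c * j := by
    intro a j
    induction j with
    | zero => simp
    | succ j ih =>
      have := abs_sub_le (g (a + j + 1)) (g (a + j)) (g a)
      have := h (a + j)
      push_cast
      rw [← add_assoc]
      linarith
  rcases le_total K K' with hk | hk
  · obtain ⟨j, rfl⟩ := Nat.exists_eq_add_of_le hk
    rw [abs_sub_comm, abs_sub_comm (K : ℝ)]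
    simpa using key K j
  · obtain ⟨j, rfl⟩ := Nat.exists_eq_add_of_le hk
    simpa using key K' j

lemma conc_Z_cons (M : FM) {p N K : ℕ} (s : M.Slot p N) (F : Fin K → M.Slot p N)
    (vs : Fin N → M.Fl) :
    M.Z (Fin.cons s F : Fin (K + 1) → M.Slot p N) vs ≤ Real.exp M.c * M.Z F vs ∧
      M.Z F vs ≤ Real.exp M.c * M.Z (Fin.cons s F : Fin (K + 1) → M.Slot p N) vs := by
  unfold FM.Z
  rw [← av_const_mul, ← av_const_mul]
  constructor
  · refine av_mono fun σ => ?_
    rw [Fin.prod_univ_succ, mul_assoc]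
    simp only [Fin.cons_zero, Fin.cons_succ]
    exact mul_le_mul_of_nonneg_right (M.cw_mem _ _).2
      (mul_nonneg (Finset.prod_nonneg fun i _ => (M.cw_pos _ _).le)
        (Finset.prod_nonneg fun i _ => (M.fw_pos _ _).le))
  · refine av_mono fun σ => ?_
    rw [Fin.prod_univ_succ, mul_assoc, ← mul_assoc]
    simp only [Fin.cons_zero, Fin.cons_succ]
    refine le_mul_of_one_le_left (mul_nonneg (Finset.prod_nonneg fun i _ => (M.cw_pos _ _).le)
        (Finset.prod_nonneg fun i _ => (M.fw_pos _ _).le)) ?_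
    calc (1 : ℝ) = Real.exp M.c * Real.exp (-M.c) := by rw [← Real.exp_add]; simp
      _ ≤ _ := mul_le_mul_of_nonneg_left (M.cw_mem _ _).1 (Real.exp_pos _).le

theorem abs_gl_sub_le (M : FM) (p : ℕ) {N : ℕ} (hN : 1 ≤ N) (K K' : ℕ) :
    |M.gl p N K - M.gl p N K'| ≤ M.c * |(K : ℝ) - K'| := by
  have := M.slot_nonempty p hN
  refine conc_lip (g := fun K => M.gl p N K) (fun n => ?_) K K'
  have e : M.gl p N (n + 1) - M.gl p N n = av fun s : M.Slot p N =>
      av fun F : Fin n → M.Slot p N => av fun vs : Fin N → M.Fl =>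
        Real.log (M.Z (Fin.cons s F : Fin (n + 1) → M.Slot p N) vs) - Real.log (M.Z F vs) := by
    simp only [av_sub, av_const]
    unfold FM.gl
    rw [av_fin_cons]
  rw [e]
  refine (abs_av_le _).trans (av_le_of_le fun s => (abs_av_le _).trans (av_le_of_le fun F =>
    (abs_av_le _).trans (av_le_of_le fun vs => ?_)))
  exact conc_abs_log_sub (M.Z_pos _ _) (M.Z_pos _ _) (conc_Z_cons M s F vs).1
    (conc_Z_cons M s F vs).2

lemma conc_rpow_le {c x y m : ℝ} (hc : 0 ≤ c) (hm0 : 0 < m) (hm1 : m ≤ 1) (hx : 0 < x)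
    (hy : 0 < y) (h : x ≤ Real.exp c * y) : x ^ m ≤ Real.exp c * y ^ m := by
  refine (Real.rpow_le_rpow hx.le h hm0.le).trans ?_
  rw [Real.mul_rpow (Real.exp_pos _).le hy.le, ← Real.exp_mul]
  exact mul_le_mul_of_nonneg_right (Real.exp_le_exp.2 (mul_le_of_le_one_right hc hm1))
    (Real.rpow_nonneg hy.le _)

theorem abs_log_psi_sub_le (M : FM) (p : ℕ) {m : ℝ} (hm0 : 0 < m) (hm1 : m ≤ 1) {N : ℕ}
    (hN : 1 ≤ N) (K K' : ℕ) :
    |Real.log (M.Psi p m N K) - Real.log (M.Psi p m N K')| ≤ M.c * |(K : ℝ) - K'| := by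
  have := M.slot_nonempty p hN
  refine conc_lip (g := fun K => Real.log (M.Psi p m N K)) (fun n => ?_) K K'
  have e1 : M.Psi p m N (n + 1) = av fun s : M.Slot p N =>
      av fun F : Fin n → M.Slot p N => av fun vs : Fin N → M.Fl =>
        M.Z (Fin.cons s F : Fin (n + 1) → M.Slot p N) vs ^ m := by
    unfold FM.Psi
    rw [av_fin_cons]
  have e2 : M.Psi p m N n = av fun _ : M.Slot p N =>
      av fun F : Fin n → M.Slot p N => av fun vs : Fin N → M.Fl => M.Z F vs ^ m := by
    rw [av_const]; rfl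
  refine conc_abs_log_sub (M.Psi_pos p m hN _) (M.Psi_pos p m hN _) ?_ ?_
  · rw [e1, e2]
    simp only [← av_const_mul]
    exact av_mono fun s => av_mono fun F => av_mono fun vs =>
      conc_rpow_le M.c_nonneg hm0 hm1 (M.Z_pos _ _) (M.Z_pos _ _) (conc_Z_cons M s F vs).1
  · rw [e1, e2]
    simp only [← av_const_mul]
    exact av_mono fun s => av_mono fun F => av_mono fun vs =>
      conc_rpow_le M.c_nonneg hm0 hm1 (M.Z_pos _ _) (M.Z_pos _ _) (conc_Z_cons M s F vs).2

/-! ### Poissonisation -/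

lemma conc_poisson {lam c t : ℝ} (hl : 0 ≤ lam) (hc : 0 ≤ c) (ht : 0 < t) {g : ℕ → ℝ}
    (hs : Summable fun K => poissonWeight lam K * g K)
    (hg : ∀ K K' : ℕ, |g K - g K'| ≤ c * |(K : ℝ) - K'|) :
    |(∑' K : ℕ, poissonWeight lam K * g K) - g ⌊lam⌋₊| ≤ c * (t / 2 + lam / (2 * t) + 1) := by
  have h1 : HasSum (fun K => poissonWeight lam K * g K - poissonWeight lam K * g ⌊lam⌋₊)
      ((∑' K : ℕ, poissonWeight lam K * g K) - g ⌊lam⌋₊) := by
    have := hs.hasSum.sub ((hasSum_poisson lam).mul_right (g ⌊lam⌋₊))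
    rwa [one_mul] at this
  have h2 : HasSum (fun K : ℕ => c * ((t / 2 + 1 + lam ^ 2 / (2 * t)) * poissonWeight lam K -
      lam / t * (poissonWeight lam K * K) + 1 / (2 * t) * (poissonWeight lam K * (K : ℝ) ^ 2)))
      (c * (t / 2 + lam / (2 * t) + 1)) := by
    have := ((((hasSum_poisson lam).mul_left (t / 2 + 1 + lam ^ 2 / (2 * t))).sub
      ((hasSum_poisson_mean lam).mul_left (lam / t))).add
      ((hasSum_poisson_sq lam).mul_left (1 / (2 * t)))).mul_left c
    have e : t / 2 + lam / (2 * t) + 1 = (t / 2 + 1 + lam ^ 2 / (2 * t)) * 1 - lam / t * lam +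
        1 / (2 * t) * (lam ^ 2 + lam) := by
      field_simp
      ring
    rw [e]
    exact this
  have h3 : ∀ K : ℕ, |poissonWeight lam K * g K - poissonWeight lam K * g ⌊lam⌋₊| ≤
      c * ((t / 2 + 1 + lam ^ 2 / (2 * t)) * poissonWeight lam K -
      lam / t * (poissonWeight lam K * K) + 1 / (2 * t) * (poissonWeight lam K * (K : ℝ) ^ 2)) := by
    intro K
    have hw := poissonWeight_nonneg hl K
    rw [← mul_sub, abs_mul, abs_of_nonneg hw]
    have a1 : |(K : ℝ) - (⌊lam⌋₊ : ℕ)| ≤ |(K : ℝ) - lam| + 1 := by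
      have b1 := Nat.floor_le hl
      have b2 := Nat.lt_floor_add_one lam
      have b3 := abs_sub_le (K : ℝ) lam (⌊lam⌋₊ : ℕ)
      have b4 : |lam - (⌊lam⌋₊ : ℕ)| ≤ 1 := abs_le.2 ⟨by linarith, by linarith⟩
      linarith
    have a2 : |(K : ℝ) - lam| ≤ t / 2 + ((K : ℝ) - lam) ^ 2 / (2 * t) := by
      rw [← sq_abs ((K : ℝ) - lam)]
      have : t / 2 + |(K : ℝ) - lam| ^ 2 / (2 * t) - |(K : ℝ) - lam| =
          (|(K : ℝ) - lam| - t) ^ 2 / (2 * t) := by field_simp; ring
      have h0 : 0 ≤ (|(K : ℝ) - lam| - t) ^ 2 / (2 * t) := by positivity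
      linarith
    calc poissonWeight lam K * |g K - g ⌊lam⌋₊|
        ≤ poissonWeight lam K * (c * (t / 2 + ((K : ℝ) - lam) ^ 2 / (2 * t) + 1)) :=
          mul_le_mul_of_nonneg_left ((hg _ _).trans (mul_le_mul_of_nonneg_left (by linarith) hc)) hw
      _ = _ := by field_simp; ring
  exact abs_le.2 ⟨by
    have := hasSum_le (fun K => (abs_le.1 (h3 K)).1) h2.neg h1
    exact this, hasSum_le (fun K => (abs_le.1 (h3 K)).2) h1 h2⟩

theorem poisson_gl (M : FM) (p : ℕ) {α : ℝ} (hα : 0 < α) {κ : ℝ} (hκ : 0 < κ) :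
    ∀ᶠ N : ℕ in atTop,
      |(∑' K : ℕ, poissonWeight (α * N) K * M.gl p N K) - M.gl p N ⌊α * N⌋₊| ≤ κ * N := by
  have hc := M.c_nonneg
  set ε : ℝ := κ / (M.c + 1) with hε
  have hε0 : 0 < ε := by positivity
  have hcε : M.c * ε ≤ κ := by
    rw [hε, ← mul_div_assoc, div_le_iff₀ (by linarith)]; nlinarith
  have hev : ∀ᶠ N : ℕ in atTop, M.c * (α / (2 * ε) + 1) / (κ / 2) ≤ (N : ℝ) :=
    tendsto_natCast_atTop_atTop.eventually_ge_atTop _
  filter_upwards [hev, eventually_ge_atTop 1] with N h1 hN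
  have hN' : (1 : ℝ) ≤ N := by exact_mod_cast hN
  have hl : 0 ≤ α * N := by positivity
  have hs : Summable fun K => poissonWeight (α * N) K * M.gl p N K :=
    summable_poisson_of_linear hl (A := M.c * N) fun K => (M.abs_gl_le p N K).trans (by
      rw [mul_assoc]
      refine mul_le_mul_of_nonneg_left ?_ hc
      nlinarith [(Nat.cast_nonneg K : (0 : ℝ) ≤ K)])
  refine (conc_poisson (t := ε * N) hl hc (by positivity) hs (abs_gl_sub_le M p hN)).trans ?_
  rw [div_le_iff₀ (by positivity)] at h1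
  have e : α * N / (2 * (ε * N)) = α / (2 * ε) := by field_simp
  rw [e]
  nlinarith [mul_le_mul_of_nonneg_right hcε (by positivity : (0 : ℝ) ≤ N)]

end Crest.Agent.R141
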