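import Mathlib
import Crest.Agent.R141.Grid
import Crest.Agent.R141.MT

/-!
Row 141: pressure and cavity functional of a finite model.
-/

set_option autoImplicit false

namespace Crest.Agent.R141

open Finset MeasureTheory Filter Crest.Agent.R153 Crest.ProbabilityR.Diluted

theorem finForm_logPartition (M : FM) {p N K : ℕ} (cs : Fin K → M.Cl p)
    (idx : Fin K → Fin p → Fin N) (vs : Fin N → M.Fl) :
    logPartition N (fun k s => Real.log (M.cw (cs k) s)) idx (fun i => M.h (vs i)) =
      N * Real.log 2 + Real.log (M.Z (fun k => (cs k, idx k)) vs) := by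
  have hZ := M.Z_pos (fun k => (cs k, idx k)) vs
  rw [← Real.log_pow, ← Real.log_mul (by positivity) hZ.ne', logPartition]
  congr 1
  unfold FM.Z av
  rw [Fintype.card_fun, Fintype.card_bool, Fintype.card_fin]
  push_cast
  rw [mul_div_cancel₀ _ (by positivity)]
  refine Finset.sum_congr rfl fun σ _ => ?_
  rw [Real.exp_add, Real.exp_sum, Real.exp_sum]
  simp only [Real.exp_log (M.cw_pos _ _), FM.fw]

theorem finForm_inner (M : FM) (p : ℕ) {N : ℕ} (hN : 1 ≤ N) (K : ℕ) :
    ∫ θs, ∫ hs, ((Fintype.card (Fin K → Fin p → Fin N) : ℝ)⁻¹ *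
        ∑ idx : Fin K → Fin p → Fin N, logPartition N θs idx hs)
      ∂(Measure.pi fun _ : Fin N => M.nu) ∂(Measure.pi fun _ : Fin K => M.mu p)
      = N * Real.log 2 + M.gl p N K := by
  have : Nonempty (Fin N) := ⟨⟨0, hN⟩⟩
  rw [FM.mu, FM.nu, pi_unifM, pi_unifM, integral_unifM]
  simp only [integral_unifM, finForm_logPartition]
  have e : ∀ f : (Fin K → Fin p → Fin N) → ℝ,
      (Fintype.card (Fin K → Fin p → Fin N) : ℝ)⁻¹ * ∑ idx, f idx = av f := fun f => by
    rw [av, div_eq_inv_mul]
  simp only [e, av_add, av_const]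
  congr 1
  rw [FM.gl, ← av_equiv (Equiv.arrowProdEquivProdArrow (Fin K) (fun _ => M.Cl p)
    (fun _ => Fin p → Fin N)).symm, av_prod]
  refine av_congr fun cs => ?_
  rw [av_comm]
  rfl

theorem pressure_fin (M : FM) (p : ℕ) {α : ℝ} (hα : 0 < α) {N : ℕ} (hN : 1 ≤ N) :
    pressure p α (M.mu p) M.nu N =
      Real.log 2 + (1 / (N : ℝ)) * ∑' K : ℕ, poissonWeight (α * N) K * M.gl p N K := by
  have hN' : (0 : ℝ) < N := by exact_mod_cast hN
  have hs : Summable fun K : ℕ => poissonWeight (α * N) K * M.gl p N K := by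
    refine summable_poisson_of_linear (by positivity) (A := M.c * N) fun K =>
      (M.abs_gl_le p N K).trans ?_
    have h1 : (1 : ℝ) ≤ N := by exact_mod_cast hN
    have h2 : (0 : ℝ) ≤ K := Nat.cast_nonneg K
    rw [mul_assoc]
    exact mul_le_mul_of_nonneg_left (by nlinarith) M.c_nonneg
  unfold pressure
  simp only [finForm_inner M p hN, mul_add]
  rw [((hasSum_poisson (α * N)).mul_right (N * Real.log 2)).summable.tsum_add hs,
    ((hasSum_poisson (α * N)).mul_right (N * Real.log 2)).tsum_eq, mul_add]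
  congr 1
  field_simp

theorem trial_fin (M : FM) (p : ℕ) (α : ℝ) (r : ℕ) (m : Fin r → ℝ)
    (X : (Fin (r + 1) → unitInterval) → ℝ) :
    trialFunctional p α (M.mu p) M.nu r m X = Real.log 2 + Bm M p α r m X := by
  have e1 : ∀ (K : ℕ) (v : M.Fl) (cs : Fin K → M.Cl p),
      vSite (M.h v) (fun j s => Real.log (M.cw (cs j) s)) = M.siteV v cs := fun K v cs => by
    funext s
    unfold vSite FM.siteV
    refine av_congr fun ε => ?_
    rw [Real.exp_add, Real.exp_sum]
    simp only [Real.exp_log (M.cw_pos _ _), FM.fw]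
  have e2 : ∀ c : M.Cl p, vEdge (fun s => Real.log (M.cw c s)) = M.cw c := fun c => by
    funext s
    exact Real.exp_log (M.cw_pos _ _)
  rw [trial_eq, Bm, FM.mu, FM.nu, add_sub_assoc]
  simp only [pi_unifM, integral_unifM, e1, e2]

end Crest.Agent.R141
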