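import Mathlib
import Crest.Agent.R141.Basic
import Crest.Agent.R153.ASSAux2

/-!
Row 141, cavity step, part 1: splitting a slot, and the perturbed functional.
-/

set_option autoImplicit false

namespace Crest.Agent.R141

open Finset Crest.Agent.R153 Crest.Agent.R153.Filt

/-- Put `a` in the last coordinate. -/
def stExt {p : ℕ} {β : Type} (s' : Fin (p - 1) → β) (a : β) : Fin p → β :=
  fun ℓ => if h : ℓ.val < p - 1 then s' ⟨ℓ.val, h⟩ else a

/-- Weight of a slot. -/
def stSlotW (M : FM) {p N : ℕ} (c : M.Slot p N) (σ : Asg N) : ℝ := M.cw c.1 fun ℓ => σ (c.2 ℓ)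

/-- A slot containing the new spin. -/
abbrev StSite (M : FM) (p N : ℕ) : Type := M.Cl p × (Fin (p - 1) → Fin N)

/-- Weight of a slot containing the new spin. -/
def stSiteW (M : FM) {p N : ℕ} (c : StSite M p N) (σ : Asg N) (ε : Bool) : ℝ :=
  M.cw c.1 (lastExt (fun ℓ => σ (c.2 ℓ)) ε)

lemma st_cw_perm (M : FM) {p : ℕ} (e : Equiv.Perm (Fin p)) (c : M.Cl p) (s : Fin p → Bool) :
    M.cw (c.1, fun k => c.2 (e k)) (fun k => s (e k)) = M.cw c s := by
  unfold FM.cw
  rw [← Equiv.prod_comp e fun k => M.f (c.2 k) (s k)]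

lemma st_av_perm (M : FM) {p : ℕ} (e : Equiv.Perm (Fin p)) {T : Type} (Θ : (T → ℝ) → ℝ)
    (s : T → Fin p → Bool) :
    (av fun c : M.Cl p => Θ fun t => M.cw c fun k => s t (e k)) =
      av fun c : M.Cl p => Θ fun t => M.cw c (s t) := by
  let E : M.Cl p ≃ M.Cl p := Equiv.prodCongr (Equiv.refl _) (Equiv.arrowCongr e.symm (Equiv.refl _))
  rw [← av_equiv E]
  refine av_congr fun c => ?_
  congr 1
  funext t
  exact st_cw_perm M e c (s t)

lemma st_idx_split {p N : ℕ} (hp : 1 ≤ p) (hN : 1 ≤ N) {h : (Fin p → Fin (N + 1)) → ℝ}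
    (h0 : ∀ i, 0 ≤ h i) :
    ((N : ℝ) / (N + 1)) ^ p * av (fun i : Fin p → Fin N => h fun k => (i k).castSucc) +
      ((N : ℝ) / (N + 1)) ^ (p - 1) * (1 / (N + 1)) * ∑ ℓ : Fin p,
        av (fun i : Fin (p - 1) → Fin N => h fun k =>
          stExt (fun j => (i j).castSucc) (Fin.last N) (Equiv.swap ℓ ⟨p - 1, by omega⟩ k)) ≤
      av h := by
  classical
  set pl : Fin p := ⟨p - 1, by omega⟩ with hpl
  let E : (Fin p → Fin N) ⊕ (Fin p × (Fin (p - 1) → Fin N)) → (Fin p → Fin (N + 1)) :=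
    Sum.elim (fun i k => (i k).castSucc) fun z k =>
      stExt (fun j => (z.2 j).castSucc) (Fin.last N) (Equiv.swap z.1 pl k)
  have hlast : ∀ (i : Fin (p - 1) → Fin N) (k : Fin p),
      stExt (fun j => (i j).castSucc) (Fin.last N) k = Fin.last N ↔ k = pl := by
    intro i k
    unfold stExt
    split_ifs with hk
    · refine ⟨fun h => absurd h (Fin.castSucc_lt_last _).ne, fun h => ?_⟩
      rw [h] at hk; exact absurd hk (lt_irrefl _)
    · exact ⟨fun _ => Fin.ext (by have := k.2; simp only [hpl]; omega), fun _ => rfl⟩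
  have hE : Function.Injective E := by
    rintro (i | ⟨ℓ, i⟩) (i' | ⟨ℓ', i'⟩) hh
    · congr 1; funext k; exact Fin.castSucc_injective _ (congrFun hh k)
    · have := congrFun hh ℓ'
      simp only [E, Sum.elim_inl, Sum.elim_inr, Equiv.swap_apply_left] at this
      rw [(hlast i' pl).2 rfl] at this
      exact absurd this (Fin.castSucc_lt_last _).ne
    · have := congrFun hh ℓ
      simp only [E, Sum.elim_inl, Sum.elim_inr, Equiv.swap_apply_left] at this
      rw [(hlast i pl).2 rfl] at this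
      exact absurd this.symm (Fin.castSucc_lt_last _).ne
    · have h1 := congrFun hh ℓ
      simp only [E, Sum.elim_inr, Equiv.swap_apply_left] at h1
      rw [(hlast i pl).2 rfl] at h1
      have h2 := (hlast i' _).1 h1.symm
      have h3 : ℓ = ℓ' := by
        apply (Equiv.swap ℓ' pl).injective
        rw [h2, Equiv.swap_apply_left]
      subst h3
      congr 2
      funext j
      have h4 := congrFun hh (Equiv.swap ℓ pl ⟨j, by have := j.2; omega⟩)
      simp only [E, Sum.elim_inr, Equiv.swap_apply_self, stExt, j.2, dif_pos] at h4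
      exact Fin.castSucc_injective _ h4
  have hsum : ∑ z, h (E z) ≤ ∑ i, h i := by
    rw [← Finset.sum_image (s := univ) (g := E) (fun a _ b _ hab => hE hab)]
    exact Finset.sum_le_sum_of_subset_of_nonneg (Finset.subset_univ _) fun i _ _ => h0 i
  rw [Fintype.sum_sum_type, Fintype.sum_prod_type] at hsum
  have hN' : (0 : ℝ) < N := by exact_mod_cast hN
  unfold av
  simp only [Fintype.card_pi, Finset.prod_const, Finset.card_univ, Fintype.card_fin, Nat.cast_pow]
  push_cast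
  refine le_trans (le_of_eq ?_) (div_le_div_of_nonneg_right hsum (by positivity))
  simp only [E, Sum.elim_inl, Sum.elim_inr]
  rw [← Finset.sum_div]
  obtain ⟨q, rfl⟩ : ∃ q, p = q + 1 := ⟨p - 1, by omega⟩
  simp only [Nat.add_sub_cancel, div_pow]
  field_simp
  ring

/-- One slot on `N + 1` spins dominates a mixture of an old slot and a site slot. -/
lemma st_slot_split (M : FM) {p N : ℕ} (hp : 1 ≤ p) (hN : 1 ≤ N)
    (Θ : (Asg (N + 1) → ℝ) → ℝ) (hΘ : ∀ w, (∀ σ, 0 < w σ) → 0 ≤ Θ w) :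
    ((N : ℝ) / (N + 1)) ^ p * av (fun c : M.Slot p N => Θ fun σ => stSlotW M c (Fin.init σ)) +
      p * ((N : ℝ) / (N + 1)) ^ (p - 1) * (1 / (N + 1)) *
        av (fun c : StSite M p N => Θ fun σ => stSiteW M c (Fin.init σ) (σ (Fin.last N))) ≤
      av fun c : M.Slot p (N + 1) => Θ (stSlotW M c) := by
  rw [av_prod', av_prod' (fun c : StSite M p N => _), av_prod' (fun c : M.Slot p (N + 1) => _)]
  refine le_trans (le_of_eq ?_) (st_idx_split hp hN
    (h := fun i => av fun c : M.Cl p => Θ (stSlotW M (c, i)))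
    fun i => av_nonneg fun c => hΘ _ fun σ => M.cw_pos _ _)
  congr 1
  have key : ∀ ℓ : Fin p, (av fun i : Fin (p - 1) → Fin N => av fun c : M.Cl p =>
      Θ (stSlotW M (c, fun k => stExt (fun j => (i j).castSucc) (Fin.last N)
        (Equiv.swap ℓ ⟨p - 1, by omega⟩ k)))) =
      av fun i : Fin (p - 1) → Fin N => av fun c : M.Cl p =>
        Θ fun σ => stSiteW M (c, i) (Fin.init σ) (σ (Fin.last N)) := by
    intro ℓ
    refine av_congr fun i => ?_
    refine (st_av_perm M (Equiv.swap ℓ ⟨p - 1, by omega⟩) Θ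
      fun σ k => σ (stExt (fun j => (i j).castSucc) (Fin.last N) k)).trans ?_
    refine av_congr fun c => ?_
    congr 1
    funext σ
    unfold stSiteW
    congr 1
    funext k
    unfold stExt lastExt
    split_ifs <;> rfl
  simp only [key, Finset.sum_const, Finset.card_univ, Fintype.card_fin, nsmul_eq_mul]
  ring

/-- The perturbed fractional moment of the partition function with weight `w`. -/
noncomputable def stPhi (D R n S : ℕ) (γ : ℝ) (x : Fam D R → ℝ) (N : ℕ) (w : Asg N → ℝ) : ℝ :=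
  ((coin (Asg N) D D).prod (PertF (Fin N) D R n S)).pm (fun _ => γ)
    fun y => w y.1 * pertW x y.2 y.1

/-- The same with the fields averaged. -/
noncomputable def stTheta (M : FM) (D R n S : ℕ) (γ : ℝ) (x : Fam D R → ℝ) (N : ℕ)
    (w : Asg N → ℝ) : ℝ :=
  av fun vs : Fin N → M.Fl => stPhi D R n S γ x N fun σ => w σ * ∏ i, M.fw (vs i) (σ i)

section
variable (M : FM) {D R n S : ℕ} {γ : ℝ} {x : Fam D R → ℝ} {N : ℕ}

lemma stPhi_nonneg {w : Asg N → ℝ} (hw : ∀ σ, 0 ≤ w σ) : 0 ≤ stPhi D R n S γ x N w :=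
  pm_nonneg _ _ fun _ => mul_nonneg (hw _) (pertW_pos _ _ _).le

lemma st_fin_nonempty (hN : 1 ≤ N) : Nonempty (Fin N) := ⟨⟨0, hN⟩⟩

lemma stPhi_pos (hN : 1 ≤ N) {w : Asg N → ℝ} (hw : ∀ σ, 0 < w σ) :
    0 < stPhi D R n S γ x N w := by
  have := st_fin_nonempty hN
  exact pm_pos _ _ fun y => mul_pos (hw _) (pertW_pos _ _ _)

lemma st_fw_prod_pos (vs : Fin N → M.Fl) (σ : Asg N) : 0 < ∏ i, M.fw (vs i) (σ i) :=
  Finset.prod_pos fun _ _ => M.fw_pos _ _

lemma stTheta_nonneg {w : Asg N → ℝ} (hw : ∀ σ, 0 ≤ w σ) : 0 ≤ stTheta M D R n S γ x N w :=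
  av_nonneg fun vs => stPhi_nonneg fun σ => mul_nonneg (hw σ) (st_fw_prod_pos M vs σ).le

lemma stTheta_pos (hN : 1 ≤ N) {w : Asg N → ℝ} (hw : ∀ σ, 0 < w σ) :
    0 < stTheta M D R n S γ x N w :=
  av_pos fun vs => stPhi_pos hN fun σ => mul_pos (hw σ) (st_fw_prod_pos M vs σ)

lemma stPhi_cmp (hN : 1 ≤ N) (hD : 1 ≤ D) (h0 : 0 < γ) (h1 : γ ≤ 1)
    (hx : ∀ φ, 0 ≤ x φ ∧ x φ ≤ 1) {w : Asg N → ℝ} (hw : ∀ σ, 0 < w σ) :
    (1 / 3 : ℝ) ^ Fintype.card (Fam D R × Fin S) * av w ^ (γ ^ D) ≤ stPhi D R n S γ x N w ∧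
      stPhi D R n S γ x N w ≤ 3 ^ Fintype.card (Fam D R × Fin S) * av w ^ (γ ^ D) := by
  have := st_fin_nonempty hN
  have hγ := ass_adm h0 h1
  have base : ∀ c : ℝ, 0 < c →
      ((coin (Asg N) D D).prod (PertF (Fin N) D R n S)).pm (fun _ => γ) (fun y => c * w y.1) =
        c ^ (γ ^ D) * av w ^ (γ ^ D) := by
    intro c hc
    rw [pm_const_mul _ _ hc fun y => (hw _).le, (morEx_fst _ _).pm, pm_coin_top _ hD hw]
    simp
  have hm0 : 0 ≤ γ ^ D := by positivity
  have hm1 : γ ^ D ≤ 1 := pow_le_one₀ h0.le h1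
  have hA : 0 ≤ av w ^ (γ ^ D) := Real.rpow_nonneg (av_nonneg fun σ => (hw σ).le) _
  constructor
  · refine le_trans ?_ (pm_mono _ hγ
      (V := fun y => (1 / 3 : ℝ) ^ Fintype.card (Fam D R × Fin S) * w y.1)
      (fun y => mul_nonneg (by positivity) (hw _).le) fun y => ?_)
    · rw [base _ (by positivity)]
      refine mul_le_mul_of_nonneg_right ?_ hA
      exact Real.self_le_rpow_of_le_one (by positivity) (pow_le_one₀ (by norm_num) (by norm_num)) hm1
    · rw [mul_comm]
      exact mul_le_mul_of_nonneg_left ((pow_le_pow_left₀ (by norm_num) (by norm_num) _).trans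
        (ass_pertW_mem hx _ _).1) (hw _).le
  · refine le_trans (pm_mono _ hγ
      (W := fun y => (3 : ℝ) ^ Fintype.card (Fam D R × Fin S) * w y.1)
      (fun y => mul_nonneg (hw _).le (pertW_pos _ _ _).le) fun y => ?_) ?_
    · rw [mul_comm (_ ^ _)]
      exact mul_le_mul_of_nonneg_left (ass_pertW_mem hx _ _).2 (hw _).le
    · rw [base _ (by positivity)]
      refine mul_le_mul_of_nonneg_right ?_ hA
      exact Real.rpow_le_self_of_one_le (one_le_pow₀ (by norm_num)) hm1

lemma stPhi_succ (hD : 1 ≤ D) {w : Asg (N + 1) → ℝ} (hw : ∀ σ, 0 ≤ w σ) :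
    ((N : ℝ) / (N + 1)) ^ Fintype.card (Fam D R × Fin S) *
        stPhi D R n S γ x N (fun σ => av fun ε : Bool => w (Fin.snoc σ ε)) ≤
      stPhi D R n S γ x (N + 1) w := by
  unfold stPhi
  rw [ass_pm_sites, ass_pm_sites]
  have hinj : Function.Injective fun (i : Fam D R × Fin S → Fin N) k => (i k).castSucc :=
    fun i i' h => funext fun k => Fin.castSucc_injective _ (congrFun h k)
  refine le_trans (le_of_eq ?_) (ass_av_inj _ hinj fun i =>
    pm_nonneg _ _ fun y => mul_nonneg (hw _) (pertW_pos _ _ _).le)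
  congr 1
  · simp only [Fintype.card_pi, Finset.prod_const, Finset.card_univ, Fintype.card_prod,
      Fintype.card_fin]
    push_cast
    rw [← div_pow]
  · refine av_congr fun i => ?_
    rw [← ass_pm_last hD (assPF D R n S) (fun _ => γ) w
      fun σ v => pertW x (fun k => ((v k).1, (i k, (v k).2))) σ]
    rfl

lemma stTheta_succ (hD : 1 ≤ D) {w : Asg (N + 1) → ℝ} (hw : ∀ σ, 0 ≤ w σ) :
    ((N : ℝ) / (N + 1)) ^ Fintype.card (Fam D R × Fin S) *
        (av fun v : M.Fl => stTheta M D R n S γ x N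
          fun σ => av fun ε : Bool => M.fw v ε * w (Fin.snoc σ ε)) ≤
      stTheta M D R n S γ x (N + 1) w := by
  unfold stTheta
  rw [av_fin_snoc, av_comm, ← av_const_mul]
  refine av_mono fun vs => ?_
  rw [← av_const_mul]
  refine av_mono fun v => ?_
  refine le_trans (le_of_eq ?_) (stPhi_succ hD fun σ =>
    mul_nonneg (hw σ) (st_fw_prod_pos M _ σ).le)
  congr 2
  funext σ
  rw [← av_mul_const]
  refine av_congr fun ε => ?_
  rw [Fin.prod_univ_castSucc]
  simp only [Fin.snoc_castSucc, Fin.snoc_last]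
  ring

/-- The base system with `K` slots. -/
noncomputable def stSys (p D R n S : ℕ) (γ : ℝ) (x : Fam D R → ℝ) (N K : ℕ) :
    Filt ((((Fin K → M.Slot p N) × (Fin N → M.Fl)) × Asg N) × PertLab (Fin N) D R n S) D :=
  enrich ((coin ((Fin K → M.Slot p N) × (Fin N → M.Fl)) D 0).prod (coin (Asg N) D D))
    (fun ω => ω.2) (fun ω => (∏ s, stSlotW M (ω.1.1 s) ω.2) * ∏ i, M.fw (ω.1.2 i) (ω.2 i))
    (fun _ => mul_pos (Finset.prod_pos fun _ _ => M.cw_pos _ _) (st_fw_prod_pos M _ _)) γ R n S x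

/-- The perturbed moment with `K` slots. -/
noncomputable def stPsi (p D R n S : ℕ) (γ : ℝ) (x : Fam D R → ℝ) (N K : ℕ) : ℝ :=
  av fun F : Fin K → M.Slot p N => stTheta M D R n S γ x N fun σ => ∏ s, stSlotW M (F s) σ

lemma stPsi_pos (p : ℕ) (hN : 1 ≤ N) (K : ℕ) : 0 < stPsi M p D R n S γ x N K := by
  have := M.slot_nonempty p hN
  exact av_pos fun F => stTheta_pos M hN fun σ => Finset.prod_pos fun _ _ => M.cw_pos _ _

lemma st_base (p : ℕ) (hN : 1 ≤ N) (K : ℕ) {V : Asg N → ℝ} (hV : ∀ σ, 0 ≤ V σ) :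
    (av fun F : Fin K → M.Slot p N =>
      stTheta M D R n S γ x N fun σ => V σ * ∏ s, stSlotW M (F s) σ) =
      stPsi M p D R n S γ x N K *
        (stSys M p D R n S γ x N K).pm (fun _ => γ) fun y => V y.1.2 := by
  have := st_fin_nonempty hN
  have := M.slot_nonempty p hN
  have key : ∀ V : Asg N → ℝ,
      (((coin ((Fin K → M.Slot p N) × (Fin N → M.Fl)) D 0).prod (coin (Asg N) D D)).prod
        (PertF (Fin N) D R n S)).pm (fun _ => γ)
        (fun y => ((∏ s, stSlotW M (y.1.1.1 s) y.1.2) * ∏ i, M.fw (y.1.1.2 i) (y.1.2 i)) *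
          pertW x y.2 y.1.2 * V y.1.2) =
      av fun F : Fin K → M.Slot p N =>
        stTheta M D R n S γ x N fun σ => V σ * ∏ s, stSlotW M (F s) σ := by
    intro V
    rw [← (morEx_assoc_symm _ _ _).pm, pm_coin_zero_prod, av_prod]
    refine av_congr fun F => av_congr fun vs => pm_congr _ _ fun y => ?_
    ring
  have hpos := stPsi_pos M (D := D) (R := R) (n := n) (S := S) (γ := γ) (x := x) p hN K
  have k1 := key fun _ => 1
  simp only [mul_one, one_mul] at k1
  unfold stSys enrich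
  rw [pm_tilt _ _ _ fun y => hV _, key V, k1]
  exact (mul_div_cancel₀ _ hpos.ne').symm

lemma stPsi_cmp (p : ℕ) (hN : 1 ≤ N) (hD : 1 ≤ D) (h0 : 0 < γ) (h1 : γ ≤ 1)
    (hx : ∀ φ, 0 ≤ x φ ∧ x φ ≤ 1) (K : ℕ) :
    |Real.log (stPsi M p D R n S γ x N K) - Real.log (M.Psi p (γ ^ D) N K)| ≤
      Fintype.card (Fam D R × Fin S) * Real.log 3 := by
  have hP := M.Psi_pos p (γ ^ D) hN K
  have hψ := stPsi_pos M (D := D) (R := R) (n := n) (S := S) (γ := γ) (x := x) p hN K
  have c := fun (F : Fin K → M.Slot p N) (vs : Fin N → M.Fl) =>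
    stPhi_cmp (R := R) (n := n) (S := S) (x := x) hN hD h0 h1 hx
      (w := fun σ => (∏ s, stSlotW M (F s) σ) * ∏ i, M.fw (vs i) (σ i))
      fun σ => mul_pos (Finset.prod_pos fun _ _ => M.cw_pos _ _) (st_fw_prod_pos M _ _)
  have a1 : (1 / 3 : ℝ) ^ Fintype.card (Fam D R × Fin S) * M.Psi p (γ ^ D) N K ≤
      stPsi M p D R n S γ x N K := by
    unfold FM.Psi stPsi stTheta
    rw [← av_const_mul]
    refine av_mono fun F => ?_
    rw [← av_const_mul]
    exact av_mono fun vs => (c F vs).1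
  have a2 : stPsi M p D R n S γ x N K ≤
      (3 : ℝ) ^ Fintype.card (Fam D R × Fin S) * M.Psi p (γ ^ D) N K := by
    unfold FM.Psi stPsi stTheta
    rw [← av_const_mul]
    refine av_mono fun F => ?_
    rw [← av_const_mul]
    exact av_mono fun vs => (c F vs).2
  have b1 := Real.log_le_log (by positivity) a1
  have b2 := Real.log_le_log hψ a2
  rw [Real.log_mul (by positivity) hP.ne', Real.log_pow] at b1 b2
  rw [one_div, Real.log_inv] at b1
  rw [abs_le]
  constructor <;> linarith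

end

end Crest.Agent.R141
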