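import Mathlib
import Crest.Agent.R141.StepAux1
import Crest.Agent.R153.Dec

/-!
Row 141, cavity step, part 2: decoupling of the cavity slots and the one-step identities.
-/

set_option autoImplicit false

namespace Crest.Agent.R141

open Finset Crest.Agent.R153 Crest.Agent.R153.Filt

/-- Decoupling for weights in `[exp (-a), exp a]` on at most `L` spins. -/
def StDec {Ω I : Type} [Fintype Ω] [Fintype I] {D : ℕ} (F : Filt Ω D) (s : Ω → I → Bool)
    (γ γ' : ℕ → ℝ) (L : ℕ) (a η : ℝ) : Prop :=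
  ∀ (Λ : Type) [Fintype Λ] [DecidableEq Λ], Fintype.card Λ ≤ L →
    ∀ v : (Λ → Bool) → ℝ, (∀ y, Real.exp (-a) ≤ v y ∧ v y ≤ Real.exp a) →
      |(av fun i : Λ → I => F.pm γ fun ω => v fun l => s ω (i l)) -
        pmV (F.prod (Filt.coin I D 0)) (fun x => s x.1 x.2) γ' v| ≤ η

lemma st_dec (m a η : ℝ) (hm0 : 0 < m) (hm1 : m < 1) (ha : 0 ≤ a) (hη : 0 < η) (L : ℕ) :
    ∃ (D R : ℕ) (γ ε : ℝ), 1 ≤ D ∧ 0 < γ ∧ γ < 1 ∧ γ ^ D = m ∧ 0 < ε ∧
      ∀ (Ω I : Type) [Fintype Ω] [Nonempty Ω] [Fintype I] [Nonempty I] (F : Filt Ω D)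
        (s : Ω → I → Bool), GG F s γ R ε →
        ∃ γ' : ℕ → ℝ, Adm γ' ∧ ∏ d ∈ range D, γ' d = m ∧ StDec F s (fun _ => γ) γ' L a η := by
  obtain ⟨D, R, γ, ε, hD, h0, h1, hm, hε, h⟩ := dec m (Real.exp (-(2 * a))) (η * Real.exp (-a))
    hm0 hm1 (Real.exp_pos _) (Real.exp_le_one_iff.2 (by linarith)) (by positivity) L
  refine ⟨D, R, γ, ε, hD, h0, h1, hm, hε, fun Ω I _ _ _ _ F s hG => ?_⟩
  obtain ⟨γ', hγ', hm', hd⟩ := h Ω I F s hG
  refine ⟨γ', hγ', hm', fun Λ _ _ hL v hv => ?_⟩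
  have hv0 : ∀ y, 0 ≤ Real.exp (-a) * v y := fun y =>
    mul_nonneg (Real.exp_pos _).le ((Real.exp_pos _).le.trans (hv y).1)
  have h2 := hd Λ hL (fun y => Real.exp (-a) * v y) fun y => by
    constructor
    · calc Real.exp (-(2 * a)) = Real.exp (-a) * Real.exp (-a) := by
            rw [← Real.exp_add]; congr 1; ring
        _ ≤ _ := mul_le_mul_of_nonneg_left (hv y).1 (Real.exp_pos _).le
    · calc _ ≤ Real.exp (-a) * Real.exp a := mul_le_mul_of_nonneg_left (hv y).2 (Real.exp_pos _).le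
        _ = 1 := by rw [← Real.exp_add]; simp
  have hv1 : ∀ y, 0 ≤ v y := fun y => (Real.exp_pos _).le.trans (hv y).1
  have e1 : ∀ i : Λ → I, (F.pm (fun _ => γ) fun ω => Real.exp (-a) * v fun l => s ω (i l)) =
      Real.exp (-a) ^ m * F.pm (fun _ => γ) fun ω => v fun l => s ω (i l) := fun i => by
    rw [pm_const_mul _ _ (Real.exp_pos _) fun ω => hv1 _, Finset.prod_const, Finset.card_range, hm]
  simp only [e1] at h2
  rw [pm_const_mul _ _ (Real.exp_pos _) fun ω => hv1 _, hm', av_const_mul, ← mul_sub, abs_mul,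
    abs_of_pos (Real.rpow_pos_of_pos (Real.exp_pos _) _)] at h2
  have h3 : Real.exp (-a) ≤ Real.exp (-a) ^ m :=
    Real.self_le_rpow_of_le_one (Real.exp_pos _).le (Real.exp_le_one_iff.2 (by linarith)) hm1.le
  refine le_of_mul_le_mul_left (a := Real.exp (-a)) ?_ (Real.exp_pos _)
  rw [mul_comm _ η]
  exact (mul_le_mul_of_nonneg_right h3 (abs_nonneg _)).trans h2

variable (M : FM) {p : ℕ}

/-- The weight of `j` old slots as a function of their spins. -/
def stVe {j : ℕ} (u : Fin j → M.Cl p) (y : Fin j × Fin p → Bool) : ℝ :=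
  ∏ s, M.cw (u s) fun ℓ => y (s, ℓ)

/-- The weight of `j` old slots and `K` site slots as a function of their spins. -/
noncomputable def stV {j K : ℕ} (v : M.Fl) (τ : Fin K → M.Cl p) (u : Fin j → M.Cl p)
    (y : (Fin j × Fin p) ⊕ (Fin K × Fin (p - 1)) → Bool) : ℝ :=
  stVe M u (fun z => y (Sum.inl z)) * M.siteV v τ fun z => y (Sum.inr z)

/-- The weight of `j` old slots and `K` site slots, the new spin being averaged. -/
noncomputable def stMix {N j K : ℕ} (v : M.Fl) (G : Fin K → StSite M p N)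
    (H : Fin j → M.Slot p N) (σ : Asg N) : ℝ :=
  (∏ s, stSlotW M (H s) σ) * av fun ε : Bool => M.fw v ε * ∏ k, stSiteW M (G k) σ ε

lemma stVe_mem {j : ℕ} (u : Fin j → M.Cl p) (y : Fin j × Fin p → Bool) :
    Real.exp (-(M.c * j)) ≤ stVe M u y ∧ stVe M u y ≤ Real.exp (M.c * j) := by
  simpa only [Fintype.card_fin, stVe] using prod_exp_mem fun s => M.cw_mem (u s) fun ℓ => y (s, ℓ)

lemma stV_mem {j K : ℕ} (v : M.Fl) (τ : Fin K → M.Cl p) (u : Fin j → M.Cl p)
    (y : (Fin j × Fin p) ⊕ (Fin K × Fin (p - 1)) → Bool) :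
    Real.exp (-(M.c * (j + K + 1))) ≤ stV M v τ u y ∧
      stV M v τ u y ≤ Real.exp (M.c * (j + K + 1)) := by
  have := mul_exp_mem (stVe_mem M u fun z => y (Sum.inl z)) (M.siteV_mem v τ fun z => y (Sum.inr z))
  rwa [show M.c * j + M.c * (K + 1) = M.c * (j + K + 1) by ring] at this

lemma stMix_mem {N j K : ℕ} (v : M.Fl) (G : Fin K → StSite M p N) (H : Fin j → M.Slot p N)
    (σ : Asg N) : Real.exp (-(M.c * (j + K + 1))) ≤ stMix M v G H σ ∧
      stMix M v G H σ ≤ Real.exp (M.c * (j + K + 1)) :=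
  stV_mem M v (fun k => (G k).1) (fun s => (H s).1)
    (Sum.elim (fun z => σ ((H z.1).2 z.2)) fun z => σ ((G z.1).2 z.2))

section
variable {Ξ : Type} [Fintype Ξ] {D : ℕ} (γ : ℕ → ℝ) (X : Filt Ξ D) (f : Ξ → Bool)

lemma st_pmV_e {j : ℕ} (u : Fin j → M.Cl p) :
    pmV X f γ (stVe M u) = ∏ s, pmV X f γ (M.cw (u s)) := by
  unfold pmV
  rw [← pm_pi_prod (fun _ : Fin j => Filt.pi fun _ : Fin p => X) γ
    (V := fun s x => M.cw (u s) fun l => f (x l)) fun s x => (M.cw_pos _ _).le]
  exact ((morEx_pi_curry (ι := Fin j) (κ := Fin p) X).pm γ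
    fun x => ∏ s, M.cw (u s) fun l => f (x (s, l))).symm

lemma st_decoupled_e (j : ℕ) :
    (av fun u : Fin j → M.Cl p => pmV X f γ (stVe M u)) = edgeE M p X f γ ^ j := by
  simp only [st_pmV_e]
  rw [av_pi_prod (A := fun _ : Fin j => M.Cl p) fun _ c => pmV X f γ (M.cw c)]
  simp only [Finset.prod_const, Finset.card_univ, Fintype.card_fin]
  rfl

lemma st_decoupled (j K : ℕ) :
    (av fun τ : Fin K → M.Cl p => av fun v : M.Fl => av fun u : Fin j → M.Cl p =>
      pmV X f γ (stV M v τ u)) = edgeE M p X f γ ^ j * siteS M p X f γ K := by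
  have e : ∀ (τ : Fin K → M.Cl p) (v : M.Fl) (u : Fin j → M.Cl p),
      pmV X f γ (stV M v τ u) = pmV X f γ (stVe M u) * pmV X f γ (M.siteV v τ) := by
    intro τ v u
    unfold pmV
    rw [← pm_prod_mul _ _ γ (fun x => ((Real.exp_pos _).trans_le (stVe_mem M u _).1).le)
      (fun x => (M.siteV_pos _ _ _).le), ← (morEx_pi_sum X).pm]
    rfl
  simp only [e, av_mul_const, av_const_mul, st_decoupled_e]
  rfl

end

section
variable {Ω : Type} [Fintype Ω] {D N : ℕ} {γ γ' : ℕ → ℝ} (F : Filt Ω D) (sp : Ω → Asg N)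
  {η : ℝ} {J : ℕ}

lemma st_close_e [Nonempty (Fin N)] {j : ℕ} (hJ : j ≤ J)
    (hdec : StDec F sp γ γ' (J * p) (M.c * (J + 1)) η) :
    |(av fun H : Fin j → M.Slot p N => F.pm γ fun ω => ∏ s, stSlotW M (H s) (sp ω)) -
      edgeE M p (F.prod (Filt.coin (Fin N) D 0)) (fun x => sp x.1 x.2) γ' ^ j| ≤ η := by
  rw [ass_av_pi_pair, ← st_decoupled_e, ← av_sub]
  refine (abs_av_le _).trans (av_le_of_le fun u => ?_)
  refine hdec _ ?_ (stVe M u) fun y => ?_
  · simp only [Fintype.card_prod, Fintype.card_fin]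
    exact Nat.mul_le_mul_right _ hJ
  · have h : M.c * j ≤ M.c * (J + 1) := mul_le_mul_of_nonneg_left
      (by exact_mod_cast (by omega : j ≤ J + 1)) M.c_nonneg
    exact ⟨(Real.exp_le_exp.2 (neg_le_neg h)).trans (stVe_mem M u y).1,
      (stVe_mem M u y).2.trans (Real.exp_le_exp.2 h)⟩

lemma st_close [Nonempty (Fin N)] {j K : ℕ} (hJ : j + K ≤ J)
    (hdec : StDec F sp γ γ' (J * p) (M.c * (J + 1)) η) :
    |(av fun G : Fin K → StSite M p N => av fun v : M.Fl => av fun H : Fin j → M.Slot p N =>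
        F.pm γ fun ω => stMix M v G H (sp ω)) -
      edgeE M p (F.prod (Filt.coin (Fin N) D 0)) (fun x => sp x.1 x.2) γ' ^ j *
        siteS M p (F.prod (Filt.coin (Fin N) D 0)) (fun x => sp x.1 x.2) γ' K| ≤ η := by
  have e : (av fun G : Fin K → StSite M p N => av fun v : M.Fl => av fun H : Fin j → M.Slot p N =>
      F.pm γ fun ω => stMix M v G H (sp ω)) =
      av fun τ : Fin K → M.Cl p => av fun v : M.Fl => av fun u : Fin j → M.Cl p =>
        av fun i : (Fin j × Fin p) ⊕ (Fin K × Fin (p - 1)) → Fin N =>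
          F.pm γ fun ω => stV M v τ u fun l => sp ω (i l) := by
    rw [ass_av_pi_pair]
    refine av_congr fun τ => ?_
    rw [av_comm]
    refine av_congr fun v => ?_
    rw [av_comm, ass_av_pi_pair]
    refine av_congr fun u => ?_
    rw [ass_av_sum_arrow]
    rfl
  rw [e, ← st_decoupled, ← av_sub]
  refine (abs_av_le _).trans (av_le_of_le fun τ => ?_)
  rw [← av_sub]
  refine (abs_av_le _).trans (av_le_of_le fun v => ?_)
  rw [← av_sub]
  refine (abs_av_le _).trans (av_le_of_le fun u => ?_)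
  refine hdec _ ?_ (stV M v τ u) fun y => ?_
  · simp only [Fintype.card_sum, Fintype.card_prod, Fintype.card_fin]
    calc j * p + K * (p - 1) ≤ j * p + K * p := by gcongr; omega
      _ = (j + K) * p := by ring
      _ ≤ J * p := Nat.mul_le_mul_right _ hJ
  · have h : M.c * (j + K + 1) ≤ M.c * (J + 1) := mul_le_mul_of_nonneg_left
      (by exact_mod_cast (by omega : j + K + 1 ≤ J + 1)) M.c_nonneg
    exact ⟨(Real.exp_le_exp.2 (neg_le_neg h)).trans (stV_mem M v τ u y).1,
      (stV_mem M v τ u y).2.trans (Real.exp_le_exp.2 h)⟩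

end

/-- The cavity average of `j` old slots in the base system. -/
noncomputable def stC0 (p D R n S : ℕ) (γ : ℝ) (x : Fam D R → ℝ) (N B j : ℕ) : ℝ :=
  av fun H : Fin j → M.Slot p N =>
    (stSys M p D R n S γ x N B).pm (fun _ => γ) fun y => ∏ s, stSlotW M (H s) y.1.2

/-- The cavity average of `j` old slots and `K` site slots in the base system. -/
noncomputable def stC (p D R n S : ℕ) (γ : ℝ) (x : Fam D R → ℝ) (N B j K : ℕ) : ℝ :=
  av fun G : Fin K → StSite M p N => av fun v : M.Fl => av fun H : Fin j → M.Slot p N =>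
    (stSys M p D R n S γ x N B).pm (fun _ => γ) fun y => stMix M v G H y.1.2

section
variable {D R n S : ℕ} {γ : ℝ} {x : Fam D R → ℝ} {N : ℕ}

lemma stC_ge (hN : 1 ≤ N) (h0 : 0 < γ) (h1 : γ ≤ 1) (B j K : ℕ) :
    Real.exp (-(M.c * (j + K + 1))) ≤ stC M p D R n S γ x N B j K := by
  have := st_fin_nonempty hN
  refine le_av_of_le fun G => le_av_of_le fun v => le_av_of_le fun H => ?_
  refine le_pm _ (ass_adm h0 h1) (Real.exp_pos _) (Real.exp_le_one_iff.2 ?_)
    fun y => (stMix_mem M v G H _).1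
  have := M.c_nonneg
  have : 0 ≤ M.c * ((j : ℝ) + K + 1) := by positivity
  linarith

lemma st_den (hN : 1 ≤ N) (B j : ℕ) :
    stPsi M p D R n S γ x N (j + B) = stPsi M p D R n S γ x N B * stC0 M p D R n S γ x N B j := by
  have h1 := assT_pow (X := Asg N → ℝ) (fun c : M.Slot p N => stSlotW M c) (j + B)
    (stTheta M D R n S γ x N) 1
  rw [pow_add, Module.End.mul_apply, assT_pow] at h1
  simp only [assT_pow, one_mul] at h1
  unfold stC0
  rw [← av_const_mul]
  refine Eq.trans ?_ (h1.symm.trans ?_)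
  · refine av_congr fun F => ?_
    congr 1
    funext σ
    simp
  · refine av_congr fun H => ?_
    rw [← st_base M p hN B (V := fun σ => ∏ s, stSlotW M (H s) σ)
      fun σ => Finset.prod_nonneg fun _ _ => (M.cw_pos _ _).le]
    refine av_congr fun F => ?_
    congr 1
    funext σ
    simp

lemma st_num (hp : 1 ≤ p) (hN : 1 ≤ N) (hD : 1 ≤ D) (B J Kc : ℕ) (hK : Kc ≤ J) :
    ((N : ℝ) / (N + 1)) ^ Fintype.card (Fam D R × Fin S) * stPsi M p D R n S γ x N B *
      ∑ K ∈ range (Kc + 1), ((J + B).choose K : ℝ) *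
        (p * ((N : ℝ) / (N + 1)) ^ (p - 1) * (1 / (N + 1))) ^ K *
        (((N : ℝ) / (N + 1)) ^ p) ^ (J + B - K) * stC M p D R n S γ x N B (J - K) K ≤
      stPsi M p D R n S γ x (N + 1) (J + B) := by
  set P : (Asg (N + 1) → ℝ) → Prop := fun w => ∀ σ, 0 < w σ with hP
  have hmul : ∀ x y, P x → P y → P (x * y) := fun x y hx hy σ => mul_pos (hx σ) (hy σ)
  set α : M.Slot p N → Asg (N + 1) → ℝ := fun c σ => stSlotW M c (Fin.init σ) with hα
  set β : StSite M p N → Asg (N + 1) → ℝ :=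
    fun c σ => stSiteW M c (Fin.init σ) (σ (Fin.last N)) with hβ
  have hαP : ∀ a, P (α a) := fun c σ => M.cw_pos _ _
  have hβP : ∀ a, P (β a) := fun c σ => M.cw_pos _ _
  have hΦ : ∀ w, P w → 0 ≤ stTheta M D R n S γ x (N + 1) w := fun w hw =>
    stTheta_nonneg M fun σ => (hw σ).le
  have h1 : P 1 := fun _ => one_pos
  have pas := ass_pascal hmul (α := α) (β := β) (χ := fun c : M.Slot p (N + 1) => stSlotW M c)
    hαP hβP (fun c σ => M.cw_pos _ _)
    (p0 := ((N : ℝ) / (N + 1)) ^ p) (p1 := p * ((N : ℝ) / (N + 1)) ^ (p - 1) * (1 / (N + 1)))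
    (by positivity) (by positivity) (fun Θ hΘ => st_slot_split M hp hN Θ hΘ) hΦ
    (J + B) 1 h1
  have e1 : (assT (fun c : M.Slot p (N + 1) => stSlotW M c) ^ (J + B))
      (stTheta M D R n S γ x (N + 1)) 1 = stPsi M p D R n S γ x (N + 1) (J + B) := by
    rw [assT_pow]
    refine av_congr fun F => ?_
    congr 1
    funext σ
    simp
  rw [e1] at pas
  refine le_trans ?_ (le_trans (Finset.sum_le_sum_of_subset_of_nonneg
    (Finset.range_subset_range.2 (by omega : Kc + 1 ≤ J + B + 1)) fun K _ _ => ?_) pas)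
  · rw [Finset.mul_sum]
    refine Finset.sum_le_sum fun K hKm => ?_
    have hK' : K ≤ J := by have := Finset.mem_range.1 hKm; omega
    rw [mul_left_comm]
    refine mul_le_mul_of_nonneg_left ?_ (by positivity)
    have e2 : stPsi M p D R n S γ x N B * stC M p D R n S γ x N B (J - K) K =
        av fun G : Fin K → StSite M p N => av fun H : Fin (J - K) → M.Slot p N =>
          av fun F : Fin B → M.Slot p N => av fun v : M.Fl =>
            stTheta M D R n S γ x N fun σ => stMix M v G H σ * ∏ s, stSlotW M (F s) σ := by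
      unfold stC
      rw [← av_const_mul]
      refine av_congr fun G => ?_
      rw [av_comm, ← av_const_mul]
      refine av_congr fun H => ?_
      rw [av_comm, ← av_const_mul]
      refine av_congr fun v => ?_
      exact (st_base M p hN B fun σ => ((Real.exp_pos _).trans_le (stMix_mem M v G H σ).1).le).symm
    rw [mul_assoc, e2, show J + B - K = (J - K) + B by omega, pow_add, assT_pow, ← av_const_mul]
    refine av_mono fun G => ?_
    rw [Module.End.mul_apply, assT_pow, ← av_const_mul]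
    refine av_mono fun H => ?_
    rw [assT_pow, ← av_const_mul]
    refine av_mono fun F => ?_
    refine le_trans (le_of_eq ?_) (stTheta_succ M hD fun σ => ?_)
    · congr 1
      refine av_congr fun v => ?_
      congr 1
      funext σ
      simp only [stMix, hα, hβ, one_mul, Pi.mul_apply, Finset.prod_apply, Fin.init_snoc,
        Fin.snoc_last]
      rw [← av_const_mul, ← av_mul_const]
      refine av_congr fun ε => ?_
      ring
    · simp only [one_mul, Pi.mul_apply, Finset.prod_apply]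
      exact mul_nonneg (mul_nonneg (Finset.prod_nonneg fun k _ => (hβP _ σ).le)
        (Finset.prod_nonneg fun k _ => (hαP _ σ).le)) (Finset.prod_nonneg fun k _ => (hαP _ σ).le)
  · exact mul_nonneg (by positivity)
      (assT_pow_nonneg hmul hβP (assT_pow_nonneg hmul hαP hΦ _) K 1 h1)

end

end Crest.Agent.R141
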