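import Mathlib
import Crest.Agent.R141.Basic
import Crest.Agent.R141.StepAux2
import Crest.Agent.R153.Conc

/-!
Row 141: the cavity step for fractional moments.
-/

set_option autoImplicit false

namespace Crest.Agent.R141

open Finset MeasureTheory Filter Crest.Agent.R153 Crest.ProbabilityR.Diluted

lemma st_ratio_pow {N : ℕ} (hN : 1 ≤ N) (n : ℕ) :
    Real.exp (-(n / (N : ℝ))) ≤ ((N : ℝ) / (N + 1)) ^ n := by
  have hN' : (0 : ℝ) < N := by exact_mod_cast hN
  have h1 : Real.exp (-(1 / (N : ℝ))) ≤ (N : ℝ) / (N + 1) := by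
    rw [Real.exp_neg, inv_le_comm₀ (Real.exp_pos _) (by positivity), inv_div]
    have := Real.add_one_le_exp (1 / (N : ℝ))
    rw [add_div, div_self hN'.ne']
    linarith
  refine le_trans (le_of_eq ?_) (pow_le_pow_left₀ (Real.exp_pos _).le h1 n)
  rw [← Real.exp_nat_mul]; congr 1; ring

lemma st_exp_le_one_sub {s : ℝ} (h0 : 0 ≤ s) (h1 : s ≤ 1 / 2) : Real.exp (-(2 * s)) ≤ 1 - s := by
  have := Real.add_one_le_exp (2 * s)
  rw [Real.exp_neg, inv_le_comm₀ (Real.exp_pos _) (by linarith), inv_eq_one_div,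
    div_le_iff₀ (by linarith)]
  nlinarith

/-- Lower bound of the binomial weights by the Poisson weights. -/
lemma st_weight {p : ℕ} (hp : 1 ≤ p) {α s : ℝ} (hα : 0 < α) (hs0 : 0 ≤ s) (hs1 : s ≤ 1 / 2)
    {N K' k Dc : ℕ} (hN : 1 ≤ N) (hk : k ≤ Dc) (h1 : (1 - s) * α * N + Dc ≤ K')
    (h2 : (K' : ℝ) ≤ (1 + s) * α * N) :
    Real.exp (-(2 * s * Dc + p * α * s)) * poissonWeight (α * p) k ≤ (K'.choose k : ℝ) *
      (p * ((N : ℝ) / (N + 1)) ^ (p - 1) * (1 / (N + 1))) ^ k *
      (((N : ℝ) / (N + 1)) ^ p) ^ (K' - k) := by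
  have hN' : (0 : ℝ) < N := by exact_mod_cast hN
  have hk' : (k : ℝ) ≤ Dc := by exact_mod_cast hk
  have h0 : 0 ≤ (1 - s) * α * N := mul_nonneg (mul_nonneg (by linarith) hα.le) hN'.le
  have hkK : k ≤ K' := by
    have : (k : ℝ) ≤ K' := by linarith
    exact_mod_cast this
  set r : ℝ := (N : ℝ) / (N + 1) with hr
  have hr0 : 0 < r := by positivity
  have e1 : (p : ℝ) * r ^ (p - 1) * (1 / (N + 1)) = p / N * r ^ p := by
    obtain ⟨q, rfl⟩ : ∃ q, p = q + 1 := ⟨p - 1, by omega⟩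
    rw [Nat.add_sub_cancel, pow_succ, hr]
    field_simp
  have c1 : ((1 - s) * α * N) ^ k / k.factorial ≤ (K'.choose k : ℝ) := by
    refine le_trans ?_ (Nat.pow_le_choose (α := ℝ) k K')
    refine div_le_div_of_nonneg_right (pow_le_pow_left₀ h0 ?_ k) (by positivity)
    rw [Nat.cast_sub (by omega)]
    push_cast
    linarith
  have c2 : Real.exp (-(p * α * (1 + s))) ≤ r ^ (p * K') := by
    refine le_trans (Real.exp_le_exp.2 (neg_le_neg ?_)) (st_ratio_pow hN _)
    rw [div_le_iff₀ hN']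
    push_cast
    have : (0 : ℝ) ≤ p := Nat.cast_nonneg p
    nlinarith
  have c3 : Real.exp (-(2 * s * Dc)) ≤ (1 - s) ^ k := by
    refine le_trans (Real.exp_le_exp.2 ?_) (le_trans (le_of_eq (Real.exp_nat_mul _ k))
      (pow_le_pow_left₀ (Real.exp_pos _).le (st_exp_le_one_sub hs0 hs1) k))
    nlinarith
  rw [e1, mul_pow, mul_assoc (K'.choose k : ℝ), mul_assoc (((p : ℝ) / N) ^ k), ← pow_add,
    Nat.add_sub_cancel' hkK, ← pow_mul]
  calc Real.exp (-(2 * s * Dc + p * α * s)) * poissonWeight (α * p) k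
      = Real.exp (-(2 * s * Dc)) * ((α * p) ^ k / k.factorial) * Real.exp (-(p * α * (1 + s))) := by
        unfold poissonWeight
        rw [show -(2 * s * Dc + p * α * s) = -(2 * s * Dc) + -(p * α * s) by ring,
          show -(p * α * (1 + s)) = -(α * p) + -(p * α * s) by ring, Real.exp_add, Real.exp_add]
        ring
    _ ≤ (1 - s) ^ k * ((α * p) ^ k / k.factorial) * r ^ (p * K') :=
        mul_le_mul (mul_le_mul_of_nonneg_right c3 (by positivity)) c2 (Real.exp_pos _).le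
          (mul_nonneg ((Real.exp_pos _).le.trans c3) (by positivity))
    _ = ((1 - s) * α * N) ^ k / k.factorial * (((p : ℝ) / N) ^ k * r ^ (p * K')) := by
        simp only [mul_pow, div_pow]
        field_simp
    _ ≤ _ := mul_le_mul_of_nonneg_right c1 (by positivity)

lemma st_tail (M : FM) (p : ℕ) {lam t : ℝ} (hl : 0 ≤ lam) (ht : 0 < t) : ∃ Dc : ℕ,
    ∀ (D : ℕ) (Ξ : Type) [Fintype Ξ] [Nonempty Ξ] (X : Filt Ξ D) (σ : Ξ → Bool) (γ : ℕ → ℝ),
      Adm γ → Real.exp (-t) *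
        ∑' K : ℕ, poissonWeight lam K * (siteS M p X σ γ K / edgeE M p X σ γ ^ K) ≤
        ∑ K ∈ range (Dc + 1), poissonWeight lam K * (siteS M p X σ γ K / edgeE M p X σ γ ^ K) := by
  set u : ℕ → ℝ := fun K => poissonWeight lam K * (Real.exp M.c * Real.exp (2 * M.c) ^ K) with hu
  have hus : Summable u := summable_poisson_of_le hl (A := Real.exp M.c) (x := Real.exp (2 * M.c))
    fun K => le_of_eq (abs_of_nonneg (by positivity))
  have h1 : 0 < 1 - Real.exp (-t) := by
    have := Real.exp_lt_one_iff.2 (show -t < 0 by linarith)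
    linarith
  have h0 : 0 < poissonWeight lam 0 := by unfold poissonWeight; positivity
  obtain ⟨Dc, hDc⟩ := eventually_atTop.1 ((tendsto_sum_nat_add u).eventually_lt_const
    (show 0 < (1 - Real.exp (-t)) * (poissonWeight lam 0 * Real.exp (-M.c)) by positivity))
  refine ⟨Dc, fun D Ξ _ _ X σ γ hγ => ?_⟩
  have hs := rho_summable X σ M p hl hγ
  set v : ℕ → ℝ := fun K => poissonWeight lam K * (siteS M p X σ γ K / edgeE M p X σ γ ^ K)
    with hv
  have hv0 : ∀ K, 0 ≤ v K := fun K => mul_nonneg (poissonWeight_nonneg hl K)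
    (div_pos (siteS_pos X σ M p hγ K) (pow_pos (edgeE_pos X σ M p hγ) K)).le
  have a1 : ∑' K, v (K + (Dc + 1)) ≤ ∑' K, u (K + (Dc + 1)) :=
    Summable.tsum_le_tsum (fun K => mul_le_mul_of_nonneg_left (site_div_edge_le X σ M p hγ _)
      (poissonWeight_nonneg hl _)) ((summable_nat_add_iff _).2 hs) ((summable_nat_add_iff _).2 hus)
  have a2 : poissonWeight lam 0 * Real.exp (-M.c) ≤ ∑' K, v K := by
    refine le_trans ?_ (hs.le_tsum 0 fun K _ => hv0 K)
    refine mul_le_mul_of_nonneg_left ?_ h0.le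
    rw [pow_zero, div_one]
    refine le_trans (Real.exp_le_exp.2 (neg_le_neg ?_)) (siteS_mem X σ M p hγ 0).1
    simp only [Nat.cast_zero, zero_add, mul_one]
    exact mul_le_of_le_one_right M.c_nonneg (Filt.adm_prod_le_one hγ _)
  have a3 := hs.sum_add_tsum_nat_add (Dc + 1)
  have a4 := hDc (Dc + 1) (Nat.le_succ _)
  have a5 := mul_le_mul_of_nonneg_left a2 h1.le
  change Real.exp (-t) * ∑' K, v K ≤ ∑ K ∈ range (Dc + 1), v K
  change ∑ K ∈ range (Dc + 1), v K + ∑' K, v (K + (Dc + 1)) = ∑' K, v K at a3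
  nlinarith

lemma st_crude (M : FM) {p : ℕ} (hp : 1 ≤ p) {D R n S : ℕ} {γ : ℝ} {x : Fam D R → ℝ} {N : ℕ}
    (hN : 1 ≤ N) (hD : 1 ≤ D) (h0 : 0 < γ) (h1 : γ ≤ 1) (K j : ℕ) {a t : ℝ}
    (ha : ((K + j : ℕ) : ℝ) ≤ a * N) (ht : (Fintype.card (Fam D R × Fin S) : ℝ) ≤ t * N) :
    Real.log (stPsi M p D R n S γ x N K) - (t + p * a + M.c * (j + 1)) ≤
      Real.log (stPsi M p D R n S γ x (N + 1) (K + j)) := by
  have hN' : (0 : ℝ) < N := by exact_mod_cast hN
  have h2 := st_num M (R := R) (n := n) (S := S) (γ := γ) (x := x) hp hN hD K j 0 (Nat.zero_le _)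
  simp only [zero_add, Finset.range_one, Finset.sum_singleton, Nat.choose_zero_right,
    Nat.cast_one, pow_zero, mul_one, one_mul, Nat.sub_zero] at h2
  rw [add_comm j K, ← pow_mul] at h2
  have hψ := stPsi_pos M (D := D) (R := R) (n := n) (S := S) (γ := γ) (x := x) p hN K
  have a1 : Real.exp (-t) ≤ ((N : ℝ) / (N + 1)) ^ Fintype.card (Fam D R × Fin S) :=
    le_trans (Real.exp_le_exp.2 (neg_le_neg ((div_le_iff₀ hN').2 ht))) (st_ratio_pow hN _)
  have a2 : Real.exp (-(p * a)) ≤ ((N : ℝ) / (N + 1)) ^ (p * (K + j)) := by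
    refine le_trans (Real.exp_le_exp.2 (neg_le_neg ((div_le_iff₀ hN').2 ?_))) (st_ratio_pow hN _)
    rw [Nat.cast_mul, mul_assoc]
    exact mul_le_mul_of_nonneg_left ha (Nat.cast_nonneg p)
  have a3 := stC_ge M (p := p) (D := D) (R := R) (n := n) (S := S) (x := x) hN h0 h1 K j 0
  simp only [Nat.cast_zero, add_zero] at a3
  have a4 : Real.exp (-t) * stPsi M p D R n S γ x N K *
      (Real.exp (-(p * a)) * Real.exp (-(M.c * (j + 1)))) ≤
      stPsi M p D R n S γ x (N + 1) (K + j) :=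
    le_trans (mul_le_mul (mul_le_mul_of_nonneg_right a1 hψ.le)
      (mul_le_mul a2 a3 (Real.exp_pos _).le (by positivity)) (by positivity) (by positivity)) h2
  have a5 := Real.log_le_log (by positivity) a4
  rw [Real.log_mul (by positivity) (by positivity), Real.log_mul (by positivity) hψ.ne',
    Real.log_mul (by positivity) (by positivity), Real.log_exp, Real.log_exp, Real.log_exp] at a5
  linarith

/-- The numerical part of the good step. -/
lemma st_good_num {Dc j : ℕ} {t lo Z r e T C0 ψ' : ℝ} (hZ : 0 < Z) (hr : Real.exp (-t) ≤ r)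
    (he : 0 < e) (hT : 0 < T) (hC0 : 0 < C0) {π π' S : ℕ → ℝ} {C : ℕ → ℝ}
    (hπ0 : ∀ k, 0 ≤ π k) (hπ : ∀ k ≤ Dc, Real.exp (-t) * π k ≤ π' k) (ht : 0 ≤ t)
    (hlo : 0 < lo) (hlo0 : lo ≤ e ^ Dc) (hlo1 : ∀ k ≤ Dc, lo ≤ e ^ (Dc + j - k) * S k)
    (h0 : |C0 - e ^ Dc| ≤ (1 - Real.exp (-t)) * lo)
    (h1 : ∀ k ≤ Dc, |C k - e ^ (Dc + j - k) * S k| ≤ (1 - Real.exp (-t)) * lo)
    (hsum : Real.exp (-t) * T ≤ ∑ k ∈ range (Dc + 1), π k * (S k / e ^ k))
    (hψ : r * Z * ∑ k ∈ range (Dc + 1), π' k * C k ≤ ψ') :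
    Real.log (Z * C0) + j * Real.log e + Real.log T - 5 * t ≤ Real.log ψ' := by
  set w := Real.exp (-t) with hw
  have hw0 : 0 < w := Real.exp_pos _
  have hw1 : w ≤ 1 := Real.exp_le_one_iff.2 (by linarith)
  have hE : 0 < e ^ Dc := pow_pos he _
  have b0 : w * C0 ≤ e ^ Dc := by
    have a1 := (abs_le.1 h0).2
    have a2 := mul_le_mul_of_nonneg_left hlo0 (by linarith : 0 ≤ 1 - w)
    have a3 : C0 ≤ (2 - w) * e ^ Dc := by linarith
    have a4 := mul_le_mul_of_nonneg_left a3 hw0.le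
    nlinarith [sq_nonneg (1 - w)]
  have b1 : w ^ 3 * (e ^ Dc * e ^ j) * T ≤ ∑ k ∈ range (Dc + 1), π' k * C k := by
    calc w ^ 3 * (e ^ Dc * e ^ j) * T = w ^ 2 * (e ^ Dc * e ^ j) * (w * T) := by ring
      _ ≤ w ^ 2 * (e ^ Dc * e ^ j) * ∑ k ∈ range (Dc + 1), π k * (S k / e ^ k) :=
          mul_le_mul_of_nonneg_left hsum (by positivity)
      _ ≤ _ := by
          rw [Finset.mul_sum]
          refine Finset.sum_le_sum fun k hk => ?_
          have hk' : k ≤ Dc := by have := Finset.mem_range.1 hk; omega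
          have a1 := (abs_le.1 (h1 k hk')).1
          have a2 := mul_le_mul_of_nonneg_left (hlo1 k hk') (by linarith : 0 ≤ 1 - w)
          have a3 : w * (e ^ (Dc + j - k) * S k) ≤ C k := by linarith
          have a4 : e ^ (Dc + j - k) = e ^ Dc * e ^ j / e ^ k := by
            rw [pow_sub₀ _ he.ne' (by omega), pow_add, div_eq_mul_inv]
          calc _ = (w * π k) * (w * (e ^ (Dc + j - k) * S k)) := by rw [a4]; ring
            _ ≤ _ := mul_le_mul (hπ k hk') a3
                (mul_nonneg hw0.le (hlo.le.trans (hlo1 k hk')))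
                ((mul_nonneg hw0.le (hπ0 k)).trans (hπ k hk'))
  have b2 : w ^ 5 * (Z * C0) * e ^ j * T ≤ ψ' := by
    calc w ^ 5 * (Z * C0) * e ^ j * T = w * Z * (w ^ 3 * ((w * C0) * e ^ j) * T) := by ring
      _ ≤ w * Z * (w ^ 3 * (e ^ Dc * e ^ j) * T) := by gcongr
      _ ≤ r * Z * ∑ k ∈ range (Dc + 1), π' k * C k :=
          mul_le_mul (mul_le_mul_of_nonneg_right hr hZ.le) b1 (by positivity)
            (mul_nonneg (hw0.le.trans hr) hZ.le)
      _ ≤ _ := hψ
  have b3 := Real.log_le_log (by positivity) b2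
  rw [Real.log_mul (by positivity) hT.ne', Real.log_mul (by positivity) (by positivity),
    Real.log_mul (by positivity) (by positivity), Real.log_pow, Real.log_pow, hw,
    Real.log_exp] at b3
  push_cast at b3
  linarith

lemma stC0_close (M : FM) {p D R n S : ℕ} {γ : ℝ} {x : Fam D R → ℝ} {N : ℕ} [Nonempty (Fin N)]
    {B J j : ℕ} {γ' : ℕ → ℝ} {η : ℝ} (hj : j ≤ J)
    (hd : StDec (stSys M p D R n S γ x N B) (fun y => y.1.2) (fun _ => γ) γ' (J * p)
      (M.c * (J + 1)) η) :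
    |stC0 M p D R n S γ x N B j - edgeE M p ((stSys M p D R n S γ x N B).prod
      (Filt.coin (Fin N) D 0)) (fun x => x.1.1.2 x.2) γ' ^ j| ≤ η :=
  st_close_e M (stSys M p D R n S γ x N B) (fun y => y.1.2) hj hd

lemma stC_close (M : FM) {p D R n S : ℕ} {γ : ℝ} {x : Fam D R → ℝ} {N : ℕ} [Nonempty (Fin N)]
    {B J j K : ℕ} {γ' : ℕ → ℝ} {η : ℝ} (hj : j + K ≤ J)
    (hd : StDec (stSys M p D R n S γ x N B) (fun y => y.1.2) (fun _ => γ) γ' (J * p)
      (M.c * (J + 1)) η) :
    |stC M p D R n S γ x N B j K - edgeE M p ((stSys M p D R n S γ x N B).prod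
      (Filt.coin (Fin N) D 0)) (fun x => x.1.1.2 x.2) γ' ^ j *
      siteS M p ((stSys M p D R n S γ x N B).prod
      (Filt.coin (Fin N) D 0)) (fun x => x.1.1.2 x.2) γ' K| ≤ η :=
  st_close M (stSys M p D R n S γ x N B) (fun y => y.1.2) hj hd

lemma st_comb {θ x y a b j : ℝ} (h0 : 0 ≤ θ) (h1 : 0 ≤ 1 - θ) (c1 : x + j * y ≤ a)
    (c2 : x + (j + 1) * y ≤ b) : x + (j + θ) * y ≤ (1 - θ) * a + θ * b := by
  have d1 := mul_le_mul_of_nonneg_left c1 h1
  have d2 := mul_le_mul_of_nonneg_left c2 h0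
  linarith

theorem one_step (M : FM) {p : ℕ} (hp2 : 2 ≤ p) {α : ℝ} (hα : 0 < α) {m L : ℝ} (hm0 : 0 < m)
    (hm1 : m < 1)
    (hall : ∀ (D : ℕ) (Ξ : Type) [Fintype Ξ] [Nonempty Ξ] (X : Filt Ξ D) (σ : Ξ → Bool)
      (γ : ℕ → ℝ), 1 ≤ D → Adm γ → ∏ d ∈ range D, γ d = m → L ≤ Real.log (rho M p α X σ γ))
    {κ : ℝ} (hκ : 0 < κ) :
    ∃ (ℓ : ℕ → ℕ → ℝ) (δ A : ℝ) (N₀ : ℕ), 0 < δ ∧ 1 ≤ N₀ ∧
      (∀ N K, N₀ ≤ N → |ℓ N K - Real.log (M.Psi p m N K)| ≤ A) ∧
      (∀ N K j, N₀ ≤ N → K ≤ (⌊α⌋₊ + 1) * N → j ≤ ⌊α⌋₊ + 1 → ℓ N K - A ≤ ℓ (N + 1) (K + j)) ∧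
      (∀ N K : ℕ, N₀ ≤ N → |(K : ℝ) - α * N| ≤ δ * N → ℓ N K + L - κ ≤
        (1 - (α - ⌊α⌋₊)) * ℓ (N + 1) (K + ⌊α⌋₊) + (α - ⌊α⌋₊) * ℓ (N + 1) (K + ⌊α⌋₊ + 1)) := by
  have hp : 1 ≤ p := by omega
  have hc := M.c_nonneg
  set t : ℝ := κ / 6 with ht
  have ht0 : 0 < t := by positivity
  set j0 := ⌊α⌋₊ with hj0
  have hθ0 : 0 ≤ α - j0 := sub_nonneg.2 (Nat.floor_le hα.le)
  have hθ1 : 0 ≤ 1 - (α - j0) := by have := Nat.lt_floor_add_one α; linarith
  have hl : 0 ≤ α * p := by positivity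
  obtain ⟨Dc, hDc⟩ := st_tail M p hl ht0
  set J := Dc + (j0 + 1) with hJ
  set lo : ℝ := Real.exp (-(M.c * (J + 1))) with hlo
  have hlo0 : 0 < lo := Real.exp_pos _
  have hw1 : 0 < 1 - Real.exp (-t) := by
    have := Real.exp_lt_one_iff.2 (show -t < 0 by linarith)
    linarith
  obtain ⟨D, R, γ, ε, hD, hγ0, hγ1, hγm, hε, hdec⟩ := st_dec m (M.c * (J + 1))
    ((1 - Real.exp (-t)) * lo) hm0 hm1 (by positivity) (by positivity) (J * p)
  set A2 : ℝ := t + p * (2 * α + 2 * (j0 + 1)) + M.c * (j0 + 2) with hA2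
  have hA20 : 0 ≤ A2 := by positivity
  set lc : ℝ := A2 + |L| + 1 with hlc
  have hlc0 : 0 < lc := by positivity
  obtain ⟨n, hn⟩ := gg_grid D R γ ε (t / lc) hγ0 hγ1.le hε (by positivity)
  have hn := hn n le_rfl
  set H : ℕ := Fintype.card (Fam D R × Fin (n ^ 4)) with hH
  set s : ℝ := min (1 / 2) (t / (2 * Dc + p * α)) with hs
  have hpa : 0 < 2 * (Dc : ℝ) + p * α := by
    have : (0 : ℝ) < p := by exact_mod_cast hp
    positivity
  have hs0 : 0 < s := lt_min (by norm_num) (by positivity)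
  have hs1 : s ≤ 1 / 2 := min_le_left _ _
  have hs2 : 2 * s * Dc + p * α * s ≤ t := by
    have := (le_div_iff₀ hpa).1 (min_le_right (1 / 2) (t / (2 * Dc + p * α)))
    linarith
  have ev1 : ∀ᶠ N : ℕ in atTop, H / t ≤ (N : ℝ) :=
    tendsto_natCast_atTop_atTop.eventually (eventually_ge_atTop _)
  have ev2 : ∀ᶠ N : ℕ in atTop, J / (s * α / 2) ≤ (N : ℝ) :=
    tendsto_natCast_atTop_atTop.eventually (eventually_ge_atTop _)
  obtain ⟨N1, hN1⟩ := eventually_atTop.1 (ev1.and ev2)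
  set ψ : (Fam D R → Fin (n ^ 2 + 1)) → ℕ → ℕ → ℝ := fun g N K =>
    stPsi M p D R n (n ^ 4) γ (gridPt g) N K with hψ
  have crude : ∀ g N K j, N1 + 1 ≤ N → ((K + j : ℕ) : ℝ) ≤ (2 * α + 2 * (j0 + 1)) * N →
      j ≤ j0 + 1 → Real.log (ψ g N K) - A2 ≤ Real.log (ψ g (N + 1) (K + j)) := by
    intro g N K j hN hK hj
    have h1 := (hN1 N (by omega)).1
    rw [div_le_iff₀' ht0] at h1
    refine le_trans ?_ (st_crude M hp (by omega) hD hγ0 hγ1.le K j hK h1)
    have : (j : ℝ) ≤ j0 + 1 := by exact_mod_cast hj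
    have := mul_le_mul_of_nonneg_left this hc
    simp only [hA2, hψ]
    linarith
  refine ⟨fun N K => av fun g => Real.log (ψ g N K), s * α / 2, H * Real.log 3 + A2, N1 + 1,
    by positivity, by omega, fun N K hN => ?_, fun N K j hN hK hj => ?_, fun N K hN hK => ?_⟩
  · rw [← av_const (α := Fam D R → Fin (n ^ 2 + 1)) (Real.log (M.Psi p m N K)), ← av_sub]
    refine (abs_av_le _).trans (av_le_of_le fun g => ?_)
    rw [← hγm]
    exact (stPsi_cmp M p (by omega) hD hγ0 hγ1.le (conc_gridPt_mem g) K).trans (by linarith)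
  · have hN' : (1 : ℝ) ≤ N := by exact_mod_cast (by omega : 1 ≤ N)
    have h1 := av_mono fun g => crude g N K j hN (by
      have a1 : (K : ℝ) ≤ (j0 + 1) * N := by exact_mod_cast hK
      have a2 : (j : ℝ) ≤ j0 + 1 := by exact_mod_cast hj
      have a3 : (0 : ℝ) ≤ j0 := Nat.cast_nonneg _
      push_cast
      nlinarith) hj
    rw [av_sub, av_const] at h1
    have : 0 ≤ H * Real.log 3 := mul_nonneg (Nat.cast_nonneg _) (Real.log_nonneg (by norm_num))
    linarith
  · have hN1' : 1 ≤ N := by omega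
    have hN' : (1 : ℝ) ≤ N := by exact_mod_cast hN1'
    have := st_fin_nonempty hN1'
    have := M.slot_nonempty p hN1'
    obtain ⟨h1, h2⟩ := hN1 N (by omega)
    rw [div_le_iff₀' ht0] at h1
    rw [div_le_iff₀' (by positivity)] at h2
    have hJ' : (J : ℝ) = Dc + (j0 + 1) := by rw [hJ]; push_cast; ring
    have hj0' : (0 : ℝ) ≤ j0 := Nat.cast_nonneg _
    have hDc' : (0 : ℝ) ≤ Dc := Nat.cast_nonneg _
    obtain ⟨k1, k2⟩ := abs_le.1 hK
    have hsα : s * α * N ≤ α * N / 2 := by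
      have := mul_le_mul_of_nonneg_right hs1 (show 0 ≤ α * N by positivity)
      linarith
    have hαN : 0 ≤ α * N := by positivity
    obtain ⟨B, hB⟩ : ∃ B, K = Dc + B := ⟨K - Dc, by
      have : (Dc : ℝ) ≤ K := by linarith
      have : Dc ≤ K := by exact_mod_cast this
      omega⟩
    have hjN : (j0 : ℝ) + 1 ≤ (j0 + 1) * N := le_mul_of_one_le_right (by positivity) hN'
    have w1 : ∀ j : ℕ, (1 - s) * α * N + Dc ≤ ((K + j : ℕ) : ℝ) := fun j => by
      have : (0 : ℝ) ≤ j := Nat.cast_nonneg _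
      push_cast; linarith
    have w2 : ∀ j : ℕ, j ≤ j0 + 1 → ((K + j : ℕ) : ℝ) ≤ (1 + s) * α * N := fun j hj => by
      have : (j : ℝ) ≤ j0 + 1 := by exact_mod_cast hj
      push_cast; linarith
    have w3 : ∀ j : ℕ, j ≤ j0 + 1 → ((K + j : ℕ) : ℝ) ≤ (2 * α + 2 * (j0 + 1)) * N := fun j hj => by
      have : (j : ℝ) ≤ j0 + 1 := by exact_mod_cast hj
      push_cast; linarith
    set Bad : (Fam D R → Fin (n ^ 2 + 1)) → Prop := fun g =>
      ¬ GG (stSys M p D R n (n ^ 4) γ (gridPt g) N B) (fun y => y.1.2) γ R ε with hBad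
    have hbad : (av fun g => ind (Bad g)) ≤ t / lc := hn _ _ _ _ _ _
    have pt : ∀ g, Real.log (ψ g N K) + (L - 5 * t) - lc * ind (Bad g) ≤
        (1 - (α - j0)) * Real.log (ψ g (N + 1) (K + j0)) +
          (α - j0) * Real.log (ψ g (N + 1) (K + j0 + 1)) := by
      intro g
      by_cases hg : Bad g
      · have c1 := crude g N K j0 hN (w3 _ (by omega)) (by omega)
        have c2 := crude g N K (j0 + 1) hN (w3 _ le_rfl) le_rfl
        rw [← add_assoc] at c2
        have d := st_comb (x := Real.log (ψ g N K) - A2) (y := 0) (j := 0) hθ0 hθ1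
          (by simpa using c1) (by simpa using c2)
        have := le_abs_self L
        rw [ind_pos hg]
        linarith
      · obtain ⟨γ', hγ', hm', hd⟩ := hdec _ _ _ _ (not_not.1 hg)
        set X := (stSys M p D R n (n ^ 4) γ (gridPt g) N B).prod (Filt.coin (Fin N) D 0) with hX
        set f : _ × Fin N → Bool := fun x :
          ((((Fin B → M.Slot p N) × (Fin N → M.Fl)) × Asg N) × PertLab (Fin N) D R n (n ^ 4)) ×
            Fin N => x.1.1.2 x.2 with hf
        have hL := hall D _ X f γ' hD hγ' hm'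
        have he := edgeE_pos X f M p hγ'
        set e := edgeE M p X f γ' with he'
        set T := ∑' k : ℕ, poissonWeight (α * p) k * (siteS M p X f γ' k / e ^ k) with hT
        have hT0 : 0 < T := by
          have := rho_pos X f M p hα.le hγ'
          exact (mul_pos_iff_of_pos_left (Real.rpow_pos_of_pos he α)).1 this
        have hρ : Real.log (rho M p α X f γ') = α * Real.log e + Real.log T := by
          unfold rho
          rw [Real.log_mul (Real.rpow_pos_of_pos he α).ne' hT0.ne', Real.log_rpow he]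
        have hm1' : ∏ d ∈ range D, γ' d ≤ 1 := Filt.adm_prod_le_one hγ' _
        have hee : ∀ i : ℕ, Real.exp (-(M.c * i)) ≤ e ^ i := fun i => by
          refine le_trans (le_of_eq ?_) (pow_le_pow_left₀ (Real.exp_pos (-M.c)).le
            ((Real.exp_le_exp.2 (neg_le_neg (mul_le_of_le_one_right hc hm1'))).trans
              (edgeE_mem X f M p hγ').1) i)
          rw [← Real.exp_nat_mul]; congr 1; ring
        have hSS : ∀ k : ℕ, Real.exp (-(M.c * (k + 1))) ≤ siteS M p X f γ' k := fun k =>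
          (Real.exp_le_exp.2 (neg_le_neg (mul_le_of_le_one_right (by positivity) hm1'))).trans
            (siteS_mem X f M p hγ' k).1
        have hZ := stPsi_pos M (D := D) (R := R) (n := n) (S := n ^ 4) (γ := γ)
          (x := gridPt g) p hN1' B
        have hden := st_den M (p := p) (D := D) (R := R) (n := n) (S := n ^ 4) (γ := γ)
          (x := gridPt g) hN1' B Dc
        rw [← hB] at hden
        have hC0 : 0 < stC0 M p D R n (n ^ 4) γ (gridPt g) N B Dc := by
          have := stPsi_pos M (D := D) (R := R) (n := n) (S := n ^ 4) (γ := γ)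
            (x := gridPt g) p hN1' K
          rw [hden] at this
          exact (mul_pos_iff_of_pos_left hZ).1 this
        have good : ∀ j, j ≤ j0 + 1 → Real.log (ψ g N K) + j * Real.log e + Real.log T - 5 * t ≤
            Real.log (ψ g (N + 1) (K + j)) := by
          intro j hj
          have hj' : (j : ℝ) ≤ j0 + 1 := by exact_mod_cast hj
          have hj'' : (0 : ℝ) ≤ j := Nat.cast_nonneg _
          have hnum := st_num M (D := D) (R := R) (n := n) (S := n ^ 4) (γ := γ)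
            (x := gridPt g) hp hN1' hD B (Dc + j) Dc (by omega)
          rw [show Dc + j + B = K + j by omega] at hnum
          have hden' : ψ g N K = _ := hden
          rw [hden']
          refine st_good_num (lo := lo) (π := poissonWeight (α * p)) (S := siteS M p X f γ') hZ
            (le_trans (Real.exp_le_exp.2 (neg_le_neg ((div_le_iff₀ (by linarith)).2 h1)))
              (st_ratio_pow hN1' _)) he hT0 hC0 (poissonWeight_nonneg hl)
            (fun k hk => ?_) ht0.le hlo0 ?_ (fun k hk => ?_) ?_ (fun k hk => ?_)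
            (hDc D _ X f γ' hγ') hnum
          · exact le_trans (mul_le_mul_of_nonneg_right (Real.exp_le_exp.2 (neg_le_neg hs2))
              (poissonWeight_nonneg hl k)) (st_weight hp hα hs0.le hs1 hN1' hk (w1 j) (w2 j hj))
          · refine le_trans (Real.exp_le_exp.2 (neg_le_neg ?_)) (hee Dc)
            exact mul_le_mul_of_nonneg_left (by linarith) hc
          · refine le_trans ?_ (mul_le_mul (hee _) (hSS k) (Real.exp_pos _).le (pow_pos he _).le)
            rw [← Real.exp_add, Real.exp_le_exp, Nat.cast_sub (by omega)]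
            push_cast
            have := mul_le_mul_of_nonneg_left hj' hc
            rw [hJ']
            linarith
          · exact stC0_close M (J := J) (by omega) hd
          · exact stC_close M (J := J) (by omega) hd
        have c1 := good j0 (by omega)
        have c2 := good (j0 + 1) le_rfl
        rw [← add_assoc] at c2
        push_cast at c2
        have d := st_comb (x := Real.log (ψ g N K) + Real.log T - 5 * t) (y := Real.log e)
          (j := j0) (a := Real.log (ψ g (N + 1) (K + j0)))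
          (b := Real.log (ψ g (N + 1) (K + j0 + 1))) hθ0 hθ1 (by linarith) (by linarith)
        rw [ind_neg hg]
        linarith
    have h3 := av_mono pt
    rw [av_sub, av_add, av_const, av_const_mul, av_add, av_const_mul, av_const_mul] at h3
    have h4 := mul_le_mul_of_nonneg_left hbad hlc0.le
    rw [mul_div_cancel₀ _ hlc0.ne'] at h4
    simp only
    linarith

end Crest.Agent.R141
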