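import Mathlib

/-!
Row 141: averaging a two-parameter array along a random walk.
-/

set_option autoImplicit false

namespace Crest.Agent.R141

open Finset Filter

/-- Expectation of `g` at the number of successes in `n` independent trials. -/
noncomputable def walkE (θ : ℝ) : ℕ → (ℕ → ℝ) → ℝ
  | 0, g => g 0
  | n + 1, g => walkE θ n fun k => (1 - θ) * g k + θ * g (k + 1)

lemma walkE_mono {θ : ℝ} (h0 : 0 ≤ θ) (h1 : θ ≤ 1) :
    ∀ (n : ℕ) {g h : ℕ → ℝ}, (∀ k, k ≤ n → g k ≤ h k) → walkE θ n g ≤ walkE θ n h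
  | 0, _, _, H => H 0 le_rfl
  | n + 1, _, _, H => walkE_mono h0 h1 n fun k hk =>
      add_le_add (mul_le_mul_of_nonneg_left (H k (by omega)) (by linarith))
        (mul_le_mul_of_nonneg_left (H (k + 1) (by omega)) h0)

lemma walkE_add (θ : ℝ) : ∀ (n : ℕ) (g h : ℕ → ℝ),
    walkE θ n (fun k => g k + h k) = walkE θ n g + walkE θ n h
  | 0, _, _ => rfl
  | n + 1, g, h => by
      simp only [walkE]
      rw [← walkE_add θ n]
      congr 1; funext k; ring

/-- Expectation of a centred quadratic function. -/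
lemma walkE_quad (θ : ℝ) : ∀ (n : ℕ) (a b c : ℝ),
    walkE θ n (fun k => a * ((k : ℝ) - θ * n) ^ 2 + b * ((k : ℝ) - θ * n) + c) =
      a * (n * (θ * (1 - θ))) + c
  | 0, a, b, c => by simp [walkE]
  | n + 1, a, b, c => by
      simp only [walkE]
      have := walkE_quad θ n a b (c + a * (θ * (1 - θ)))
      rw [show a * (((n + 1 : ℕ) : ℝ) * (θ * (1 - θ))) + c =
        a * (n * (θ * (1 - θ))) + (c + a * (θ * (1 - θ))) by push_cast; ring, ← this]
      congr 1; funext k; push_cast; ring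

lemma walkE_quad' (θ : ℝ) (n : ℕ) (a c : ℝ) :
    walkE θ n (fun k => a * ((k : ℝ) - θ * n) ^ 2 + c) = a * (n * (θ * (1 - θ))) + c := by
  rw [← walkE_quad θ n a 0 c]
  congr 1; funext k; ring

set_option maxHeartbeats 1000000 in
theorem avg_walk (ℓ : ℕ → ℕ → ℝ) {α δ A c L : ℝ} {N₀ : ℕ} (hα : 0 < α) (hδ : 0 < δ)
    (hlip : ∀ N K K' : ℕ, N₀ ≤ N → ℓ N K ≤ ℓ N K' + c * |(K : ℝ) - K'| + A)
    (hcrude : ∀ N K j, N₀ ≤ N → K ≤ (⌊α⌋₊ + 1) * N → j ≤ ⌊α⌋₊ + 1 → ℓ N K - A ≤ ℓ (N + 1) (K + j))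
    (hstep : ∀ N K : ℕ, N₀ ≤ N → |(K : ℝ) - α * N| ≤ δ * N → ℓ N K + L ≤
      (1 - (α - ⌊α⌋₊)) * ℓ (N + 1) (K + ⌊α⌋₊) + (α - ⌊α⌋₊) * ℓ (N + 1) (K + ⌊α⌋₊ + 1))
    {κ : ℝ} (hκ : 0 < κ) : ∀ᶠ N : ℕ in atTop, N * (L - κ) ≤ ℓ N ⌊α * N⌋₊ := by
  set j := ⌊α⌋₊ with hj
  set θ := α - j with hθ
  have hθ0 : 0 ≤ θ := sub_nonneg.2 (Nat.floor_le hα.le)
  have hθ1 : θ ≤ 1 := by linarith [Nat.lt_floor_add_one α]
  have hθθ : θ * (1 - θ) ≤ 1 := by nlinarith
  have hθθ0 : 0 ≤ θ * (1 - θ) := mul_nonneg hθ0 (by linarith)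
  set B := |L| + |A| with hB
  have hB0 : 0 ≤ B := by positivity
  -- the starting point
  obtain ⟨N₁, hN₁, hN₁', hN₁''⟩ : ∃ N₁ : ℕ, N₀ ≤ N₁ ∧ 1 ≤ N₁ ∧ 2 * B / δ ^ 2 ≤ κ / 3 * N₁ := by
    obtain ⟨n, hn⟩ := exists_nat_ge (2 * B / δ ^ 2 / (κ / 3))
    refine ⟨n + N₀ + 1, by omega, by omega, ?_⟩
    rw [div_le_iff₀ (by positivity)] at hn
    push_cast
    have : (0 : ℝ) ≤ N₀ := Nat.cast_nonneg _
    nlinarith
  set K₁ := ⌊α * N₁⌋₊ with hK₁
  have hK₁a : (K₁ : ℝ) ≤ α * N₁ := Nat.floor_le (by positivity)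
  have hK₁b : α * N₁ < K₁ + 1 := Nat.lt_floor_add_one _
  have hK₁c : K₁ ≤ (j + 1) * N₁ := by
    have : (K₁ : ℝ) ≤ ((j + 1) * N₁ : ℕ) := by
      push_cast
      refine hK₁a.trans (mul_le_mul_of_nonneg_right ?_ (Nat.cast_nonneg _))
      linarith
    exact_mod_cast this
  have hdev : ∀ n k : ℕ, ((K₁ + j * n + k : ℕ) : ℝ) - α * ((N₁ + n : ℕ) : ℝ) =
      (K₁ - α * N₁) + (k - θ * n) := by
    intro n k; push_cast; rw [hθ]; ring
  set Lam : ℕ → ℝ := fun n => walkE θ n fun k => ℓ (N₁ + n) (K₁ + j * n + k) with hLam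
  have hst : ∀ n, Lam n + (L - κ / 3) ≤ Lam (n + 1) := by
    intro n
    have hNpos : (0 : ℝ) < ((N₁ + n : ℕ) : ℝ) := by exact_mod_cast (by omega : 0 < N₁ + n)
    set N : ℝ := ((N₁ + n : ℕ) : ℝ) with hN
    set a := B / (δ * N) ^ 2 with ha
    have ha0 : 0 ≤ a := by positivity
    have h1 : walkE θ n (fun k => ℓ (N₁ + n) (K₁ + j * n + k) +
        ((-(2 * a)) * ((k : ℝ) - θ * n) ^ 2 + (L - 2 * a))) ≤ Lam (n + 1) := by
      simp only [hLam, walkE]
      refine walkE_mono hθ0 hθ1 n fun k hk => ?_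
      have e1 : K₁ + j * (n + 1) + k = K₁ + j * n + k + j := by ring
      have e2 : K₁ + j * (n + 1) + (k + 1) = K₁ + j * n + k + j + 1 := by ring
      rw [e1, e2, ← add_assoc N₁ n 1]
      have hx : 0 ≤ a * ((k : ℝ) - θ * n) ^ 2 := by positivity
      by_cases ht : |((K₁ + j * n + k : ℕ) : ℝ) - α * ((N₁ + n : ℕ) : ℝ)| ≤ δ * ((N₁ + n : ℕ) : ℝ)
      · have := hstep (N₁ + n) (K₁ + j * n + k) (by omega) ht
        linarith
      · have hK : K₁ + j * n + k ≤ (j + 1) * (N₁ + n) := by nlinarith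
        have c1 := hcrude (N₁ + n) (K₁ + j * n + k) j (by omega) hK (by omega)
        have c2 := hcrude (N₁ + n) (K₁ + j * n + k) (j + 1) (by omega) hK le_rfl
        rw [← add_assoc] at c2
        rw [not_le, hdev, ← hN] at ht
        have h2 : (δ * N) ^ 2 ≤ ((K₁ - α * N₁) + ((k : ℝ) - θ * n)) ^ 2 := by
          rw [← sq_abs (_ + _)]
          exact pow_le_pow_left₀ (by positivity) ht.le 2
        have h3 : ((K₁ : ℝ) - α * N₁) ^ 2 ≤ 1 := by nlinarith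
        have h4 : (δ * N) ^ 2 ≤ 2 + 2 * ((k : ℝ) - θ * n) ^ 2 := by
          nlinarith [sq_nonneg ((K₁ - α * N₁) - ((k : ℝ) - θ * n))]
        have h5 : B ≤ a * (2 + 2 * ((k : ℝ) - θ * n) ^ 2) := by
          calc B = a * (δ * N) ^ 2 := by rw [ha]; field_simp
            _ ≤ _ := mul_le_mul_of_nonneg_left h4 ha0
        have h6 := le_abs_self L
        have h7 := le_abs_self A
        have h8 := mul_le_mul_of_nonneg_left c1 (by linarith : 0 ≤ 1 - θ)
        have h9 := mul_le_mul_of_nonneg_left c2 hθ0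
        have h10 := neg_abs_le L
        linarith
    rw [walkE_add, walkE_quad'] at h1
    have h2 : 2 * a * (n * (θ * (1 - θ))) + 2 * a ≤ κ / 3 := by
      have hn : (n : ℝ) + 1 ≤ N := by
        rw [hN]; push_cast
        have : (1 : ℝ) ≤ N₁ := by exact_mod_cast hN₁'
        linarith
      have hn' : (N₁ : ℝ) ≤ N := by
        rw [hN]; push_cast
        have : (0 : ℝ) ≤ n := Nat.cast_nonneg _
        linarith
      have h3 : (n : ℝ) * (θ * (1 - θ)) ≤ n := mul_le_of_le_one_right (Nat.cast_nonneg _) hθθ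
      have h4 : 2 * a * N ≤ κ / 3 := by
        have : 2 * a * N = 2 * B / δ ^ 2 / N := by rw [ha]; field_simp
        rw [this, div_le_iff₀ hNpos]
        exact hN₁''.trans (mul_le_mul_of_nonneg_left hn' (by positivity))
      nlinarith
    have : Lam n = walkE θ n fun k => ℓ (N₁ + n) (K₁ + j * n + k) := rfl
    linarith
  have hlow : ∀ n : ℕ, Lam 0 + n * (L - κ / 3) ≤ Lam n := by
    intro n
    induction n with
    | zero => simp
    | succ n ih => push_cast; linarith [hst n]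
  -- comparison with the diagonal
  set η := κ / 3 / (|c| + 1) with hη
  have hη0 : 0 < η := by positivity
  have hηc : |c| * η ≤ κ / 3 := by
    rw [hη, ← mul_div_assoc, div_le_iff₀ (by positivity)]
    nlinarith [abs_nonneg c]
  have hup : ∀ n : ℕ, 1 ≤ n → Lam n ≤ ℓ (N₁ + n) ⌊α * ((N₁ + n : ℕ) : ℝ)⌋₊ +
      (|c| / η + κ / 3 * n + 2 * |c| + A) := by
    intro n hn
    have hn0 : (0 : ℝ) < n := by exact_mod_cast hn
    set K' := ⌊α * ((N₁ + n : ℕ) : ℝ)⌋₊ with hK'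
    have hK'a : (K' : ℝ) ≤ α * ((N₁ + n : ℕ) : ℝ) := Nat.floor_le (by positivity)
    have hK'b : α * ((N₁ + n : ℕ) : ℝ) < K' + 1 := Nat.lt_floor_add_one _
    have h1 : Lam n ≤ walkE θ n (fun k => |c| / (η * n) * ((k : ℝ) - θ * n) ^ 2 +
        (ℓ (N₁ + n) K' + |c| * (η * n) + 2 * |c| + A)) := by
      refine walkE_mono hθ0 hθ1 n fun k _ => ?_
      have h2 := hlip (N₁ + n) (K₁ + j * n + k) K' (by omega)
      have h3 : |((K₁ + j * n + k : ℕ) : ℝ) - K'| ≤ |(k : ℝ) - θ * n| + 2 := by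
        have := hdev n k
        have h4 := le_abs_self ((k : ℝ) - θ * n)
        have h5 := neg_abs_le ((k : ℝ) - θ * n)
        rw [abs_le]; constructor <;> linarith
      have h4 : |(k : ℝ) - θ * n| ≤ ((k : ℝ) - θ * n) ^ 2 / (η * n) + η * n := by
        have hs : 0 < η * n := by positivity
        rw [← sq_abs, div_add' _ _ _ hs.ne', le_div_iff₀ hs]
        nlinarith [sq_nonneg (|(k : ℝ) - θ * n| - η * n), abs_nonneg ((k : ℝ) - θ * n)]
      have h5 : c * |((K₁ + j * n + k : ℕ) : ℝ) - K'| ≤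
          |c| * (((k : ℝ) - θ * n) ^ 2 / (η * n) + η * n + 2) :=
        mul_le_mul (le_abs_self c) (by linarith) (abs_nonneg _) (abs_nonneg _)
      have e : |c| / (η * n) * ((k : ℝ) - θ * n) ^ 2 =
          |c| * (((k : ℝ) - θ * n) ^ 2 / (η * n)) := by ring
      rw [e]; linarith
    rw [walkE_quad'] at h1
    have h2 : |c| / (η * n) * (n * (θ * (1 - θ))) ≤ |c| / η := by
      have : |c| / (η * n) * (n * (θ * (1 - θ))) = |c| / η * (θ * (1 - θ)) := by field_simp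
      rw [this]
      exact mul_le_of_le_one_right (by positivity) hθθ
    have h3 : |c| * (η * n) ≤ κ / 3 * n := by
      rw [← mul_assoc]; exact mul_le_mul_of_nonneg_right hηc hn0.le
    linarith
  obtain ⟨n₀, hn₀⟩ := exists_nat_ge
    ((N₁ * (L - κ) + |c| / η + 2 * |c| + A - Lam 0) / (κ / 3))
  rw [div_le_iff₀ (by positivity)] at hn₀
  filter_upwards [eventually_ge_atTop (N₁ + n₀ + 1)] with N hN
  obtain ⟨n, rfl⟩ : ∃ n, N = N₁ + n := ⟨N - N₁, by omega⟩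
  have h1 := hlow n
  have h2 := hup n (by omega)
  have h3 : (n₀ : ℝ) ≤ n := by exact_mod_cast (by omega : n₀ ≤ n)
  have h4 : (n₀ : ℝ) * (κ / 3) ≤ n * (κ / 3) := mul_le_mul_of_nonneg_right h3 (by positivity)
  have e : ((N₁ + n : ℕ) : ℝ) * (L - κ) = N₁ * (L - κ) + n * (L - κ) := by push_cast; ring
  rw [e]
  linarith

end Crest.Agent.R141
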