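import Mathlib
import Crest.Agent.R141.Step
import Crest.Agent.R141.Walk
import Crest.Agent.R141.Conc

/-!
Row 141: the cavity lower bound for fractional moments.
-/

set_option autoImplicit false

namespace Crest.Agent.R141

open Finset MeasureTheory Filter Crest.Agent.R153 Crest.ProbabilityR.Diluted

theorem psi_lower (M : FM) {p : ℕ} (hp2 : 2 ≤ p) {α : ℝ} (hα : 0 < α) {m L : ℝ} (hm0 : 0 < m)
    (hm1 : m < 1)
    (hall : ∀ (D : ℕ) (Ξ : Type) [Fintype Ξ] [Nonempty Ξ] (X : Filt Ξ D) (σ : Ξ → Bool)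
      (γ : ℕ → ℝ), 1 ≤ D → Adm γ → ∏ d ∈ range D, γ d = m → L ≤ Real.log (rho M p α X σ γ))
    {κ : ℝ} (hκ : 0 < κ) :
    ∀ᶠ N : ℕ in atTop, N * (L - κ) ≤ Real.log (M.Psi p m N ⌊α * N⌋₊) := by
  obtain ⟨ℓ, δ, A, N₀, hδ, hN₀, h1, h2, h3⟩ := one_step M hp2 hα hm0 hm1 hall (half_pos (half_pos hκ))
  have hA : 0 ≤ A := (abs_nonneg _).trans (h1 N₀ 0 le_rfl)
  have hw := avg_walk ℓ (α := α) (δ := δ) (A := 2 * A) (c := M.c) (L := L - κ / 2 / 2) (N₀ := N₀)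
    hα hδ (fun N K K' hN => by
      have a1 := abs_le.1 (h1 N K hN)
      have a2 := abs_le.1 (h1 N K' hN)
      have a3 := abs_le.1 (abs_log_psi_sub_le M p hm0 hm1.le (hN₀.trans hN) K K')
      linarith [a1.1, a1.2, a2.1, a2.2, a3.1, a3.2])
    (fun N K j hN hK hj => by linarith [h2 N K j hN hK hj])
    (fun N K hN hK => by linarith [h3 N K hN hK]) (half_pos (half_pos hκ))
  have ev : ∀ᶠ N : ℕ in atTop, A / (κ / 2) ≤ (N : ℝ) :=
    tendsto_natCast_atTop_atTop.eventually (eventually_ge_atTop _)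
  filter_upwards [hw, ev, eventually_ge_atTop N₀] with N h4 h5 hN
  have a1 := abs_le.1 (h1 N ⌊α * N⌋₊ hN)
  rw [div_le_iff₀ (half_pos hκ)] at h5
  nlinarith [a1.2]

end Crest.Agent.R141
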