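import Mathlib
import Crest.Agent.R141.Basic

/-!
Row 141: the growth rate of small moments is the cavity functional to first order.
-/

set_option autoImplicit false

namespace Crest.Agent.R141

open Finset MeasureTheory Filter Crest.Agent.R153 Crest.ProbabilityR.Diluted

lemma rho_exp_le {x b : ℝ} (h : |x| ≤ b) : Real.exp x ≤ 1 + x + b ^ 2 * Real.exp b := by
  have hb : 0 ≤ b := (abs_nonneg _).trans h
  have h1 : 1 - x ≤ Real.exp (-x) := by linarith [Real.add_one_le_exp (-x)]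
  have h2 : Real.exp x * (1 - x) ≤ 1 := by
    calc Real.exp x * (1 - x) ≤ Real.exp x * Real.exp (-x) :=
          mul_le_mul_of_nonneg_left h1 (Real.exp_pos _).le
      _ = 1 := by rw [← Real.exp_add]; simp
  have hx2 : x ^ 2 ≤ b ^ 2 := by
    rw [← sq_abs x]; exact pow_le_pow_left₀ (abs_nonneg _) h 2
  have hE : Real.exp x ≤ Real.exp b := Real.exp_le_exp.2 ((le_abs_self _).trans h)
  have hE1 : 1 ≤ Real.exp b := Real.one_le_exp hb
  have h3 := Real.add_one_le_exp x
  have h4 : x ^ 2 * Real.exp x ≤ b ^ 2 * Real.exp b :=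
    mul_le_mul hx2 hE (Real.exp_pos _).le (sq_nonneg _)
  have h5 : x ^ 2 ≤ b ^ 2 * Real.exp b := hx2.trans (le_mul_of_one_le_right (sq_nonneg _) hE1)
  rcases le_total 0 x with hx | hx
  · -- `e^x - 1 ≤ x e^x`, twice
    have : x * (Real.exp x - 1) ≤ x * (x * Real.exp x) :=
      mul_le_mul_of_nonneg_left (by linarith) hx
    nlinarith
  · have : (-x) * (1 - Real.exp x) ≤ (-x) * (-x) :=
      mul_le_mul_of_nonneg_left (by linarith) (by linarith)
    have h6 : Real.exp x ≤ 1 + x * Real.exp x := by linarith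
    nlinarith

lemma rho_tangent (x u : ℝ) : Real.exp u * (1 + x - u) ≤ Real.exp x := by
  have h := Real.add_one_le_exp (x - u)
  calc Real.exp u * (1 + x - u) ≤ Real.exp u * Real.exp (x - u) :=
        mul_le_mul_of_nonneg_left (by linarith) (Real.exp_pos _).le
    _ = _ := by rw [← Real.exp_add]; congr 1; ring

section
variable {Ξ : Type} [Fintype Ξ] [Nonempty Ξ] {D : ℕ} {Λ : Type} [Fintype Λ] [DecidableEq Λ]
  (X : Filt Ξ D) (σ : Ξ → Bool) {γ : ℕ → ℝ}

lemma rho_pm_lower (hγ : Adm γ) {v : (Λ → Bool) → ℝ} (hv : ∀ s, 0 < v s) (t u : ℝ) :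
    Real.exp u * (1 + (∏ d ∈ range D, γ d) * lgV X σ γ v - t - u) ≤
      pmV X σ γ v * Real.exp (-t) := by
  have hm : 0 < ∏ d ∈ range D, γ d := Filt.adm_prod_pos hγ _
  unfold lgV pmV Filt.pm
  rw [mul_div_cancel₀ _ hm.ne', ← Filt.Ex_mul_const]
  set F := (Filt.pi fun _ : Λ => X)
  set Q := F.Q γ D (fun y => v fun l => σ (y l)) 0 with hQ
  have hQ0 : ∀ x, 0 < Q x := fun x => F.Q_pos γ D (fun _ => hv _) 0 x
  have e1 : Real.exp u * (1 + F.Ex (fun x => Real.log (Q x)) - t - u) =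
      F.Ex (fun x => Real.exp u * (Real.log (Q x) + (1 - t - u))) := by
    rw [Filt.Ex_const_mul, Filt.Ex_add, Filt.Ex_const]; ring
  rw [e1]
  refine F.Ex_mono fun x => ?_
  have := rho_tangent (Real.log (Q x) - t) u
  rw [sub_eq_add_neg (Real.log (Q x)) t, Real.exp_add, Real.exp_log (hQ0 x)] at this
  convert this using 2
  ring

lemma rho_pm_upper (hγ : Adm γ) {v : (Λ → Bool) → ℝ} {a : ℝ}
    (hv : ∀ s, Real.exp (-a) ≤ v s ∧ v s ≤ Real.exp a) {t b : ℝ}
    (hb : a * (∏ d ∈ range D, γ d) + |t| ≤ b) :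
    pmV X σ γ v * Real.exp (-t) ≤
      1 + (∏ d ∈ range D, γ d) * lgV X σ γ v - t + b ^ 2 * Real.exp b := by
  have hm : 0 < ∏ d ∈ range D, γ d := Filt.adm_prod_pos hγ _
  unfold lgV pmV Filt.pm
  rw [mul_div_cancel₀ _ hm.ne', ← Filt.Ex_mul_const]
  set F := (Filt.pi fun _ : Λ => X)
  set Q := F.Q γ D (fun y => v fun l => σ (y l)) 0 with hQ
  have hQ0 : ∀ x, 0 < Q x := fun x =>
    F.Q_pos γ D (fun _ => (Real.exp_pos _).trans_le (hv _).1) 0 x
  have hQ1 : ∀ x, |Real.log (Q x)| ≤ a * ∏ d ∈ range D, γ d := fun x =>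
    abs_log_le_of_mem (Q_zero_mem F hγ (fun _ => hv _) x)
  have e1 : 1 + F.Ex (fun x => Real.log (Q x)) - t + b ^ 2 * Real.exp b =
      F.Ex (fun x => Real.log (Q x) + (1 - t + b ^ 2 * Real.exp b)) := by
    rw [Filt.Ex_add, Filt.Ex_const]; ring
  rw [e1]
  refine F.Ex_mono fun x => ?_
  have h1 : |Real.log (Q x) - t| ≤ b := (abs_sub _ _).trans (by linarith [hQ1 x])
  have := rho_exp_le h1
  rw [sub_eq_add_neg (Real.log (Q x)) t, Real.exp_add, Real.exp_log (hQ0 x)] at this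
  linarith

variable (M : FM) (p : ℕ)

lemma rho_edge (hγ : Adm γ) :
    0 ≤ Real.log (edgeE M p X σ γ) -
        (∏ d ∈ range D, γ d) * (av fun c : M.Cl p => lgV X σ γ (M.cw c)) ∧
      Real.log (edgeE M p X σ γ) -
        (∏ d ∈ range D, γ d) * (av fun c : M.Cl p => lgV X σ γ (M.cw c)) ≤
        M.c ^ 2 * Real.exp M.c * (∏ d ∈ range D, γ d) ^ 2 := by
  have hm : 0 < ∏ d ∈ range D, γ d := Filt.adm_prod_pos hγ _
  have hm1 : ∏ d ∈ range D, γ d ≤ 1 := Filt.adm_prod_le_one hγ _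
  have hc := M.c_nonneg
  have he := edgeE_pos X σ M p hγ
  set m := ∏ d ∈ range D, γ d with hmd
  set y := av fun c : M.Cl p => lgV X σ γ (M.cw c) with hy
  constructor
  · have h1 : Real.exp (m * y) ≤ edgeE M p X σ γ := by
      have e1 : Real.exp (m * y) = av fun c : M.Cl p =>
          Real.exp (m * y) * (m * lgV X σ γ (M.cw c) + (1 - m * y)) := by
        rw [av_const_mul, av_add, av_const_mul, av_const, ← hy]; ring
      rw [e1]
      refine av_mono fun c => ?_
      have := rho_pm_lower X σ hγ (M.cw_pos c) 0 (m * y)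
      rw [neg_zero, Real.exp_zero, mul_one] at this
      convert this using 2
      ring
    have := (Real.le_log_iff_exp_le he).2 h1
    linarith
  · have h1 : edgeE M p X σ γ ≤ 1 + m * y + (M.c * m) ^ 2 * Real.exp (M.c * m) := by
      have e1 : 1 + m * y + (M.c * m) ^ 2 * Real.exp (M.c * m) = av fun c : M.Cl p =>
          (m * lgV X σ γ (M.cw c) + (1 + (M.c * m) ^ 2 * Real.exp (M.c * m))) := by
        rw [av_add, av_const_mul, av_const, ← hy]; ring
      rw [e1]
      refine av_mono fun c => ?_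
      have := rho_pm_upper X σ hγ (M.cw_mem c) (t := 0) (b := M.c * m) (by simp [hmd])
      rw [neg_zero, Real.exp_zero, mul_one] at this
      linarith
    have h2 := Real.log_le_sub_one_of_pos he
    have h3 : Real.exp (M.c * m) ≤ Real.exp M.c :=
      Real.exp_le_exp.2 (mul_le_of_le_one_right hc hm1)
    have h4 : (M.c * m) ^ 2 * Real.exp (M.c * m) ≤ (M.c * m) ^ 2 * Real.exp M.c :=
      mul_le_mul_of_nonneg_left h3 (sq_nonneg _)
    nlinarith

/-- The site term of the cavity functional. -/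
noncomputable def rhoS (γ : ℕ → ℝ) (K : ℕ) : ℝ :=
  av fun cs : Fin K → M.Cl p => av fun v : M.Fl => lgV X σ γ (M.siteV v cs)

lemma rho_abs_S_le (hγ : Adm γ) (K : ℕ) : |rhoS X σ M p γ K| ≤ M.c * (K + 1) :=
  (abs_av_le _).trans (av_le_of_le fun cs => (abs_av_le _).trans
    (av_le_of_le fun v => abs_lgV_le X σ hγ (M.siteV_mem v cs)))

lemma rho_site_lower (hγ : Adm γ) (K : ℕ) (u : ℝ) :
    Real.exp u * (1 + (∏ d ∈ range D, γ d) * rhoS X σ M p γ K -
      K * Real.log (edgeE M p X σ γ) - u) ≤ siteS M p X σ γ K / edgeE M p X σ γ ^ K := by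
  have he := edgeE_pos X σ M p hγ
  set m := ∏ d ∈ range D, γ d with hmd
  set l := Real.log (edgeE M p X σ γ) with hl
  have e0 : edgeE M p X σ γ ^ K = Real.exp (K * l) := by
    rw [Real.exp_nat_mul, hl, Real.exp_log he]
  rw [e0, div_eq_mul_inv, ← Real.exp_neg]
  unfold siteS rhoS
  have e1 : Real.exp u * (1 + m * (av fun cs : Fin K → M.Cl p => av fun v : M.Fl =>
      lgV X σ γ (M.siteV v cs)) - K * l - u) = av fun cs : Fin K → M.Cl p => av fun v : M.Fl =>
        Real.exp u * (m * lgV X σ γ (M.siteV v cs) + (1 - K * l - u)) := by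
    simp only [av_const_mul, av_add, av_const]; ring
  rw [e1, ← av_mul_const]
  refine av_mono fun cs => ?_
  rw [← av_mul_const]
  refine av_mono fun v => ?_
  have := rho_pm_lower X σ hγ (M.siteV_pos v cs) (K * l) u
  convert this using 2
  ring

lemma rho_site_upper (hγ : Adm γ) (K : ℕ) :
    siteS M p X σ γ K / edgeE M p X σ γ ^ K ≤ 1 + (∏ d ∈ range D, γ d) * rhoS X σ M p γ K -
      K * Real.log (edgeE M p X σ γ) + (∏ d ∈ range D, γ d) ^ 2 *
        ((2 * M.c * (K + 1)) ^ 2 * Real.exp (2 * M.c * (K + 1))) := by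
  have he := edgeE_pos X σ M p hγ
  have hm : 0 < ∏ d ∈ range D, γ d := Filt.adm_prod_pos hγ _
  have hm1 : ∏ d ∈ range D, γ d ≤ 1 := Filt.adm_prod_le_one hγ _
  have hc := M.c_nonneg
  have hl0 := abs_log_le_of_mem (edgeE_mem X σ M p hγ)
  set m := ∏ d ∈ range D, γ d with hmd
  set l := Real.log (edgeE M p X σ γ) with hl
  have e0 : edgeE M p X σ γ ^ K = Real.exp (K * l) := by
    rw [Real.exp_nat_mul, hl, Real.exp_log he]
  rw [e0, div_eq_mul_inv, ← Real.exp_neg]
  unfold siteS rhoS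
  set b := 2 * M.c * (K + 1) * m with hb
  have hK : (0 : ℝ) ≤ K := Nat.cast_nonneg K
  have hb1 : M.c * (K + 1) * m + |(K : ℝ) * l| ≤ b := by
    rw [abs_mul, abs_of_nonneg hK]
    have : (K : ℝ) * |l| ≤ K * (M.c * m) := mul_le_mul_of_nonneg_left hl0 hK
    have : 0 ≤ M.c * m := by positivity
    rw [hb]; nlinarith
  have hb2 : b ^ 2 * Real.exp b ≤
      m ^ 2 * ((2 * M.c * (K + 1)) ^ 2 * Real.exp (2 * M.c * (K + 1))) := by
    have h3 : Real.exp b ≤ Real.exp (2 * M.c * (K + 1)) :=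
      Real.exp_le_exp.2 (mul_le_of_le_one_right (by positivity) hm1)
    calc b ^ 2 * Real.exp b ≤ b ^ 2 * Real.exp (2 * M.c * (K + 1)) :=
          mul_le_mul_of_nonneg_left h3 (sq_nonneg _)
      _ = _ := by rw [hb]; ring
  refine le_trans ?_ (add_le_add le_rfl hb2)
  have e1 : 1 + m * (av fun cs : Fin K → M.Cl p => av fun v : M.Fl =>
      lgV X σ γ (M.siteV v cs)) - K * l + b ^ 2 * Real.exp b =
      av fun cs : Fin K → M.Cl p => av fun v : M.Fl =>
        (m * lgV X σ γ (M.siteV v cs) + (1 - K * l + b ^ 2 * Real.exp b)) := by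
    simp only [av_const_mul, av_add, av_const]; ring
  rw [e1, ← av_mul_const]
  refine av_mono fun cs => ?_
  rw [← av_mul_const]
  refine av_mono fun v => ?_
  have := rho_pm_upper X σ hγ (M.siteV_mem v cs) hb1
  linarith

end

lemma rho_G_le {c : ℝ} (hc : 0 ≤ c) (K : ℕ) :
    |(2 * c * (K + 1)) ^ 2 * Real.exp (2 * c * (K + 1))| ≤
      Real.exp (6 * c) * Real.exp (6 * c) ^ K := by
  have h0 : 0 ≤ 2 * c * ((K : ℝ) + 1) := by positivity
  rw [abs_of_nonneg (by positivity)]
  have h1 : 2 * c * ((K : ℝ) + 1) ≤ Real.exp (2 * c * (K + 1)) := by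
    linarith [Real.add_one_le_exp (2 * c * ((K : ℝ) + 1))]
  calc (2 * c * (K + 1)) ^ 2 * Real.exp (2 * c * (K + 1))
      ≤ Real.exp (2 * c * (K + 1)) ^ 2 * Real.exp (2 * c * (K + 1)) :=
        mul_le_mul_of_nonneg_right (pow_le_pow_left₀ h0 h1 2) (Real.exp_pos _).le
    _ = _ := by
        rw [← Real.exp_nat_mul, ← Real.exp_nat_mul, ← Real.exp_add, ← Real.exp_add]
        congr 1; push_cast; ring

theorem rho_Bfin (M : FM) (p : ℕ) {α : ℝ} (hα : 0 < α) : ∃ C : ℝ, 0 ≤ C ∧
    ∀ (D : ℕ) (Ξ : Type) [Fintype Ξ] [Nonempty Ξ] (X : Filt Ξ D) (σ : Ξ → Bool) (γ : ℕ → ℝ),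
      Adm γ → |Real.log (rho M p α X σ γ) - (∏ d ∈ range D, γ d) * Bfin M p α X σ γ| ≤
        C * (∏ d ∈ range D, γ d) ^ 2 := by
  have hc := M.c_nonneg
  have hlam : 0 ≤ α * p := by positivity
  have hG : Summable fun K : ℕ => poissonWeight (α * p) K *
      ((2 * M.c * (K + 1)) ^ 2 * Real.exp (2 * M.c * (K + 1))) :=
    summable_poisson_of_le hlam (rho_G_le hc)
  set G := ∑' K : ℕ, poissonWeight (α * p) K *
      ((2 * M.c * (K + 1)) ^ 2 * Real.exp (2 * M.c * (K + 1))) with hGd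
  have hG0 : 0 ≤ G := tsum_nonneg fun K =>
    mul_nonneg (poissonWeight_nonneg hlam K) (by positivity)
  refine ⟨G + |α * (p - 1 : ℝ)| * (M.c ^ 2 * Real.exp M.c), by positivity, ?_⟩
  intro D Ξ _ _ X σ γ hγ
  have he := edgeE_pos X σ M p hγ
  have hedge := rho_edge X σ M p hγ
  have hS : Summable fun K : ℕ => poissonWeight (α * p) K * rhoS X σ M p γ K :=
    summable_poisson_of_linear hlam (rho_abs_S_le X σ M p hγ)
  have hT := rho_summable X σ M p hlam hγ
  have hlo := rho_site_lower X σ M p hγ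
  have hup := rho_site_upper X σ M p hγ
  have hB : Bfin M p α X σ γ = (∑' K : ℕ, poissonWeight (α * p) K * rhoS X σ M p γ K) -
      α * (p - 1 : ℝ) * av fun c : M.Cl p => lgV X σ γ (M.cw c) := rfl
  rw [hB]
  unfold rho
  set m := ∏ d ∈ range D, γ d with hmd
  set l := Real.log (edgeE M p X σ γ) with hl
  set y := av fun c : M.Cl p => lgV X σ γ (M.cw c) with hy
  set S := ∑' K : ℕ, poissonWeight (α * p) K * rhoS X σ M p γ K with hSd
  set T := ∑' K : ℕ, poissonWeight (α * p) K * (siteS M p X σ γ K / edgeE M p X σ γ ^ K) with hTd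
  set u := m * S - α * p * l with hu
  have hlin : HasSum (fun K : ℕ => poissonWeight (α * p) K *
      (1 + m * rhoS X σ M p γ K - K * l)) (1 + u) := by
    have := ((hasSum_poisson (α * p)).add (hS.hasSum.mul_left m)).sub
      ((hasSum_poisson_mean (α * p)).mul_right l)
    convert this using 1
    · rfl
    · funext K; ring
    · rw [hu, hSd]; ring
  have h1 : Real.exp u ≤ T := by
    have h2 : HasSum (fun K : ℕ => poissonWeight (α * p) K *
        (Real.exp u * (1 + m * rhoS X σ M p γ K - K * l - u))) (Real.exp u) := by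
      have := (hlin.sub ((hasSum_poisson (α * p)).mul_right u)).mul_left (Real.exp u)
      convert this using 1
      · rfl
      · funext K; ring
      · ring
    exact hasSum_le (fun K => mul_le_mul_of_nonneg_left (hlo K u) (poissonWeight_nonneg hlam K))
      h2 hT.hasSum
  have h2 : T ≤ 1 + u + m ^ 2 * G := by
    have h3 := hlin.add (hG.hasSum.mul_left (m ^ 2))
    refine hasSum_le (fun K => ?_) hT.hasSum h3
    have := mul_le_mul_of_nonneg_left (hup K) (poissonWeight_nonneg hlam K)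
    linarith
  have hT0 : 0 < T := (Real.exp_pos _).trans_le h1
  have h3 : u ≤ Real.log T := (Real.le_log_iff_exp_le hT0).2 h1
  have h4 : Real.log T ≤ u + m ^ 2 * G := by linarith [Real.log_le_sub_one_of_pos hT0]
  rw [Real.log_mul (Real.rpow_pos_of_pos he α).ne' hT0.ne', Real.log_rpow he, ← hl]
  have e1 : α * l + Real.log T - m * (S - α * (p - 1 : ℝ) * y) =
      (Real.log T - u) - α * (p - 1 : ℝ) * (l - m * y) := by rw [hu]; ring
  rw [e1]
  refine (abs_sub _ _).trans ?_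
  rw [abs_mul, abs_of_nonneg (by linarith : 0 ≤ Real.log T - u), abs_of_nonneg hedge.1]
  have := mul_le_mul_of_nonneg_left hedge.2 (abs_nonneg (α * (p - 1 : ℝ)))
  linarith

end Crest.Agent.R141
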