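import Mathlib
import Crest.Agent.R141.Basic
import Crest.Agent.R153.Upper

/-!
Row 141, interpolation upper bound: a cone generated by a multiplicative family and the one-step
inequality for even `p` and signed factors.
-/

set_option autoImplicit false

namespace Crest.Agent.R141

open Finset Crest.Agent.R153

lemma upper_hasSum (g : ℝ) {y : ℝ} (hy : |y| < 1) :
    HasSum (fun n => upPi g n * y ^ (n + 1)) (1 - (1 - y) ^ g) := by
  have hmem : -y ∈ Metric.eball (0 : ℝ) 1 := by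
    rw [← ENNReal.ofReal_one, Metric.eball_ofReal]
    simpa using hy
  have h := (Real.one_add_rpow_hasFPowerSeriesOnBall_zero (a := g)).hasSum hmem
  simp only [binomialSeries_apply, List.ofFn_const, List.prod_replicate, smul_eq_mul,
    zero_add] at h
  have h2 := (hasSum_nat_add_iff' 1).2 h
  simp only [Finset.range_one, Finset.sum_singleton, Ring.choose_zero_right, pow_zero,
    mul_one] at h2
  have h3 := h2.neg
  have e1 : (fun n => upPi g n * y ^ (n + 1)) =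
      fun b => -(Ring.choose g (b + 1) * (-y) ^ (b + 1)) := by
    funext n
    unfold upPi
    rw [neg_pow y]; ring
  have e2 : 1 - (1 - y) ^ g = -((1 + -y) ^ g - 1) := by
    rw [← sub_eq_add_neg]; ring
  rw [e1, e2]
  exact h3

/-! ### The cone -/

section cone
variable {B : Type}

/-- The bidual cone of a family of functions. -/
def UpperCone (𝒢 : Set (B → ℝ)) (Y : B → ℝ) : Prop :=
  ∀ Λ : (B → ℝ) →ₗ[ℝ] ℝ, (∀ g ∈ 𝒢, 0 ≤ Λ g) → 0 ≤ Λ Y

variable {𝒢 : Set (B → ℝ)}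

lemma upperCone_gen {g : B → ℝ} (h : g ∈ 𝒢) : UpperCone 𝒢 g := fun _ hΛ => hΛ g h

lemma UpperCone.smul {Y : B → ℝ} (h : UpperCone 𝒢 Y) {c : ℝ} (hc : 0 ≤ c) :
    UpperCone 𝒢 (c • Y) :=
  fun Λ hΛ => by rw [map_smul, smul_eq_mul]; exact mul_nonneg hc (h Λ hΛ)

lemma upperCone_sum {κ : Type*} (S : Finset κ) {Y : κ → B → ℝ}
    (h : ∀ t ∈ S, UpperCone 𝒢 (Y t)) : UpperCone 𝒢 (∑ t ∈ S, Y t) :=
  fun Λ hΛ => by rw [map_sum]; exact Finset.sum_nonneg fun t ht => h t ht Λ hΛ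

lemma UpperCone.map {Y : B → ℝ} (h : UpperCone 𝒢 Y) (T : (B → ℝ) →ₗ[ℝ] (B → ℝ))
    (hT : ∀ g ∈ 𝒢, UpperCone 𝒢 (T g)) : UpperCone 𝒢 (T Y) :=
  fun Λ hΛ => h (Λ ∘ₗ T) fun g hg => hT g hg Λ hΛ

lemma UpperCone.mul (hmul : ∀ g ∈ 𝒢, ∀ h ∈ 𝒢, g * h ∈ 𝒢) {Y Z : B → ℝ} (hY : UpperCone 𝒢 Y)
    (hZ : UpperCone 𝒢 Z) : UpperCone 𝒢 (Y * Z) := by
  refine hY.map (LinearMap.mulRight ℝ Z) fun g hg => ?_
  refine hZ.map (LinearMap.mulLeft ℝ g) fun h hh => ?_
  exact upperCone_gen (hmul g hg h hh)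

lemma UpperCone.pow (hmul : ∀ g ∈ 𝒢, ∀ h ∈ 𝒢, g * h ∈ 𝒢) {Y : B → ℝ} (hY : UpperCone 𝒢 Y)
    (n : ℕ) : UpperCone 𝒢 (Y ^ (n + 1)) := by
  induction n with
  | zero => simpa using hY
  | succ n ih => rw [pow_succ]; exact ih.mul hmul hY

variable [Fintype B]

lemma upperCone_hasSum {Y : ℕ → B → ℝ} {Z : B → ℝ} (h : HasSum Y Z)
    (hY : ∀ n, UpperCone 𝒢 (Y n)) : UpperCone 𝒢 Z := fun Λ hΛ =>
  (h.map Λ.toAddMonoidHom Λ.continuous_of_finiteDimensional).nonneg fun n => hY n Λ hΛ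

lemma UpperCone.phi (hmul : ∀ g ∈ 𝒢, ∀ h ∈ 𝒢, g * h ∈ 𝒢) {Y : B → ℝ} (hY : UpperCone 𝒢 Y)
    (h1 : ∀ a, |Y a| < 1) {g : ℝ} (hg0 : 0 ≤ g) (hg1 : g ≤ 1) :
    UpperCone 𝒢 fun a => 1 - (1 - Y a) ^ g := by
  refine upperCone_hasSum (Y := fun n => upPi g n • Y ^ (n + 1)) ?_
    fun n => (hY.pow hmul n).smul (upPi_nonneg hg0 hg1 n)
  rw [Pi.hasSum]
  intro a
  simpa using upper_hasSum g (h1 a)

variable {D : ℕ}

/-- The main positivity statement. -/
lemma upperCone_Q {Ω : Type} [Fintype Ω] (hmul : ∀ g ∈ 𝒢, ∀ h ∈ 𝒢, g * h ∈ 𝒢) (S : Filt Ω D)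
    (F : Filt B D) (hE : ∀ d, ∀ g ∈ 𝒢, F.E d g ∈ 𝒢) {γ : ℕ → ℝ} (hγ : Adm γ)
    {β : ℝ} (hβ0 : 0 ≤ β) (hβ1 : β < 1) (V : Ω × B → ℝ) (hV : ∀ y, |1 - V y| ≤ β)
    (hgen : ∀ ω, (fun a => 1 - V (ω, a)) ∈ 𝒢) :
    ∀ d, d ≤ D → ∀ ω, UpperCone 𝒢 fun a => 1 - (S.prod F).Q γ D V d (ω, a) := by
  classical
  set P := S.prod F with hP
  have hVlo : ∀ y, 1 - β ≤ V y := fun y => by linarith [(abs_le.1 (hV y)).2]
  have hVhi : ∀ y, V y ≤ 1 + β := fun y => by linarith [(abs_le.1 (hV y)).1]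
  have hVpos : ∀ y, 0 < V y := fun y => lt_of_lt_of_le (by linarith) (hVlo y)
  refine Filt.down_induction (fun ω => ?_) fun d hd ih ω => ?_
  · rw [Filt.Q_self]
    exact upperCone_gen (hgen ω)
  · simp only [Filt.Q_succ _ γ hd]
    have hE' : ∀ a, P.E d (P.Q γ D V (d + 1)) (ω, a) =
        1 - P.E d (fun y => 1 - P.Q γ D V (d + 1) y) (ω, a) := by
      intro a
      rw [Filt.E_sub, Filt.E_const]; ring
    simp only [hE']
    refine UpperCone.phi hmul ?_ (fun a => ?_) (hγ d).1.le (hγ d).2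
    · have : (fun a => P.E d (fun y => 1 - P.Q γ D V (d + 1) y) (ω, a)) =
          ∑ ω', S.ker d ω ω' • F.E d (fun a => 1 - P.Q γ D V (d + 1) (ω', a)) := by
        funext a
        rw [hP, Filt.E_prod, Filt.E_eq_sum]
        simp
      rw [this]
      refine upperCone_sum _ fun ω' _ => UpperCone.smul ?_ (S.ker_nonneg _ _ _)
      exact (ih ω').map (upElin F d) fun g hg => upperCone_gen (hE d g hg)
    · refine lt_of_le_of_lt (P.abs_E_le_of_le d (fun y => ?_) _) hβ1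
      have h1 := P.Q_le hγ D (hi := 1 + β) (by linarith) (fun y => (hVpos y).le) hVhi (d + 1) y
      have h2 := P.le_Q hγ D (lo := 1 - β) (by linarith) (by linarith) hVlo (d + 1) y
      exact abs_le.2 ⟨by linarith, by linarith⟩

end cone

/-- The tangent inequality for an even power. -/
lemma upper_tangent {q : ℕ} (hq : Even (q + 1)) (A B : ℝ) :
    0 ≤ 1 / ((q : ℝ) + 1) * A ^ (q + 1) + q / ((q : ℝ) + 1) * B ^ (q + 1) - A * B ^ q := by
  have h1 := pow_add_mul_le_add_pow (a := |B|) (b := |A| - |B|) (abs_nonneg B)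
    (by linarith [abs_nonneg A, abs_nonneg B]) (q + 1)
  rw [add_sub_cancel, Nat.add_sub_cancel, hq.pow_abs, hq.pow_abs] at h1
  have h2 : A * B ^ q ≤ |A| * |B| ^ q := by
    rw [← abs_pow, ← abs_mul]; exact le_abs_self _
  have h3 : |B| ^ q * |B| = B ^ (q + 1) := by rw [← pow_succ, hq.pow_abs]
  have hq1 : (0 : ℝ) < (q : ℝ) + 1 := by positivity
  have h4 : 1 / ((q : ℝ) + 1) * A ^ (q + 1) + q / ((q : ℝ) + 1) * B ^ (q + 1) - A * B ^ q =
      (A ^ (q + 1) + q * B ^ (q + 1) - (q + 1) * (A * B ^ q)) / ((q : ℝ) + 1) := by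
    field_simp
  rw [h4]
  refine div_nonneg ?_ hq1.le
  push_cast at h1
  nlinarith [mul_le_mul_of_nonneg_left h2 hq1.le]

/-- The generators: signed powers of the coupling times a product of one-variable factors. -/
def upperGens {T A : Type} (p : ℕ) (b : T → ℝ) : Set (T × (Fin p → A) → ℝ) :=
  {g | ∃ (n : ℕ) (φ : A → ℝ), 1 ≤ n ∧ g = fun y => (-b y.1) ^ n * ∏ j, φ (y.2 j)}

lemma upperGens_mul {T A : Type} (p : ℕ) (b : T → ℝ) :
    ∀ g ∈ upperGens (A := A) p b, ∀ h ∈ upperGens (A := A) p b, g * h ∈ upperGens (A := A) p b := by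
  rintro _ ⟨n, φ, hn, rfl⟩ _ ⟨m, ψ, hm, rfl⟩
  refine ⟨n + m, fun a => φ a * ψ a, by omega, ?_⟩
  funext y
  simp only [Pi.mul_apply, Finset.prod_mul_distrib, pow_add]
  ring

lemma upperGens_E {T A : Type} [Fintype T] [Fintype A] {D : ℕ} (p : ℕ) (b : T → ℝ) (G : Filt A D)
    (d : ℕ) : ∀ g ∈ upperGens (A := A) p b,
      ((Filt.coin T D 0).prod (Filt.pi fun _ : Fin p => G)).E d g ∈ upperGens (A := A) p b := by
  classical
  rintro _ ⟨n, φ, hn, rfl⟩
  refine ⟨n, G.E d φ, hn, ?_⟩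
  funext y
  rw [Filt.E_prod_mul (Filt.coin T D 0) (Filt.pi fun _ : Fin p => G) d (fun t => (-b t) ^ n)
    (fun a => ∏ j, φ (a j)), Filt.E_coin_of_le (Nat.zero_le d),
    Filt.E_pi_prod (fun _ : Fin p => G) d (fun _ => φ)]

/-- The one-step interpolation inequality. -/
theorem upper_step {Ω L Ξ T U : Type} [Fintype Ω] [Nonempty Ω] [Fintype L] [Nonempty L]
    [Fintype Ξ] [Nonempty Ξ] [Fintype T] [Nonempty T] [Fintype U] [Nonempty U] {D q : ℕ}
    (hq : Even (q + 1)) (S : Filt Ω D) (X : Filt Ξ D) {γ : ℕ → ℝ} (hγ : Adm γ)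
    {β : ℝ} (hβ0 : 0 ≤ β) (hβ1 : β < 1) (b : T → ℝ) (hb : ∀ t, |b t| ≤ β)
    (mom : ∀ n : ℕ, 1 ≤ n → 0 ≤ av fun t => (-b t) ^ n)
    (φ : Ω → U → L → ℝ) (hφ : ∀ ω u a, |φ ω u a| ≤ 1) (ψ : U → Ξ → ℝ) (hψ : ∀ u a, |ψ u a| ≤ 1) :
    1 / ((q : ℝ) + 1) * (av fun t : T => av fun u : Fin (q + 1) → U => av fun c : Fin (q + 1) → L =>
        S.pm γ fun ω => 1 + b t * ∏ j, φ ω (u j) (c j)) +
      q / ((q : ℝ) + 1) * (av fun t : T => av fun u : Fin (q + 1) → U =>
        (Filt.pi fun _ : Fin (q + 1) => X).pm γ (fun x => 1 + b t * ∏ j, ψ (u j) (x j))) ≤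
      av fun t : T => av fun u : Fin q → U => av fun u0 : U => av fun l : L =>
        (S.prod (Filt.pi fun _ : Fin q => X)).pm γ
          fun y => 1 + b t * (φ y.1 u0 l * ∏ j, ψ (u j) (y.2 j)) := by
  classical
  set G := (Filt.coin U D 0).prod (Filt.upSum L X) with hG
  set F := (Filt.coin T D 0).prod (Filt.pi fun _ : Fin (q + 1) => G) with hF
  set P := S.prod F with hP
  set Φ : Ω → U × (L ⊕ Ξ) → ℝ := fun ω a => Sum.elim (φ ω a.1) (ψ a.1) a.2 with hΦ
  have hΦ1 : ∀ ω a, |Φ ω a| ≤ 1 := by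
    rintro ω ⟨u, a | a⟩
    · exact hφ _ _ _
    · exact hψ _ _
  set V : Ω × (T × (Fin (q + 1) → U × (L ⊕ Ξ))) → ℝ :=
    fun y => 1 + b y.2.1 * ∏ j, Φ y.1 (y.2.2 j) with hV
  have hcp := upperCone_Q (upperGens_mul (A := U × (L ⊕ Ξ)) (q + 1) b) S F
    (upperGens_E (q + 1) b G) hγ hβ0 hβ1 V (fun y => by
      simp only [hV, sub_add_cancel_left, abs_neg, abs_mul, Finset.abs_prod]
      exact (mul_le_of_le_one_right (abs_nonneg _)
        (Finset.prod_le_one (fun _ _ => abs_nonneg _) fun _ _ => hΦ1 _ _)).trans (hb _))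
    (fun ω => ⟨1, Φ ω, le_rfl, by funext a; simp [hV]⟩) 0 (Nat.zero_le D)
  set X2 := Filt.pi fun _ : Fin q => X with hX2
  set X3 := Filt.pi fun _ : Fin (q + 1) => X with hX3
  let Λ : (T × (Fin (q + 1) → U × (L ⊕ Ξ)) → ℝ) →ₗ[ℝ] ℝ :=
    { toFun := fun Y => 1 / ((q : ℝ) + 1) * (av fun t : T => av fun u : Fin (q + 1) → U =>
          av fun c : Fin (q + 1) → L => Y (t, fun j => (u j, .inl (c j)))) +
        q / ((q : ℝ) + 1) * (av fun t : T => av fun u : Fin (q + 1) → U =>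
          X3.Ex (fun x => Y (t, fun j => (u j, .inr (x j))))) -
        av fun t : T => av fun u : Fin q → U => av fun u0 : U => av fun l : L =>
          X2.Ex fun x => Y (t, Fin.cons (u0, .inl l) fun j => (u j, .inr (x j)))
      map_add' := fun Y Z => by
        simp only [Pi.add_apply, av_add, Filt.Ex_add]; ring
      map_smul' := fun c Y => by
        simp only [Pi.smul_apply, smul_eq_mul, av_const_mul, Filt.Ex_const_mul, RingHom.id_apply]
        ring }
  have hΛ : ∀ g ∈ upperGens (A := U × (L ⊕ Ξ)) (q + 1) b, 0 ≤ Λ g := by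
    rintro _ ⟨n, θ, hn, rfl⟩
    set A := av fun u : U => av fun l : L => θ (u, .inl l) with hA
    set B := av fun u : U => X.Ex fun x => θ (u, .inr x) with hB
    have e1 : (av fun u : Fin (q + 1) → U => av fun c : Fin (q + 1) → L =>
        ∏ j, θ (u j, .inl (c j))) = A ^ (q + 1) := by
      have h1 : ∀ u : Fin (q + 1) → U, (av fun c : Fin (q + 1) → L => ∏ j, θ (u j, .inl (c j))) =
          ∏ j, av fun l : L => θ (u j, .inl l) := fun u =>
        av_pi_prod (ι := Fin (q + 1)) (A := fun _ => L) fun j l => θ (u j, .inl l)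
      simp only [h1]
      rw [av_pi_prod (ι := Fin (q + 1)) (A := fun _ => U)
        fun _ u => av fun l : L => θ (u, .inl l)]
      simp [hA]
    have e2 : ∀ r : ℕ, (av fun u : Fin r → U => (Filt.pi fun _ : Fin r => X).Ex
        fun x => ∏ j, θ (u j, .inr (x j))) = B ^ r := by
      intro r
      have h1 : ∀ u : Fin r → U, ((Filt.pi fun _ : Fin r => X).Ex
          fun x => ∏ j, θ (u j, .inr (x j))) = ∏ j, X.Ex fun x => θ (u j, .inr x) := fun u =>
        Filt.Ex_pi_prod (fun _ : Fin r => X) fun j x => θ (u j, .inr x)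
      simp only [h1]
      rw [av_pi_prod (ι := Fin r) (A := fun _ => U) fun _ u => X.Ex fun x => θ (u, .inr x)]
      simp [hB]
    have e3 : (av fun u : Fin q → U => av fun u0 : U => av fun l : L => X2.Ex fun x =>
        ∏ j, θ ((Fin.cons (u0, .inl l) (fun j => (u j, .inr (x j))) :
          Fin (q + 1) → U × (L ⊕ Ξ)) j)) = A * B ^ q := by
      rw [← e2 q, ← av_const_mul]
      refine av_congr fun u => ?_
      rw [hA, ← av_mul_const]
      refine av_congr fun u0 => ?_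
      rw [← av_mul_const]
      refine av_congr fun l => ?_
      rw [← Filt.Ex_const_mul]
      refine X2.Ex_congr fun x => ?_
      rw [Fin.prod_univ_succ]
      simp
    change (0 : ℝ) ≤ 1 / ((q : ℝ) + 1) * (av fun t : T => av fun u : Fin (q + 1) → U =>
          av fun c : Fin (q + 1) → L => (-b t) ^ n * ∏ j, θ (u j, .inl (c j))) +
        q / ((q : ℝ) + 1) * (av fun t : T => av fun u : Fin (q + 1) → U =>
          X3.Ex (fun x => (-b t) ^ n * ∏ j, θ (u j, .inr (x j)))) -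
        av fun t : T => av fun u : Fin q → U => av fun u0 : U => av fun l : L =>
          X2.Ex fun x => (-b t) ^ n * ∏ j, θ ((Fin.cons (u0, .inl l) (fun j => (u j, .inr (x j))) :
            Fin (q + 1) → U × (L ⊕ Ξ)) j)
    simp only [av_const_mul, Filt.Ex_const_mul]
    rw [e1, hX3, e2 (q + 1), e3]
    simp only [av_mul_const]
    have := mul_nonneg (mom n hn) (upper_tangent hq A B)
    linarith
  have key : ∀ ω, 1 / ((q : ℝ) + 1) * (av fun t : T => av fun u : Fin (q + 1) → U =>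
          av fun c : Fin (q + 1) → L => P.Q γ D V 0 (ω, (t, fun j => (u j, .inl (c j))))) +
        q / ((q : ℝ) + 1) * (av fun t : T => av fun u : Fin (q + 1) → U =>
          X3.Ex (fun x => P.Q γ D V 0 (ω, (t, fun j => (u j, .inr (x j)))))) ≤
        av fun t : T => av fun u : Fin q → U => av fun u0 : U => av fun l : L =>
          X2.Ex fun x => P.Q γ D V 0 (ω, (t, Fin.cons (u0, .inl l) fun j => (u j, .inr (x j)))) := by
    intro ω
    have := hcp ω Λ hΛ
    change 0 ≤ 1 / ((q : ℝ) + 1) * (av fun t : T => av fun u : Fin (q + 1) → U =>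
          av fun c : Fin (q + 1) → L => 1 - P.Q γ D V 0 (ω, (t, fun j => (u j, .inl (c j))))) +
        q / ((q : ℝ) + 1) * (av fun t : T => av fun u : Fin (q + 1) → U =>
          X3.Ex (fun x => 1 - P.Q γ D V 0 (ω, (t, fun j => (u j, .inr (x j)))))) -
        av fun t : T => av fun u : Fin q → U => av fun u0 : U => av fun l : L =>
          X2.Ex fun x => 1 - P.Q γ D V 0
            (ω, (t, Fin.cons (u0, .inl l) fun j => (u j, .inr (x j)))) at this
    simp only [av_sub, Filt.Ex_sub, av_const, Filt.Ex_const] at this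
    have h1 : 1 / ((q : ℝ) + 1) + q / ((q : ℝ) + 1) = 1 := by
      field_simp; ring
    nlinarith [this, h1]
  have hsum := S.Ex_mono key
  simp only [Filt.Ex_add, Filt.Ex_const_mul, Filt.Ex_av] at hsum
  have hpt : ∀ (u : U) (l : L) (d : ℕ) (y : U × (L ⊕ Ξ)), G.rel d (u, .inl l) y →
      y = (u, .inl l) := fun u l d y hy =>
    Prod.ext (hy.1 (Or.inl (Nat.zero_le d))).symm (Filt.upSum_inl X _ d _ hy.2)
  have minr : ∀ u : U, X.Mor G fun x => (u, .inr x) := fun u =>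
    (Filt.up_mor_inr X).comp (Filt.mor_fiber' (Filt.upSum L X) u)
  have m1 : ∀ (t : T) (u : Fin (q + 1) → U) (c : Fin (q + 1) → L),
      S.Mor P fun ω => (ω, (t, fun j => (u j, .inl (c j)))) := fun t u c =>
    Filt.up_mor_point S _ _ fun d y hy => Prod.ext (hy.1 (Or.inl (Nat.zero_le d))).symm
      (funext fun j => hpt _ _ d _ (hy.2 j))
  have m2 : ∀ (t : T) (u : Fin (q + 1) → U),
      (S.prod X3).Mor P fun y => (y.1, (t, fun j => (u j, .inr (y.2 j)))) := fun t u =>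
    Filt.Mor.prod_map (Filt.morEx_id S).1
      ((Filt.up_mor_pi_map (φ := fun j x => (u j, Sum.inr x)) fun j => minr (u j)).comp
        (Filt.mor_fiber' (Filt.pi fun _ : Fin (q + 1) => G) t))
  have m3 : ∀ (t : T) (u : Fin q → U) (u0 : U) (l : L), (S.prod X2).Mor P
      fun y => (y.1, (t, Fin.cons (u0, .inl l) fun j => (u j, .inr (y.2 j)))) := fun t u u0 l =>
    Filt.Mor.prod_map (Filt.morEx_id S).1
      ((((Filt.up_mor_pi_map (φ := fun j x => (u j, Sum.inr x)) fun j => minr (u j)).comp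
        (Filt.up_mor_point _ G (u0, .inl l) (hpt u0 l))).comp (Filt.morEx_pi_cons G q).1).comp
        (Filt.mor_fiber' (Filt.pi fun _ : Fin (q + 1) => G) t))
  refine le_of_eq_of_le ?_ (hsum.trans_eq ?_)
  · congr 2
    · refine av_congr fun t => av_congr fun u => av_congr fun c => ?_
      unfold Filt.pm
      refine S.Ex_congr fun ω => ?_
      rw [← (m1 t u c).Q]
      simp [hV, hΦ]
    · refine av_congr fun t => av_congr fun u => ?_
      rw [← Filt.Ex_prod S X3 fun y => P.Q γ D V 0 (y.1, (t, fun j => (u j, .inr (y.2 j)))),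
        ← (Filt.morEx_snd S X3).pm]
      unfold Filt.pm
      refine Filt.Ex_congr _ fun y => ?_
      rw [← (m2 t u).Q]
      simp [hV, hΦ]
  · refine av_congr fun t => av_congr fun u => av_congr fun u0 => av_congr fun l => ?_
    rw [← Filt.Ex_prod S X2 fun y =>
      P.Q γ D V 0 (y.1, (t, Fin.cons (u0, .inl l) fun j => (u j, .inr (y.2 j))))]
    unfold Filt.pm
    refine Filt.Ex_congr _ fun y => ?_
    rw [← (m3 t u u0 l).Q]
    congr 1
    funext z
    simp only [hV, hΦ]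
    rw [Fin.prod_univ_succ]
    simp

end Crest.Agent.R141
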