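import Mathlib
import Crest.Agent.R141.UpperAux1

/-!
Row 141, interpolation upper bound: iteration of the one-step inequality and factorisation over
the sites.
-/

set_option autoImplicit false

namespace Crest.Agent.R141

open Finset Crest.Agent.R153

lemma upper_prod_lastExt {q : ℕ} {U : Type} (f : U → Bool → ℝ) (u : Fin q → U) (u0 : U)
    (s : Fin q → Bool) (ε : Bool) :
    ∏ ℓ : Fin (q + 1), f ((Fin.snoc u u0 : Fin (q + 1) → U) ℓ) (lastExt (p := q + 1) s ε ℓ) =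
      f u0 ε * ∏ j, f (u j) (s j) := by
  rw [Fin.prod_univ_castSucc, mul_comm]
  congr 1
  · rw [Fin.snoc_last]
    congr 1
    unfold lastExt
    rw [dif_neg (by simp)]
  · refine Finset.prod_congr rfl fun j _ => ?_
    rw [Fin.snoc_castSucc]
    congr 1
    unfold lastExt
    rw [dif_pos (by simp)]
    rfl

section
variable (M : FM) (p : ℕ) {Ξ : Type} [Fintype Ξ] [Nonempty Ξ] {D : ℕ} (γ : ℕ → ℝ)

/-- Weight of one cavity interaction. -/
noncomputable def upperWs {N : ℕ} (σ : Ξ → Bool) (c : M.Cl p × Fin N) (s : Fin N → Bool)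
    (x : Fin (p - 1) → Ξ) : ℝ :=
  M.cw c.1 (lastExt (fun ℓ => σ (x ℓ)) (s c.2))

/-- The interpolating space with `J` cavity interactions. -/
noncomputable def upperSp (N J : ℕ) (X : Filt Ξ D) :
    Filt ((Fin N → Bool) × (Fin J → Fin (p - 1) → Ξ)) D :=
  (Filt.coin (Fin N → Bool) D D).prod (Filt.pi fun _ : Fin J => Filt.pi fun _ : Fin (p - 1) => X)

/-- The interpolating functional. -/
noncomputable def upperU {N : ℕ} (X : Filt Ξ D) (σ : Ξ → Bool) (w : (Fin N → Bool) → ℝ) (J : ℕ) :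
    ℝ :=
  av fun τ : Fin J → M.Cl p × Fin N => (upperSp p N J X).pm γ
    fun y => w y.1 * ∏ k, upperWs M p σ (τ k) y.1 (y.2 k)

/-- Weight of a true interaction. -/
def upperSl {N : ℕ} (c : M.Slot p N) (s : Fin N → Bool) : ℝ := M.cw c.1 fun ℓ => s (c.2 ℓ)

/-- Interpolation with `K` true interactions and `J` cavity interactions. -/
noncomputable def upperUU (N : ℕ) (X : Filt Ξ D) (σ : Ξ → Bool) (K J : ℕ) : ℝ :=
  av fun F : Fin K → M.Slot p N => av fun vs : Fin N → M.Fl =>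
    upperU M p γ X σ (fun s => (∏ k, upperSl M p (F k) s) * ∏ i, M.fw (vs i) (s i)) J

variable {γ}

omit [Fintype Ξ] [Nonempty Ξ] in
lemma upperWs_pos {N : ℕ} (σ : Ξ → Bool) (c : M.Cl p × Fin N) (s : Fin N → Bool)
    (x : Fin (p - 1) → Ξ) : 0 < upperWs M p σ c s x := M.cw_pos _ _

lemma upperSl_pos {N : ℕ} (c : M.Slot p N) (s : Fin N → Bool) : 0 < upperSl M p c s :=
  M.cw_pos _ _

end

section
variable (M : FM) {Ξ : Type} [Fintype Ξ] [Nonempty Ξ] {D : ℕ} {γ : ℕ → ℝ}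

lemma upperU_succ {q : ℕ} (hq : Even (q + 1)) (hγ : Adm γ) {N : ℕ} (hN : 1 ≤ N) (X : Filt Ξ D)
    (σ : Ξ → Bool) {w : (Fin N → Bool) → ℝ} (hw : ∀ s, 0 < w s) (J : ℕ) :
    1 / ((q : ℝ) + 1) * (av fun c : M.Slot (q + 1) N =>
        upperU M (q + 1) γ X σ (fun s => w s * upperSl M (q + 1) c s) J) +
      q / ((q : ℝ) + 1) * edgeE M (q + 1) X σ γ * upperU M (q + 1) γ X σ w J ≤
        upperU M (q + 1) γ X σ w (J + 1) := by
  have : Nonempty (Fin N) := ⟨⟨0, hN⟩⟩
  set X2 := Filt.pi fun _ : Fin (q + 1 - 1) => X with hX2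
  have hm : ((upperSp (q + 1) N J X).prod X2).MorEx (upperSp (q + 1) N (J + 1) X)
      fun y => (y.1.1, Fin.cons y.2 y.1.2) :=
    (Filt.morEx_assoc _ _ _).comp
      ((Filt.morEx_id _).prod_map (Filt.morEx_pi_cons X2 J))
  let V : (Fin J → M.Cl (q + 1) × Fin N) → (Fin N → Bool) × (Fin J → Fin (q + 1 - 1) → Ξ) → ℝ :=
    fun τ y => w y.1 * ∏ k, upperWs M (q + 1) σ (τ k) y.1 (y.2 k)
  have hV : ∀ τ y, 0 < V τ y := fun τ y =>
    mul_pos (hw _) (Finset.prod_pos fun k _ => upperWs_pos M _ σ _ _ _)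
  have h1 : upperU M (q + 1) γ X σ w (J + 1) = av fun τ : Fin J → M.Cl (q + 1) × Fin N =>
      av fun t : Fin (M.nb + 1) => av fun u : Fin q → Fin (M.nf + 1) =>
        av fun u0 : Fin (M.nf + 1) => av fun l : Fin N => ((upperSp (q + 1) N J X).prod X2).pm γ
        fun y => V τ y.1 * upperWs M (q + 1) σ ((t, Fin.snoc u u0), l) y.1.1 y.2 := by
    unfold upperU
    rw [av_fin_cons, av_comm]
    refine av_congr fun τ => ?_
    rw [av_prod, av_prod]
    refine av_congr fun t => ?_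
    rw [av_fin_snoc]
    refine av_congr fun u => av_congr fun u0 => av_congr fun l => ?_
    rw [← hm.pm]
    refine Filt.pm_congr _ γ fun y => ?_
    simp only [Fin.prod_univ_succ, Fin.cons_zero, Fin.cons_succ, V]
    ring
  have h2 : (av fun c : M.Slot (q + 1) N =>
        upperU M (q + 1) γ X σ (fun s => w s * upperSl M (q + 1) c s) J) =
      av fun τ : Fin J → M.Cl (q + 1) × Fin N => av fun t : Fin (M.nb + 1) =>
        av fun u : Fin (q + 1) → Fin (M.nf + 1) => av fun c : Fin (q + 1) → Fin N =>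
        (upperSp (q + 1) N J X).pm γ fun y => V τ y * upperSl M (q + 1) ((t, u), c) y.1 := by
    unfold upperU
    rw [av_comm]
    refine av_congr fun τ => ?_
    rw [av_prod, av_prod]
    refine av_congr fun t => av_congr fun u => av_congr fun c => ?_
    refine Filt.pm_congr _ γ fun y => ?_
    simp only [V]; ring
  rw [h1, h2]
  unfold upperU
  rw [← av_const_mul, ← av_const_mul, ← av_add]
  refine av_mono fun τ => ?_
  have hstep := upper_step hq ((upperSp (q + 1) N J X).tilt γ (V τ) (hV τ)) X hγ M.β0 M.β1 M.b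
    M.hb M.mom (fun y u (l : Fin N) => M.f u (y.1 l)) (fun _ _ _ => M.hf _ _)
    (fun u x => M.f u (σ x)) (fun _ _ => M.hf _ _)
  have hZ : 0 < (upperSp (q + 1) N J X).pm γ (V τ) := Filt.pm_pos _ γ (hV τ)
  have e0 : (av fun t : Fin (M.nb + 1) => av fun u : Fin (q + 1) → Fin (M.nf + 1) =>
      (Filt.pi fun _ : Fin (q + 1) => X).pm γ
        (fun x => 1 + M.b t * ∏ j, M.f (u j) (σ (x j)))) = edgeE M (q + 1) X σ γ := by
    unfold edgeE
    rw [av_prod]
    rfl
  have e1 : ∀ (t : Fin (M.nb + 1)) (u : Fin (q + 1) → Fin (M.nf + 1)) (c : Fin (q + 1) → Fin N),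
      ((upperSp (q + 1) N J X).tilt γ (V τ) (hV τ)).pm γ
      (fun ω => 1 + M.b t * ∏ j, M.f (u j) (ω.1 (c j))) =
      (upperSp (q + 1) N J X).pm γ (fun y => V τ y * upperSl M (q + 1) ((t, u), c) y.1) /
        (upperSp (q + 1) N J X).pm γ (V τ) :=
    fun t u c => Filt.pm_tilt _ γ (hV τ) fun y => (upperSl_pos M (q + 1) ((t, u), c) y.1).le
  have e2 : ∀ (t : Fin (M.nb + 1)) (u : Fin q → Fin (M.nf + 1)) (u0 : Fin (M.nf + 1)) (l : Fin N),
      (((upperSp (q + 1) N J X).tilt γ (V τ) (hV τ)).prod (Filt.pi fun _ : Fin q => X)).pm γ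
      (fun y => 1 + M.b t * (M.f u0 (y.1.1 l) * ∏ j, M.f (u j) (σ (y.2 j)))) =
      ((upperSp (q + 1) N J X).prod X2).pm γ
        (fun y => V τ y.1 * upperWs M (q + 1) σ ((t, Fin.snoc u u0), l) y.1.1 y.2) /
        (upperSp (q + 1) N J X).pm γ (V τ) := by
    intro t u u0 l
    rw [← Filt.pm_tilt_prod _ X2 γ (hV τ)
      fun y => (upperWs_pos M (q + 1) σ ((t, Fin.snoc u u0), l) y.1.1 y.2).le]
    refine Filt.pm_congr _ γ fun y => ?_
    unfold upperWs FM.cw
    rw [← upper_prod_lastExt M.f u u0 (fun j => σ (y.2 j))]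
    rfl
  simp only [e0, e1, e2, av_div_const] at hstep
  rw [le_div_iff₀ hZ, add_mul, mul_assoc, div_mul_cancel₀ _ hZ.ne'] at hstep
  exact hstep

lemma upperU_zero (p : ℕ) (hD : 1 ≤ D) {N : ℕ} (X : Filt Ξ D) (σ : Ξ → Bool)
    {w : (Fin N → Bool) → ℝ} (hw : ∀ s, 0 < w s) :
    upperU M p γ X σ w 0 = av w ^ (∏ d ∈ range D, γ d) := by
  unfold upperU upperSp
  simp only [Finset.univ_eq_empty, Finset.prod_empty, mul_one, av_const]
  rw [(Filt.morEx_fst _ _).pm, Filt.pm_coin_top γ hD hw]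

lemma upperUU_succ {q : ℕ} (hq : Even (q + 1)) (hγ : Adm γ) {N : ℕ} (hN : 1 ≤ N) (X : Filt Ξ D)
    (σ : Ξ → Bool) (K J : ℕ) :
    1 / ((q : ℝ) + 1) * upperUU M (q + 1) γ N X σ (K + 1) J +
      q / ((q : ℝ) + 1) * edgeE M (q + 1) X σ γ * upperUU M (q + 1) γ N X σ K J ≤
      upperUU M (q + 1) γ N X σ K (J + 1) := by
  unfold upperUU
  rw [av_fin_cons, av_comm, ← av_const_mul, ← av_const_mul, ← av_add]
  refine av_mono fun F => ?_
  rw [av_comm, ← av_const_mul, ← av_const_mul, ← av_add]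
  refine av_mono fun vs => ?_
  have := upperU_succ M hq hγ hN X σ
    (w := fun s => (∏ k, upperSl M (q + 1) (F k) s) * ∏ i, M.fw (vs i) (s i))
    (fun s => mul_pos (Finset.prod_pos fun k _ => upperSl_pos M _ _ _)
      (Finset.prod_pos fun i _ => M.fw_pos _ _)) J
  refine le_of_eq_of_le ?_ this
  congr 2
  refine av_congr fun c => ?_
  congr 1
  funext s
  simp only [Fin.prod_univ_succ, Fin.cons_zero, Fin.cons_succ]
  ring

omit [Nonempty Ξ] in
lemma upperUU_nonneg (p N : ℕ) (X : Filt Ξ D) (σ : Ξ → Bool) (K J : ℕ) :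
    0 ≤ upperUU M p γ N X σ K J :=
  av_nonneg fun _ => av_nonneg fun _ => av_nonneg fun _ => Filt.pm_nonneg _ γ fun _ =>
    (mul_pos (mul_pos (Finset.prod_pos fun _ _ => upperSl_pos M _ _ _)
      (Finset.prod_pos fun _ _ => M.fw_pos _ _))
      (Finset.prod_pos fun _ _ => upperWs_pos M p σ _ _ _)).le

lemma upperUU_zero (p : ℕ) (hD : 1 ≤ D) (N : ℕ) (X : Filt Ξ D) (σ : Ξ → Bool) (K : ℕ) :
    upperUU M p γ N X σ K 0 = M.Psi p (∏ d ∈ range D, γ d) N K :=
  av_congr fun _ => av_congr fun _ => upperU_zero M p hD X σ fun _ =>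
    mul_pos (Finset.prod_pos fun _ _ => upperSl_pos M _ _ _)
      (Finset.prod_pos fun _ _ => M.fw_pos _ _)

end

/-! ### Factorisation over the sites -/

section
variable (M : FM) (p : ℕ) {Ξ : Type} [Fintype Ξ] {D : ℕ} {γ : ℕ → ℝ}

/-- The site functional for a general index type. -/
noncomputable def upperSite (γ : ℕ → ℝ) (X : Filt Ξ D) (σ : Ξ → Bool) (κ : Type)
    [Fintype κ] [DecidableEq κ] (v : M.Fl) (cs : κ → M.Cl p) : ℝ :=
  (Filt.pi fun _ : κ × Fin (p - 1) => X).pm γ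
    fun x => av fun ε : Bool => M.fw v ε * ∏ k, M.cw (cs k) (lastExt (fun ℓ => σ (x (k, ℓ))) ε)

lemma av_upperSite (X : Filt Ξ D) (σ : Ξ → Bool) (κ : Type) [Fintype κ] [DecidableEq κ] :
    (av fun v : M.Fl => av (upperSite M p γ X σ κ v)) = siteS M p X σ γ (Fintype.card κ) := by
  let e := Fintype.equivFin κ
  unfold siteS
  rw [av_comm, ← av_equiv (Equiv.arrowCongr e.symm (Equiv.refl (M.Cl p)))]
  refine av_congr fun cs => av_congr fun v => ?_
  unfold upperSite pmV FM.siteV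
  rw [← (Filt.morEx_pi_reindex X (e.prodCongr (Equiv.refl (Fin (p - 1))))).pm]
  refine Filt.pm_congr _ γ fun x => av_congr fun ε => ?_
  rw [← e.prod_comp]
  simp [Equiv.arrowCongr]

lemma upper_factor (hD : 1 ≤ D) {N J : ℕ} (X : Filt Ξ D) (σ : Ξ → Bool) (vs : Fin N → M.Fl)
    (φ : Fin J → Fin N) (cs : Fin J → M.Cl p) :
    (upperSp p N J X).pm γ (fun y => (∏ i, M.fw (vs i) (y.1 i)) *
      ∏ k, upperWs M p σ (cs k, φ k) y.1 (y.2 k)) =
      ∏ i, upperSite M p γ X σ {k // φ k = i} (vs i) fun k => cs k.1 := by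
  let e : (Fin N → Bool) × (Fin J → Fin (p - 1) → Ξ) ≃
      (∀ i : Fin N, (({k // φ k = i} × Fin (p - 1)) → Ξ) × Bool) :=
    { toFun := fun z i => (fun kj => z.2 kj.1.1 kj.2, z.1 i)
      invFun := fun y => (fun i => (y i).2, fun k j => (y (φ k)).1 (⟨k, rfl⟩, j))
      left_inv := fun z => rfl
      right_inv := fun y => by
        funext i
        refine Prod.ext ?_ rfl
        funext ⟨⟨k, hk⟩, j⟩
        subst hk
        rfl }
  have hm : (upperSp p N J X).MorEx (Filt.pi fun i : Fin N =>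
      (Filt.pi fun _ : {k // φ k = i} × Fin (p - 1) => X).prod (Filt.coin Bool D D)) e := by
    refine Filt.morEx_of_equiv _ _ e one_ne_zero (fun z => ?_) fun d z z' => ?_
    · change 1 * ∏ k, ∏ j, X.p (z.2 k j) =
        1 * ∏ i, (∏ kj : {k // φ k = i} × Fin (p - 1), X.p (z.2 kj.1.1 kj.2)) * 1
      rw [← Fintype.prod_fiberwise φ]
      simp only [Fintype.prod_prod_type, mul_one]
    · change ((D ≤ d ∨ D ≤ d) → z.1 = z'.1) ∧ (∀ k j, X.rel d (z.2 k j) (z'.2 k j)) ↔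
        ∀ i, (∀ kj : {k // φ k = i} × Fin (p - 1),
          X.rel d (z.2 kj.1.1 kj.2) (z'.2 kj.1.1 kj.2)) ∧ ((D ≤ d ∨ D ≤ d) → z.1 i = z'.1 i)
      exact ⟨fun h i => ⟨fun kj => h.2 _ _, fun hd => by rw [h.1 hd]⟩,
        fun h => ⟨fun hd => funext fun i => (h i).2 hd, fun k j => (h (φ k)).1 (⟨k, rfl⟩, j)⟩⟩
  let W : ∀ i : Fin N, (({k // φ k = i} × Fin (p - 1)) → Ξ) × Bool → ℝ := fun i y =>
    M.fw (vs i) y.2 *
      ∏ k : {k // φ k = i}, M.cw (cs k.1) (lastExt (fun ℓ => σ (y.1 (k, ℓ))) y.2)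
  have hW : ∀ i y, 0 ≤ W i y := fun i y =>
    (mul_pos (M.fw_pos _ _) (Finset.prod_pos fun k _ => M.cw_pos _ _)).le
  have h1 : (fun y : (Fin N → Bool) × (Fin J → Fin (p - 1) → Ξ) => (∏ i, M.fw (vs i) (y.1 i)) *
      ∏ k, upperWs M p σ (cs k, φ k) y.1 (y.2 k)) = fun y => ∏ i, W i (e y i) := by
    funext y
    rw [← Fintype.prod_fiberwise φ, ← Finset.prod_mul_distrib]
    refine Finset.prod_congr rfl fun i _ => ?_
    congr 1
    refine Finset.prod_congr rfl fun k _ => ?_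
    obtain ⟨k, hk⟩ := k
    subst hk
    rfl
  rw [h1, hm.pm γ fun y => ∏ i, W i (y i), Filt.pm_pi_prod _ γ hW]
  refine Finset.prod_congr rfl fun i _ => ?_
  rw [Filt.pm_prod_coin_top _ γ hD]
  rfl

lemma upperUU_one (hD : 1 ≤ D) (N : ℕ) (X : Filt Ξ D) (σ : Ξ → Bool) (J : ℕ) :
    upperUU M p γ N X σ 0 J =
      av fun φ : Fin J → Fin N => ∏ i, siteS M p X σ γ (Fintype.card {k // φ k = i}) := by
  let e : (Fin J → Fin N) × (Fin J → M.Cl p) ≃ (Fin J → M.Cl p × Fin N) :=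
    { toFun := fun z k => (z.2 k, z.1 k)
      invFun := fun τ => (fun k => (τ k).2, fun k => (τ k).1)
      left_inv := fun z => rfl
      right_inv := fun y => rfl }
  unfold upperUU
  simp only [Finset.univ_eq_empty, Finset.prod_empty, av_const, one_mul]
  have h0 : ∀ vs : Fin N → M.Fl, upperU M p γ X σ (fun s => ∏ i, M.fw (vs i) (s i)) J =
      av fun φ : Fin J → Fin N => ∏ i, av (upperSite M p γ X σ {k // φ k = i} (vs i)) := by
    intro vs
    unfold upperU
    rw [← av_equiv e, av_prod]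
    refine av_congr fun φ => ?_
    have h1 : ∀ cs : Fin J → M.Cl p, (upperSp p N J X).pm γ
        (fun y => (∏ i, M.fw (vs i) (y.1 i)) * ∏ k, upperWs M p σ (e (φ, cs) k) y.1 (y.2 k)) =
        ∏ i, upperSite M p γ X σ {k // φ k = i} (vs i) fun k => cs k.1 :=
      fun cs => upper_factor M p hD X σ vs φ cs
    simp only [h1]
    let e2 : (Fin J → M.Cl p) ≃ (∀ i : Fin N, {k // φ k = i} → M.Cl p) :=
      { toFun := fun τ i k => τ k.1
        invFun := fun y k => y (φ k) ⟨k, rfl⟩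
        left_inv := fun z => rfl
        right_inv := fun y => by
          funext i ⟨k, hk⟩
          subst hk
          rfl }
    have h2 := av_equiv e2 fun y => ∏ i, upperSite M p γ X σ {k // φ k = i} (vs i) (y i)
    refine Eq.trans h2 ?_
    rw [av_pi_prod fun i => upperSite M p γ X σ {k // φ k = i} (vs i)]
  simp only [h0]
  rw [av_comm]
  refine av_congr fun φ => ?_
  rw [av_pi_prod (A := fun _ : Fin N => M.Fl)
    fun i v => av (upperSite M p γ X σ {k // φ k = i} v)]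
  exact Finset.prod_congr rfl fun i _ => av_upperSite M p X σ _

end

end Crest.Agent.R141
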