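import Mathlib
import Crest.Agent.R141.Basic
import Crest.Agent.R153.Upper
import Crest.Agent.R141.UpperAux2

/-!
Row 141: the interpolation upper bound for fractional moments.
-/

set_option autoImplicit false

namespace Crest.Agent.R141

open Finset MeasureTheory Filter Crest.Agent.R153 Crest.ProbabilityR.Diluted

lemma upper_log_factorial_le {n : ℕ} (hn : 1 ≤ n) :
    Real.log (n.factorial : ℝ) ≤ 1 + Real.log n + n * (Real.log n - 1) := by
  have hn' : (0 : ℝ) < n := by exact_mod_cast hn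
  have h := Real.log_le_log (by exact_mod_cast n.factorial_pos) (up_factorial_le hn)
  rw [Real.log_mul (by positivity) (by positivity), Real.log_mul (by positivity) hn'.ne',
    Real.log_pow, Real.log_div hn'.ne' (by positivity), Real.log_exp] at h
  exact h

/-- The interpolation bound for an arbitrary number `K ≥ 1` of interactions. -/
lemma upper_log_psi_le (M : FM) {q : ℕ} (hq : Even (q + 1)) (hq1 : 1 ≤ q) {α : ℝ} (hα : 0 < α)
    {Ξ : Type} [Fintype Ξ] [Nonempty Ξ] {D : ℕ} (hD : 1 ≤ D) (X : Filt Ξ D) (σ : Ξ → Bool)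
    {γ : ℕ → ℝ} (hγ : Adm γ) {N : ℕ} (hN : 1 ≤ N) {K : ℕ} (hK : 1 ≤ K) :
    Real.log (M.Psi (q + 1) (∏ d ∈ range D, γ d) N K) ≤
      N * Real.log (rho M (q + 1) α X σ γ) + (2 + Real.log q + 2 * Real.log K) +
        (q + 1) * K * (Real.log K - Real.log (α * N)) + (q + 1) * (α * N - K) +
        (K - α * N) * Real.log (edgeE M (q + 1) X σ γ) := by
  have he : 0 < edgeE M (q + 1) X σ γ := edgeE_pos X σ M (q + 1) hγ
  have hs0 : ∀ J, 0 < siteS M (q + 1) X σ γ J := siteS_pos X σ M (q + 1) hγ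
  have hlam : 0 < α * ((q + 1 : ℕ) : ℝ) := by positivity
  have hsum0 := rho_summable X σ M (q + 1) hlam.le hγ
  have hΨ : 0 < M.Psi (q + 1) (∏ d ∈ range D, γ d) N K := M.Psi_pos _ _ hN _
  set ε := edgeE M (q + 1) X σ γ with hε
  set s := siteS M (q + 1) X σ γ with hs
  have hN' : (0 : ℝ) < N := by exact_mod_cast hN
  have hK' : (0 : ℝ) < K := by exact_mod_cast hK
  have hq' : (0 : ℝ) < q := by exact_mod_cast hq1
  set z : ℝ := α * ((q + 1 : ℕ) : ℝ) / ε with hz
  have hz0 : 0 < z := by positivity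
  have hterm : ∀ J : ℕ, poissonWeight (α * ((q + 1 : ℕ) : ℝ)) J * (s J / ε ^ J) =
      Real.exp (-(α * ((q + 1 : ℕ) : ℝ))) * (z ^ J / J.factorial * s J) := fun J => by
    rw [hz, div_pow]; unfold poissonWeight; ring
  have hsum : Summable fun J : ℕ => z ^ J / J.factorial * s J := by
    simp only [hterm] at hsum0
    exact (summable_mul_left_iff (Real.exp_pos _).ne').1 hsum0
  set T := ∑' J : ℕ, z ^ J / J.factorial * s J with hT
  have hT0 : 0 < T := hsum.tsum_pos (fun J => mul_nonneg (by positivity) (hs0 J).le) 0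
    (mul_pos (by positivity) (hs0 0))
  have hrho : rho M (q + 1) α X σ γ = ε ^ α * (Real.exp (-(α * ((q + 1 : ℕ) : ℝ))) * T) := by
    unfold rho
    rw [← hε, ← hs]
    simp only [hterm]
    rw [tsum_mul_left]
  have h1 := up_pascal (upperUU M (q + 1) γ N X σ) (a := 1 / ((q : ℝ) + 1))
    (c := q / ((q : ℝ) + 1) * ε) (by positivity) (by positivity)
    (upperUU_nonneg M (q + 1) N X σ) (upperUU_succ M hq hγ hN X σ) ((q + 1) * K) K 0
  have hsub : (q + 1) * K - K = q * K := by rw [Nat.add_mul, one_mul, Nat.add_sub_cancel]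
  rw [zero_add, upperUU_zero M (q + 1) hD, hsub] at h1
  have h2 : upperUU M (q + 1) γ N X σ 0 ((q + 1) * K) ≤
      ((q + 1) * K).factorial / z ^ ((q + 1) * K) * T ^ N / (N : ℝ) ^ ((q + 1) * K) := by
    rw [upperUU_one M (q + 1) hD]
    unfold av
    simp only [Fintype.card_pi, Fintype.card_fin, Finset.prod_const, Finset.card_univ,
      Nat.cast_pow]
    exact div_le_div_of_nonneg_right (up_count N ((q + 1) * K) (fun J => (hs0 J).le) hz0 hsum)
      (by positivity)
  have hle : K ≤ (q + 1) * K := Nat.le_mul_of_pos_left K (Nat.succ_pos q)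
  have h3 : (((q + 1) * K).choose K : ℝ) * K.factorial * (q * K).factorial =
      ((q + 1) * K).factorial := by
    have := Nat.choose_mul_factorial_mul_factorial hle
    rw [hsub] at this
    exact_mod_cast this
  have hch : (0 : ℝ) < ((q + 1) * K).choose K := by exact_mod_cast Nat.choose_pos hle
  set Ψ := M.Psi (q + 1) (∏ d ∈ range D, γ d) N K with hΨd
  have h4 : Ψ ≤ K.factorial * (q * K).factorial *
      (T ^ N / (z ^ ((q + 1) * K) * (N : ℝ) ^ ((q + 1) * K) *
        ((1 / ((q : ℝ) + 1)) ^ K * (q / ((q : ℝ) + 1) * ε) ^ (q * K)))) := by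
    have h5 := h1.trans h2
    rw [← h3] at h5
    have hpos : (0 : ℝ) < (((q + 1) * K).choose K : ℝ) * (1 / ((q : ℝ) + 1)) ^ K *
        (q / ((q : ℝ) + 1) * ε) ^ (q * K) := by
      positivity
    rw [← le_div_iff₀' hpos] at h5
    refine h5.trans_eq ?_
    field_simp
  have hf1 := upper_log_factorial_le hK
  have hf2 := upper_log_factorial_le (n := q * K) (Nat.mul_pos hq1 hK)
  have h6 := Real.log_le_log hΨ h4
  have hq1' : (0 : ℝ) < (q : ℝ) + 1 := by positivity
  rw [Real.log_mul (by positivity) (by positivity), Real.log_mul (by positivity) (by positivity),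
    Real.log_div (by positivity) (by positivity), Real.log_mul (by positivity) (by positivity),
    Real.log_mul (by positivity) (by positivity), Real.log_mul (by positivity) (by positivity),
    Real.log_pow, Real.log_pow, Real.log_pow, Real.log_pow, Real.log_pow,
    Real.log_mul (by positivity) he.ne', Real.log_div hq'.ne' hq1'.ne',
    Real.log_div one_ne_zero hq1'.ne', Real.log_one, hz, Real.log_div hlam.ne' he.ne',
    Real.log_mul hα.ne' (by positivity)] at h6
  rw [hrho, Real.log_mul (by positivity) (by positivity),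
    Real.log_mul (by positivity) (by positivity), Real.log_exp, Real.log_rpow he,
    Real.log_mul hα.ne' hN'.ne']
  push_cast at h6 hf2 ⊢
  rw [Real.log_mul hq'.ne' hK'.ne'] at hf2
  nlinarith [h6, hf1, hf2]

theorem psi_upper (M : FM) {p : ℕ} (hp : Even p) (hp2 : 2 ≤ p) {α : ℝ} (hα : 0 < α) {Ξ : Type}
    [Fintype Ξ] [Nonempty Ξ] {D : ℕ} (hD : 1 ≤ D) (X : Filt Ξ D) (σ : Ξ → Bool) {γ : ℕ → ℝ}
    (hγ : Adm γ) {κ : ℝ} (hκ : 0 < κ) :
    ∀ᶠ N : ℕ in atTop, Real.log (M.Psi p (∏ d ∈ range D, γ d) N ⌊α * N⌋₊) ≤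
      N * (Real.log (rho M p α X σ γ) + κ) := by
  obtain ⟨q, rfl⟩ : ∃ q, p = q + 1 := ⟨p - 1, by omega⟩
  have hq1 : 1 ≤ q := by omega
  set C : ℝ := 2 + Real.log q + 2 * Real.log α + (q + 1) +
    |Real.log (edgeE M (q + 1) X σ γ)| with hC
  have t1 : Tendsto (fun N : ℕ => (N : ℝ)) atTop atTop := tendsto_natCast_atTop_atTop
  have ev1 := t1.eventually (Real.isLittleO_log_id_atTop.bound (c := κ / 4) (by positivity))
  have ev2 := t1.eventually_ge_atTop (C / (κ / 2))
  have ev3 := t1.eventually_ge_atTop (1 / α)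
  filter_upwards [ev1, ev2, ev3, eventually_ge_atTop 1] with N h1 h2 h3 hN
  have hN' : (0 : ℝ) < N := by exact_mod_cast hN
  have hαN : 1 ≤ α * N := by rwa [div_le_iff₀' hα] at h3
  set K := ⌊α * N⌋₊ with hK
  have hK1 : 1 ≤ K := Nat.le_floor (by simpa using hαN)
  have hK' : (0 : ℝ) < K := by exact_mod_cast hK1
  have hKle : (K : ℝ) ≤ α * N := Nat.floor_le (by positivity)
  have hKlt : α * N < K + 1 := Nat.lt_floor_add_one _
  have hmain := upper_log_psi_le M hp hq1 hα hD X σ hγ hN hK1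
  have hlog : Real.log K ≤ Real.log (α * N) := Real.log_le_log hK' hKle
  have h4 : ((q : ℝ) + 1) * K * (Real.log K - Real.log (α * N)) ≤ 0 :=
    mul_nonpos_of_nonneg_of_nonpos (by positivity) (by linarith)
  have h5 : ((q : ℝ) + 1) * (α * N - K) ≤ q + 1 :=
    mul_le_of_le_one_right (by positivity) (by linarith)
  have h6 : (K - α * N) * Real.log (edgeE M (q + 1) X σ γ) ≤
      |Real.log (edgeE M (q + 1) X σ γ)| := by
    refine (le_abs_self _).trans ?_
    rw [abs_mul]
    exact mul_le_of_le_one_left (abs_nonneg _) (abs_le.2 ⟨by linarith, by linarith⟩)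
  rw [Real.log_mul hα.ne' hN'.ne'] at hlog
  simp only [id, Real.norm_eq_abs, abs_of_pos hN'] at h1
  have h7 : Real.log N ≤ κ / 4 * N := (le_abs_self _).trans h1
  rw [div_le_iff₀ (by positivity)] at h2
  nlinarith

end Crest.Agent.R141
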