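import Mathlib
import Crest.Agent.R141.Upper
import Crest.Agent.R141.Lower
import Crest.Agent.R141.Rho
import Crest.Agent.R141.Bridge
import Crest.Agent.R141.FinForm

/-!
Row 141: the theorem for finite models.
-/

set_option autoImplicit false

namespace Crest.Agent.R141

open Finset MeasureTheory Filter Topology Crest.Agent.R153 Crest.ProbabilityR.Diluted

lemma fin_series_close {lam c : ℝ} (hl : 0 ≤ lam) {ε : ℝ} (hε : 0 < ε) : ∃ L : ℕ,
    ∀ t t' : ℕ → ℝ, (∀ K, |t K| ≤ c * ((K : ℝ) + 1)) → (∀ K, |t' K| ≤ c * ((K : ℝ) + 1)) →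
      (∀ K, K ≤ L → |t K - t' K| ≤ ε) →
      |(∑' K, poissonWeight lam K * t K) - ∑' K, poissonWeight lam K * t' K| ≤ 2 * ε := by
  set u : ℕ → ℝ := fun K => poissonWeight lam K * (2 * |c| * ((K : ℝ) + 1)) with hu
  have hus : Summable u := summable_poisson_of_linear hl (A := 2 * |c|) fun K =>
    le_of_eq (abs_of_nonneg (by positivity))
  obtain ⟨L, hL⟩ := eventually_atTop.1 ((tendsto_sum_nat_add u).eventually_lt_const hε)
  refine ⟨L, fun t t' ht ht' hc => ?_⟩
  have s1 := summable_poisson_of_linear hl ht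
  have s2 := summable_poisson_of_linear hl ht'
  have hw := poissonWeight_nonneg hl
  have hd : ∀ K, |t K - t' K| ≤ 2 * |c| * ((K : ℝ) + 1) := by
    intro K
    have h1 : c * ((K : ℝ) + 1) ≤ |c| * ((K : ℝ) + 1) :=
      mul_le_mul_of_nonneg_right (le_abs_self c) (by positivity)
    have := abs_sub (t K) (t' K)
    linarith [ht K, ht' K]
  have s3 : Summable fun K => poissonWeight lam K * |t K - t' K| :=
    summable_poisson_of_linear hl (A := 2 * |c|) fun K => by rw [abs_abs]; exact hd K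
  rw [← s1.tsum_sub s2]
  have h1 : |∑' K, (poissonWeight lam K * t K - poissonWeight lam K * t' K)| ≤
      ∑' K, poissonWeight lam K * |t K - t' K| := by
    have e : ∀ K, ‖poissonWeight lam K * t K - poissonWeight lam K * t' K‖ =
        poissonWeight lam K * |t K - t' K| := fun K => by
      rw [← mul_sub, Real.norm_eq_abs, abs_mul, abs_of_nonneg (hw K)]
    have := norm_tsum_le_tsum_norm (f := fun K =>
      poissonWeight lam K * t K - poissonWeight lam K * t' K) (by simpa only [e] using s3)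
    simpa only [e, Real.norm_eq_abs] using this
  refine h1.trans ?_
  rw [← s3.sum_add_tsum_nat_add L]
  have h2 : ∑ K ∈ range L, poissonWeight lam K * |t K - t' K| ≤ ε := by
    calc _ ≤ ∑ K ∈ range L, poissonWeight lam K * ε := Finset.sum_le_sum fun K hK =>
          mul_le_mul_of_nonneg_left (hc K (Finset.mem_range.1 hK).le) (hw K)
      _ ≤ 1 * ε := by
          rw [← Finset.sum_mul]
          exact mul_le_mul_of_nonneg_right
            (sum_le_hasSum _ (fun K _ => hw K) (hasSum_poisson lam)) hε.le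
      _ = ε := one_mul _
  have h3 : ∑' K, poissonWeight lam (K + L) * |t (K + L) - t' (K + L)| ≤ ∑' K, u (K + L) :=
    Summable.tsum_le_tsum (fun K => mul_le_mul_of_nonneg_left (hd _) (hw _))
      ((summable_nat_add_iff L).2 s3) ((summable_nat_add_iff L).2 hus)
  linarith [hL L le_rfl]

lemma abs_av_sub_le {T : Type} [Fintype T] [Nonempty T] {f g : T → ℝ} {ε : ℝ}
    (h : ∀ t, |f t - g t| ≤ ε) : |av f - av g| ≤ ε := by
  rw [← av_sub]; exact (abs_av_le _).trans (av_le_of_le h)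

lemma abs_av_le_of_le {T : Type} [Fintype T] [Nonempty T] {f : T → ℝ} {ε : ℝ}
    (h : ∀ t, |f t| ≤ ε) : |av f| ≤ ε := (abs_av_le _).trans (av_le_of_le h)

lemma exp_mem_mono {a a' x : ℝ} (h : a ≤ a') (hx : Real.exp (-a) ≤ x ∧ x ≤ Real.exp a) :
    Real.exp (-a') ≤ x ∧ x ≤ Real.exp a' :=
  ⟨(Real.exp_le_exp.2 (neg_le_neg h)).trans hx.1, hx.2.trans (Real.exp_le_exp.2 h)⟩

/-- Closeness of the two cavity functionals from closeness on boundedly many spins. -/
lemma Bm_Bfin_close (M : FM) {p : ℕ} (hp : 1 ≤ p) {α : ℝ} (hα : 0 < α) {δ : ℝ} (hδ : 0 < δ) :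
    ∃ (a ε : ℝ) (L : ℕ), 0 < ε ∧ ∀ (r : ℕ) (m : Fin r → ℝ) (X : (Fin (r + 1) → unitInterval) → ℝ)
      (D : ℕ) (Ξ : Type) [Fintype Ξ] [Nonempty Ξ] (Y : Filt Ξ D) (σ : Ξ → Bool) (γ : ℕ → ℝ),
      AdmissibleExponents m → Measurable X → Adm γ →
      (∀ (Λ : Type) [Fintype Λ] [DecidableEq Λ], Fintype.card Λ ≤ L → ∀ v : (Λ → Bool) → ℝ,
        (∀ s, Real.exp (-a) ≤ v s ∧ v s ≤ Real.exp a) → |mT r m X v - lgV Y σ γ v| ≤ ε) →
      |Bm M p α r m X - Bfin M p α Y σ γ| ≤ δ := by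
  have hp' : (1 : ℝ) ≤ p := by exact_mod_cast hp
  have hq : 0 ≤ α * (p - 1 : ℝ) := mul_nonneg hα.le (by linarith)
  set ε : ℝ := δ / (2 + α * (p - 1 : ℝ)) with hε
  have hε0 : 0 < ε := by positivity
  obtain ⟨L, hL⟩ := fin_series_close (lam := α * p) (c := M.c) (by positivity) hε0
  refine ⟨M.c * (L + 1), ε, (L + 1) * p, hε0, ?_⟩
  intro r m X D Ξ _ _ Y σ γ hm hX hγ hcl
  have hm0 : ∀ d, 0 < m d := fun d => (hm.2 d).1
  have hc := M.c_nonneg
  have h1 := hL (fun K => av fun cs : Fin K → M.Cl p => av fun v : M.Fl => mT r m X (M.siteV v cs))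
    (fun K => av fun cs : Fin K → M.Cl p => av fun v : M.Fl => lgV Y σ γ (M.siteV v cs))
    (fun K => abs_av_le_of_le fun cs => abs_av_le_of_le fun v =>
      abs_mT_le hm0 hX (M.siteV_mem v cs))
    (fun K => abs_av_le_of_le fun cs => abs_av_le_of_le fun v =>
      abs_lgV_le Y σ hγ (M.siteV_mem v cs))
    (fun K hK => abs_av_sub_le fun cs => abs_av_sub_le fun v => hcl _ (by
      rw [Fintype.card_prod, Fintype.card_fin, Fintype.card_fin]
      exact Nat.mul_le_mul (by omega) (by omega)) _ fun s => exp_mem_mono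
        (mul_le_mul_of_nonneg_left (by exact_mod_cast (by omega : K + 1 ≤ L + 1)) hc)
        (M.siteV_mem v cs s))
  have h2 : |(av fun c : M.Cl p => mT r m X (M.cw c)) - av fun c : M.Cl p => lgV Y σ γ (M.cw c)| ≤
      ε := abs_av_sub_le fun c => hcl _ (by
        rw [Fintype.card_fin]; exact Nat.le_mul_of_pos_left _ (Nat.succ_pos L)) _ fun s =>
      exp_mem_mono (le_mul_of_one_le_right hc (by
        have : (0 : ℝ) ≤ L := Nat.cast_nonneg L
        linarith)) (M.cw_mem c s)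
  have h3 : δ = 2 * ε + α * (p - 1 : ℝ) * ε := by rw [hε]; field_simp
  have h4 := mul_le_mul_of_nonneg_left h2 hq
  rw [← abs_of_nonneg hq, ← abs_mul, abs_of_nonneg hq, mul_sub] at h4
  unfold Bm Bfin
  rw [abs_le] at h1 h4 ⊢
  constructor <;> linarith [h1.1, h1.2, h4.1, h4.2]

theorem fin_bdd (M : FM) {p : ℕ} (hp : 1 ≤ p) {α : ℝ} (hα : 0 < α) : ∃ C : ℝ,
    ∀ (r : ℕ) (m : Fin r → ℝ) (X : (Fin (r + 1) → unitInterval) → ℝ), AdmissibleExponents m →
      Measurable X → C ≤ trialFunctional p α (M.mu p) M.nu r m X := by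
  have hp' : (1 : ℝ) ≤ p := by exact_mod_cast hp
  have hq : 0 ≤ α * (p - 1 : ℝ) := mul_nonneg hα.le (by linarith)
  have hl : 0 ≤ α * p := by positivity
  refine ⟨Real.log 2 - M.c * (α * p + 1) - α * (p - 1 : ℝ) * M.c, fun r m X hm hX => ?_⟩
  have hm0 : ∀ d, 0 < m d := fun d => (hm.2 d).1
  rw [trial_fin]
  unfold Bm
  have ht : ∀ K : ℕ, |av fun cs : Fin K → M.Cl p => av fun v : M.Fl => mT r m X (M.siteV v cs)| ≤
      M.c * ((K : ℝ) + 1) := fun K => abs_av_le_of_le fun cs => abs_av_le_of_le fun v =>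
    abs_mT_le hm0 hX (M.siteV_mem v cs)
  have h1 := hasSum_le (f := fun K : ℕ => -M.c * (poissonWeight (α * p) K * K +
      poissonWeight (α * p) K)) (fun K => by
      have := mul_le_mul_of_nonneg_left (abs_le.1 (ht K)).1 (poissonWeight_nonneg hl K)
      linarith)
    (((hasSum_poisson_mean (α * p)).add (hasSum_poisson (α * p))).mul_left (-M.c))
    (summable_poisson_of_linear hl ht).hasSum
  have h2 : (av fun c : M.Cl p => mT r m X (M.cw c)) ≤ M.c :=
    av_le_of_le fun c => (abs_le.1 (abs_mT_le hm0 hX (M.cw_mem c))).2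
  have h3 := mul_le_mul_of_nonneg_left h2 hq
  linarith

theorem fin_upper (M : FM) {p : ℕ} (hp : Even p) (hp2 : 2 ≤ p) {α : ℝ} (hα : 0 < α) {r : ℕ}
    {m : Fin r → ℝ} {X : (Fin (r + 1) → unitInterval) → ℝ} (hm : AdmissibleExponents m)
    (hX : Measurable X) {δ : ℝ} (hδ : 0 < δ) :
    ∀ᶠ N : ℕ in atTop,
      pressure p α (M.mu p) M.nu N ≤ trialFunctional p α (M.mu p) M.nu r m X + δ := by
  obtain ⟨C, hC0, hC⟩ := rho_Bfin M p hα
  obtain ⟨a, ε, L, hε, hcl⟩ := Bm_Bfin_close M (show 1 ≤ p by omega) hα (show 0 < δ / 4 by positivity)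
  obtain ⟨D, Ξ, _, _, Y, σ, γ, hD, hγ, hm₀, hb⟩ := bridge_to_fin r m X hm hX a hε
    (show 0 < δ / 4 / (C + 1) by positivity) L
  have h1 := abs_le.1 (hcl r m X D Ξ Y σ γ hm hX hγ hb)
  have h2 := abs_le.1 (hC D Ξ Y σ γ hγ)
  set μ0 := ∏ d ∈ range D, γ d with hμ0
  have hμ : 0 < μ0 := Filt.adm_prod_pos hγ _
  filter_upwards [psi_upper M hp hp2 hα hD Y σ hγ (show 0 < μ0 * (δ / 4) by positivity),
    poisson_gl M p hα (show 0 < δ / 4 by positivity), eventually_ge_atTop 1] with N h3 h4 hN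
  have hN' : (0 : ℝ) < N := by exact_mod_cast hN
  have h5 := gl_le_psi M p hμ hN ⌊α * N⌋₊
  rw [pressure_fin M p hα hN, trial_fin]
  have h6 : C * μ0 ≤ δ / 4 := by
    rw [le_div_iff₀ (by positivity)] at hm₀
    nlinarith
  have h7 : M.gl p N ⌊α * N⌋₊ ≤ N * (Bfin M p α Y σ γ + δ / 2) := by
    refine le_of_mul_le_mul_left (h5.trans (h3.trans ?_)) hμ
    have : Real.log (rho M p α Y σ γ) + μ0 * (δ / 4) ≤ μ0 * (Bfin M p α Y σ γ + δ / 2) := by
      nlinarith [h2.2]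
    nlinarith
  have h8 : (∑' K : ℕ, poissonWeight (α * N) K * M.gl p N K) ≤ N * (Bm M p α r m X + δ) := by
    have := (abs_le.1 h4).2
    nlinarith [h1.1]
  rw [one_div, add_assoc]
  refine add_le_add_right ?_ _
  rw [inv_mul_le_iff₀ hN']
  exact h8

theorem fin_lower (M : FM) {p : ℕ} (hp2 : 2 ≤ p) {α : ℝ} (hα : 0 < α) {L : ℝ}
    (hL : ∀ (r : ℕ) (m : Fin r → ℝ) (X : (Fin (r + 1) → unitInterval) → ℝ),
      AdmissibleExponents m → Measurable X → L ≤ trialFunctional p α (M.mu p) M.nu r m X)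
    {δ : ℝ} (hδ : 0 < δ) : ∀ᶠ N : ℕ in atTop, L - δ ≤ pressure p α (M.mu p) M.nu N := by
  obtain ⟨C, hC0, hC⟩ := rho_Bfin M p hα
  obtain ⟨C', hC'0, hC'⟩ := psi_le_gl M
  obtain ⟨a, ε, L', hε, hcl⟩ := Bm_Bfin_close M (show 1 ≤ p by omega) hα
    (show 0 < δ / 5 by positivity)
  set m : ℝ := min (1 / 2) (δ / 5 / (C + C' * (α + 1) + 1)) with hm
  have hm0 : 0 < m := lt_min (by norm_num) (by positivity)
  have hm1 : m < 1 := (min_le_left _ _).trans_lt (by norm_num)
  have hm2 : m * (C + C' * (α + 1) + 1) ≤ δ / 5 :=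
    (le_div_iff₀ (by positivity)).1 (min_le_right _ _)
  have hm3 : 0 ≤ m * C := by positivity
  have hm4 : 0 ≤ m * (C' * (α + 1)) := by positivity
  have hlow := psi_lower M hp2 hα (L := m * (L - Real.log 2 - 2 * (δ / 5))) hm0 hm1
    (fun D Ξ _ _ Y σ γ hD hγ hprod => by
      obtain ⟨r, m', X, hm', hX, hb⟩ := bridge_to_meas Y σ hD hγ a hε L'
      have h1 := abs_le.1 (hcl r m' X D Ξ Y σ γ hm' hX hγ hb)
      have h2 := abs_le.1 (hC D Ξ Y σ γ hγ)
      have h3 := hL r m' X hm' hX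
      rw [trial_fin] at h3
      rw [hprod] at h2
      have h4 : m * (L - Real.log 2 - δ / 5) ≤ m * Bfin M p α Y σ γ :=
        mul_le_mul_of_nonneg_left (by linarith [h1.2]) hm0.le
      have h5 : m * (m * C) ≤ m * (δ / 5) := mul_le_mul_of_nonneg_left (by linarith) hm0.le
      nlinarith [h2.1]) (show 0 < m * (δ / 5) by positivity)
  filter_upwards [hlow, poisson_gl M p hα (show 0 < δ / 5 by positivity),
    eventually_ge_atTop 1] with N h3 h4 hN
  have hN' : (0 : ℝ) < N := by exact_mod_cast hN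
  have h5 := hC' p m N ⌊α * N⌋₊ hm0 hm1.le hN
  have h6 : (⌊α * N⌋₊ : ℝ) ≤ α * N := Nat.floor_le (by positivity)
  have h7 : C' * m ^ 2 * ((⌊α * N⌋₊ : ℝ) + N) ≤ m * (N * (δ / 5)) := by
    calc C' * m ^ 2 * ((⌊α * N⌋₊ : ℝ) + N) ≤ C' * m ^ 2 * (α * N + N) :=
          mul_le_mul_of_nonneg_left (by linarith) (by positivity)
      _ = m * (N * (m * (C' * (α + 1)))) := by ring
      _ ≤ _ := mul_le_mul_of_nonneg_left
          (mul_le_mul_of_nonneg_left (by linarith) hN'.le) hm0.le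
  have h8 : N * (L - Real.log 2 - 4 * (δ / 5)) ≤ M.gl p N ⌊α * N⌋₊ := by
    refine le_of_mul_le_mul_left ?_ hm0
    nlinarith
  rw [pressure_fin M p hα hN, one_div]
  have h9 : L - δ - Real.log 2 ≤ (N : ℝ)⁻¹ * ∑' K : ℕ, poissonWeight (α * N) K * M.gl p N K := by
    rw [le_inv_mul_iff₀ hN']
    have := (abs_le.1 h4).1
    nlinarith
  linarith

end Crest.Agent.R141
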