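import Mathlib
import Crest.Agent.R141.MT

/-!
Row 141: the cavity functional is Lipschitz in the disorder.
-/

set_option autoImplicit false

namespace Crest.Agent.R141

open Finset MeasureTheory Filter Crest.Agent.R153 Crest.ProbabilityR.Diluted

lemma lipB_supNorm_eq {p : ℕ} (θ : Inter p) : supNorm θ = ‖θ‖ := by
  refine le_antisymm (ciSup_le fun s => norm_le_pi_norm θ s) ?_
  refine (pi_norm_le_iff_of_nonneg (Real.iSup_nonneg fun _ => abs_nonneg _)).2 fun s => ?_
  exact le_ciSup (f := fun s => |θ s|) (Finite.bddAbove_range _) s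

lemma lipB_abs_le {p : ℕ} (θ : Inter p) (s : Fin p → Bool) : |θ s| ≤ supNorm θ := by
  rw [lipB_supNorm_eq]
  exact norm_le_pi_norm θ s

lemma lipB_supNorm_symm {p : ℕ} (θ θ' : Inter p) (c : ℝ) :
    supNorm (fun s => θ' s - θ s - -c) = supNorm (fun s => θ s - θ' s - c) := by
  unfold supNorm
  congr 1
  funext s
  rw [← abs_neg]
  congr 1
  ring

lemma lipB_mp {A B : Type} [MeasurableSpace A] [MeasurableSpace B] {Q : Measure A} {P : Measure B}
    {φ : A → B} (hφ : MeasurePreserving φ Q P) {f : B → ℝ} (hf : Integrable f P) :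
    Integrable (fun z => f (φ z)) Q ∧ ∫ z, f (φ z) ∂Q = ∫ ω, f ω ∂P := by
  refine ⟨hφ.integrable_comp_of_integrable hf, ?_⟩
  rw [← hφ.map_eq, integral_map hφ.measurable.aemeasurable]
  rw [hφ.map_eq]
  exact hf.aestronglyMeasurable

lemma lipB_integrable_D {p : ℕ} {Ω : Type} [MeasurableSpace Ω] (P : Measure Ω)
    {θ θ' : Ω → Inter p} {c : Ω → ℝ} (hθ : Measurable θ) (hθ' : Measurable θ')
    (iθ : Integrable (fun ω => supNorm (θ ω)) P) (iθ' : Integrable (fun ω => supNorm (θ' ω)) P)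
    (ic : Integrable c P) : Integrable (fun ω => supNorm (fun s => θ ω s - θ' ω s - c ω)) P := by
  simp only [lipB_supNorm_eq] at iθ iθ' ⊢
  have h1 : Integrable θ P := (integrable_norm_iff hθ.aestronglyMeasurable).1 iθ
  have h2 : Integrable θ' P := (integrable_norm_iff hθ'.aestronglyMeasurable).1 iθ'
  have h3 : Integrable (fun ω => fun _ : Fin p → Bool => c ω) P :=
    integrable_pi_iff.2 fun _ => ic
  exact ((h1.sub h2).sub h3).norm

section couple
variable {p K : ℕ} {G : (Fin K → Inter p) → ℝ → ℝ}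

lemma lipB_continuous
    (hG : ∀ (θs θs' : Fin K → Inter p) (h h' : ℝ) (c : Fin K → ℝ),
      |G θs h - G θs' h' - ∑ k, c k| ≤ ∑ k, supNorm (fun s => θs k s - θs' k s - c k) + |h - h'|) :
    Continuous (Function.uncurry G) := by
  refine (LipschitzWith.of_dist_le' (K := (K : ℝ) + 1) fun x y => ?_).continuous
  have h1 := hG x.1 y.1 x.2 y.2 fun _ => 0
  simp only [Finset.sum_const_zero, sub_zero] at h1
  rw [Real.dist_eq]
  refine h1.trans ?_
  have h2 : ∀ k, supNorm (fun s => x.1 k s - y.1 k s) ≤ dist x y := fun k => by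
    rw [lipB_supNorm_eq]
    calc ‖fun s => x.1 k s - y.1 k s‖ = dist (x.1 k) (y.1 k) := (dist_eq_norm _ _).symm
      _ ≤ dist x.1 y.1 := dist_le_pi_dist _ _ k
      _ ≤ dist x y := le_max_left _ _
  have h3 : |x.2 - y.2| ≤ dist x y := le_max_right (dist x.1 y.1) (dist x.2 y.2)
  have h4 := Finset.sum_le_sum fun k (_ : k ∈ (univ : Finset (Fin K))) => h2 k
  rw [Finset.sum_const, card_univ, Fintype.card_fin, nsmul_eq_mul] at h4
  linarith

variable {Ω Ω' : Type} [MeasurableSpace Ω] [MeasurableSpace Ω']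
  (P : Measure Ω) [IsProbabilityMeasure P] (P' : Measure Ω') [IsProbabilityMeasure P']

lemma lipB_mp_fst (k : Fin K) : MeasurePreserving (fun z : (Fin K → Ω) × Ω' => z.1 k)
    ((Measure.pi fun _ : Fin K => P).prod P') P :=
  (measurePreserving_eval (fun _ : Fin K => P) k).comp measurePreserving_fst

lemma lipB_sum_add {f : Ω → ℝ} {g : Ω' → ℝ} (hf : Integrable f P) (hg : Integrable g P') :
    Integrable (fun z : (Fin K → Ω) × Ω' => ∑ k, f (z.1 k) + g z.2)
      ((Measure.pi fun _ : Fin K => P).prod P') ∧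
    ∫ z : (Fin K → Ω) × Ω', (∑ k, f (z.1 k) + g z.2) ∂((Measure.pi fun _ : Fin K => P).prod P')
      = K * ∫ ω, f ω ∂P + ∫ ω, g ω ∂P' := by
  have h1 := fun k : Fin K => lipB_mp (lipB_mp_fst P P' k) hf
  have h2 := lipB_mp (measurePreserving_snd (μ := Measure.pi fun _ : Fin K => P) (ν := P')) hg
  have h3 := integrable_finsetSum univ fun k _ => (h1 k).1
  refine ⟨h3.add h2.1, ?_⟩
  rw [integral_add h3 h2.1, h2.2, integral_finsetSum _ fun k _ => (h1 k).1]
  simp only [(h1 _).2, Finset.sum_const, card_univ, Fintype.card_fin, nsmul_eq_mul]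

lemma lipB_pull (hG : Continuous (Function.uncurry G))
    (hB : ∀ θs h, |G θs h| ≤ ∑ k, supNorm (θs k) + |h|)
    {θ : Ω → Inter p} {h : Ω' → ℝ} (hθ : Measurable θ) (hh : Measurable h)
    (iθ : Integrable (fun ω => supNorm (θ ω)) P) (ih : Integrable h P') :
    Integrable (fun z : (Fin K → Ω) × Ω' => G (fun k => θ (z.1 k)) (h z.2))
      ((Measure.pi fun _ : Fin K => P).prod P') ∧
    ∫ θs, ∫ x, G θs x ∂(P'.map h) ∂(Measure.pi fun _ : Fin K => P.map θ) =
      ∫ z : (Fin K → Ω) × Ω', G (fun k => θ (z.1 k)) (h z.2)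
        ∂((Measure.pi fun _ : Fin K => P).prod P') := by
  have hΘ : Measurable fun (x : Fin K → Ω) (k : Fin K) => θ (x k) :=
    measurable_pi_lambda _ fun k => hθ.comp (measurable_pi_apply k)
  have hm : Measurable fun z : (Fin K → Ω) × Ω' => G (fun k => θ (z.1 k)) (h z.2) :=
    hG.measurable.comp ((hΘ.comp measurable_fst).prodMk (hh.comp measurable_snd))
  have hi : Integrable (fun z : (Fin K → Ω) × Ω' => G (fun k => θ (z.1 k)) (h z.2))
      ((Measure.pi fun _ : Fin K => P).prod P') :=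
    (lipB_sum_add P P' iθ ih.abs).1.mono' hm.aestronglyMeasurable
      (Eventually.of_forall fun z => hB _ _)
  refine ⟨hi, ?_⟩
  rw [integral_prod _ hi, ← Measure.pi_map_pi (f := fun _ : Fin K => θ) fun _ => hθ.aemeasurable,
    integral_map hΘ.aemeasurable
      (hG.stronglyMeasurable.integral_prod_right (ν := P'.map h)).aestronglyMeasurable]
  refine integral_congr_ae (Eventually.of_forall fun x => ?_)
  exact integral_map hh.aemeasurable
    (hG.comp (Continuous.prodMk_right _)).aestronglyMeasurable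

lemma lipB_couple
    (hG : ∀ (θs θs' : Fin K → Inter p) (h h' : ℝ) (c : Fin K → ℝ),
      |G θs h - G θs' h' - ∑ k, c k| ≤ ∑ k, supNorm (fun s => θs k s - θs' k s - c k) + |h - h'|)
    (hB : ∀ θs h, |G θs h| ≤ ∑ k, supNorm (θs k) + |h|)
    {θ θ' : Ω → Inter p} {c : Ω → ℝ} {h h' : Ω' → ℝ} (hθ : Measurable θ) (hθ' : Measurable θ')
    (hh : Measurable h) (hh' : Measurable h')
    (iθ : Integrable (fun ω => supNorm (θ ω)) P) (iθ' : Integrable (fun ω => supNorm (θ' ω)) P)
    (ic : Integrable c P) (ih : Integrable h P') (ih' : Integrable h' P') :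
    |∫ θs, ∫ x, G θs x ∂(P'.map h) ∂(Measure.pi fun _ : Fin K => P.map θ) -
      ∫ θs, ∫ x, G θs x ∂(P'.map h') ∂(Measure.pi fun _ : Fin K => P.map θ') -
      K * ∫ ω, c ω ∂P| ≤
      K * ∫ ω, supNorm (fun s => θ ω s - θ' ω s - c ω) ∂P + ∫ ω, |h ω - h' ω| ∂P' := by
  have hc := lipB_continuous hG
  obtain ⟨i1, e1⟩ := lipB_pull P P' hc hB hθ hh iθ ih
  obtain ⟨i2, e2⟩ := lipB_pull P P' hc hB hθ' hh' iθ' ih'
  obtain ⟨i3, e3⟩ := lipB_sum_add (K := K) P P' ic (integrable_zero Ω' ℝ P')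
  obtain ⟨i4, e4⟩ := lipB_sum_add (K := K) P P' (lipB_integrable_D P hθ hθ' iθ iθ' ic)
    (ih.sub ih').abs
  simp only [Pi.zero_apply, add_zero, integral_zero] at i3 e3
  simp only [Pi.sub_apply] at i4 e4
  rw [e1, e2, ← e3, ← e4, ← integral_sub i1 i2, ← integral_sub (i1.sub' i2) i3]
  rw [← Real.norm_eq_abs]
  exact norm_integral_le_of_norm_le i4 (Eventually.of_forall fun z => hG _ _ _ _ _)

lemma lipB_bound
    (hG : ∀ (θs θs' : Fin K → Inter p) (h h' : ℝ) (c : Fin K → ℝ),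
      |G θs h - G θs' h' - ∑ k, c k| ≤ ∑ k, supNorm (fun s => θs k s - θs' k s - c k) + |h - h'|)
    (hB : ∀ θs h, |G θs h| ≤ ∑ k, supNorm (θs k) + |h|)
    {θ : Ω → Inter p} {h : Ω' → ℝ} (hθ : Measurable θ) (hh : Measurable h)
    (iθ : Integrable (fun ω => supNorm (θ ω)) P) (ih : Integrable h P') :
    |∫ θs, ∫ x, G θs x ∂(P'.map h) ∂(Measure.pi fun _ : Fin K => P.map θ)| ≤
      K * ∫ ω, supNorm (θ ω) ∂P + ∫ ω, |h ω| ∂P' := by
  obtain ⟨-, e1⟩ := lipB_pull P P' (lipB_continuous hG) hB hθ hh iθ ih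
  obtain ⟨i4, e4⟩ := lipB_sum_add (K := K) P P' iθ ih.abs
  rw [e1, ← e4, ← Real.norm_eq_abs]
  exact norm_integral_le_of_norm_le i4 (Eventually.of_forall fun z => hB _ _)

end couple

section weights
variable {p K r : ℕ} {m : Fin r → ℝ} {X : (Fin (r + 1) → unitInterval) → ℝ}

lemma lipB_vSite_pos (h : ℝ) (θs : Fin K → Inter p) (s : Fin K × Fin (p - 1) → Bool) :
    0 < vSite h θs s := av_pos fun _ => Real.exp_pos _

lemma lipB_vSite_le (θs θs' : Fin K → Inter p) (h h' : ℝ) (c : Fin K → ℝ)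
    (s : Fin K × Fin (p - 1) → Bool) :
    vSite h θs s ≤ Real.exp (∑ k, c k + (∑ k, supNorm (fun s => θs k s - θs' k s - c k) + |h - h'|))
      * vSite h' θs' s := by
  unfold vSite
  rw [← av_const_mul]
  refine av_mono fun ε => ?_
  rw [← Real.exp_add, Real.exp_le_exp]
  have h1 : (h - h') * spinVal ε ≤ |h - h'| := by
    refine (le_abs_self _).trans (le_of_eq ?_)
    rw [abs_mul, abs_spinVal, mul_one]
  have h2 : ∑ k, θs k (lastExt (fun ℓ => s (k, ℓ)) ε) ≤ ∑ k, (c k +
      supNorm (fun s => θs k s - θs' k s - c k) + θs' k (lastExt (fun ℓ => s (k, ℓ)) ε)) := by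
    refine Finset.sum_le_sum fun k _ => ?_
    have := (le_abs_self _).trans (lipB_abs_le (fun s => θs k s - θs' k s - c k)
      (lastExt (fun ℓ => s (k, ℓ)) ε))
    linarith
  rw [Finset.sum_add_distrib, Finset.sum_add_distrib] at h2
  linarith

lemma lipB_site (hm : ∀ d, 0 < m d) (hX : Measurable X) (θs θs' : Fin K → Inter p) (h h' : ℝ)
    (c : Fin K → ℝ) :
    |mT r m X (vSite h θs) - mT r m X (vSite h' θs') - ∑ k, c k| ≤
      ∑ k, supNorm (fun s => θs k s - θs' k s - c k) + |h - h'| := by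
  have h1 := mT_le hm hX (lipB_vSite_pos h θs) (lipB_vSite_pos h' θs')
    (lipB_vSite_le θs θs' h h' c)
  have h2 := mT_le hm hX (lipB_vSite_pos h' θs') (lipB_vSite_pos h θs)
    (lipB_vSite_le θs' θs h' h fun k => -c k)
  simp only [lipB_supNorm_symm, Finset.sum_neg_distrib] at h2
  rw [abs_sub_comm h' h] at h2
  rw [abs_le]
  constructor <;> linarith

lemma lipB_site_bound (hm : ∀ d, 0 < m d) (hX : Measurable X) (θs : Fin K → Inter p) (h : ℝ) :
    |mT r m X (vSite h θs)| ≤ ∑ k, supNorm (θs k) + |h| := by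
  refine abs_mT_le hm hX fun s => ?_
  have key : ∀ ε, |h * spinVal ε + ∑ j, θs j (lastExt (fun ℓ => s (j, ℓ)) ε)| ≤
      ∑ k, supNorm (θs k) + |h| := fun ε => by
    refine (abs_add_le _ _).trans ?_
    rw [abs_mul, abs_spinVal, mul_one, add_comm]
    refine add_le_add_left ((Finset.abs_sum_le_sum_abs _ _).trans ?_) _
    exact Finset.sum_le_sum fun k _ => lipB_abs_le _ _
  exact ⟨le_av_of_le fun ε => Real.exp_le_exp.2 (abs_le.1 (key ε)).1,
    av_le_of_le fun ε => Real.exp_le_exp.2 (abs_le.1 (key ε)).2⟩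

lemma lipB_edge (hm : ∀ d, 0 < m d) (hX : Measurable X) (θ θ' : Inter p) (c : ℝ) :
    |mT r m X (vEdge θ) - mT r m X (vEdge θ') - c| ≤ supNorm (fun s => θ s - θ' s - c) := by
  have key : ∀ (θ θ' : Inter p) (c : ℝ), mT r m X (vEdge θ) ≤
      mT r m X (vEdge θ') + (c + supNorm (fun s => θ s - θ' s - c)) := fun θ θ' c => by
    refine mT_le hm hX (fun _ => Real.exp_pos _) (fun _ => Real.exp_pos _) fun s => ?_
    rw [← Real.exp_add, Real.exp_le_exp]
    have := (le_abs_self _).trans (lipB_abs_le (fun s => θ s - θ' s - c) s)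
    linarith
  have h1 := key θ θ' c
  have h2 := key θ' θ (-c)
  rw [lipB_supNorm_symm] at h2
  rw [abs_le]
  constructor <;> linarith

lemma lipB_edge_bound (hm : ∀ d, 0 < m d) (hX : Measurable X) (θ : Inter p) :
    |mT r m X (vEdge θ)| ≤ supNorm θ :=
  abs_mT_le hm hX fun s => ⟨Real.exp_le_exp.2 (abs_le.1 (lipB_abs_le θ s)).1,
    Real.exp_le_exp.2 (abs_le.1 (lipB_abs_le θ s)).2⟩

lemma lipB_edge_continuous (hm : ∀ d, 0 < m d) (hX : Measurable X) :
    Continuous fun θ : Inter p => mT r m X (vEdge θ) := by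
  refine (LipschitzWith.of_dist_le' (K := 1) fun x y => ?_).continuous
  have h1 := lipB_edge hm hX x y 0
  simp only [sub_zero, lipB_supNorm_eq] at h1
  rw [Real.dist_eq, one_mul, dist_eq_norm]
  exact h1

lemma lipB_edge_couple (hm : ∀ d, 0 < m d) (hX : Measurable X) {Ω : Type} [MeasurableSpace Ω]
    (P : Measure Ω) {θ θ' : Ω → Inter p} {c : Ω → ℝ} (hθ : Measurable θ) (hθ' : Measurable θ')
    (iθ : Integrable (fun ω => supNorm (θ ω)) P) (iθ' : Integrable (fun ω => supNorm (θ' ω)) P)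
    (ic : Integrable c P) :
    |∫ t, mT r m X (vEdge t) ∂(P.map θ) - ∫ t, mT r m X (vEdge t) ∂(P.map θ') - ∫ ω, c ω ∂P| ≤
      ∫ ω, supNorm (fun s => θ ω s - θ' ω s - c ω) ∂P := by
  have hc := lipB_edge_continuous (p := p) hm hX
  have i1 : Integrable (fun ω => mT r m X (vEdge (θ ω))) P :=
    iθ.mono' (hc.measurable.comp hθ).aestronglyMeasurable
      (Eventually.of_forall fun ω => lipB_edge_bound hm hX _)
  have i2 : Integrable (fun ω => mT r m X (vEdge (θ' ω))) P :=
    iθ'.mono' (hc.measurable.comp hθ').aestronglyMeasurable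
      (Eventually.of_forall fun ω => lipB_edge_bound hm hX _)
  rw [integral_map hθ.aemeasurable hc.aestronglyMeasurable,
    integral_map hθ'.aemeasurable hc.aestronglyMeasurable, ← integral_sub i1 i2,
    ← integral_sub (i1.sub' i2) ic, ← Real.norm_eq_abs]
  exact norm_integral_le_of_norm_le (lipB_integrable_D P hθ hθ' iθ iθ' ic)
    (Eventually.of_forall fun ω => lipB_edge hm hX _ _ _)

end weights

lemma lipB_poisson {lam : ℝ} (hl : 0 ≤ lam) {A A' : ℕ → ℝ} {a b a' b' C D H : ℝ}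
    (ha : 0 ≤ a) (hb : 0 ≤ b) (ha' : 0 ≤ a') (hb' : 0 ≤ b')
    (hA : ∀ K, |A K| ≤ K * a + b) (hA' : ∀ K, |A' K| ≤ K * a' + b')
    (h : ∀ K, |A K - A' K - K * C| ≤ K * D + H) :
    |∑' K, poissonWeight lam K * A K - ∑' K, poissonWeight lam K * A' K - lam * C| ≤
      lam * D + H := by
  have s1 : Summable fun K => poissonWeight lam K * A K :=
    summable_poisson_of_linear hl (A := a + b) fun K => (hA K).trans (by
      have : (0 : ℝ) ≤ K := Nat.cast_nonneg K
      nlinarith [mul_nonneg this hb])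
  have s2 : Summable fun K => poissonWeight lam K * A' K :=
    summable_poisson_of_linear hl (A := a' + b') fun K => (hA' K).trans (by
      have : (0 : ℝ) ≤ K := Nat.cast_nonneg K
      nlinarith [mul_nonneg this hb'])
  have h1 := (s1.hasSum.sub s2.hasSum).sub ((hasSum_poisson_mean lam).mul_right C)
  have h2 := ((hasSum_poisson_mean lam).mul_right D).add ((hasSum_poisson lam).mul_right H)
  rw [one_mul] at h2
  rw [← Real.norm_eq_abs]
  refine h1.norm_le_of_bounded h2 fun K => ?_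
  have hw := poissonWeight_nonneg hl K
  calc ‖poissonWeight lam K * A K - poissonWeight lam K * A' K - poissonWeight lam K * K * C‖
      = poissonWeight lam K * |A K - A' K - K * C| := by
        rw [Real.norm_eq_abs, ← abs_of_nonneg hw, ← abs_mul, abs_of_nonneg hw]
        congr 1
        ring
    _ ≤ poissonWeight lam K * (K * D + H) := mul_le_mul_of_nonneg_left (h K) hw
    _ = _ := by ring

theorem trial_lip {p : ℕ} (hp : 1 ≤ p) {α : ℝ} (hα : 0 < α) {Ω Ω' : Type} [MeasurableSpace Ω] [MeasurableSpace Ω']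
    (P : Measure Ω) [IsProbabilityMeasure P] (P' : Measure Ω') [IsProbabilityMeasure P']
    {θ θ' : Ω → Inter p} {c : Ω → ℝ} {h h' : Ω' → ℝ} (hθ : Measurable θ) (hθ' : Measurable θ')
    (hh : Measurable h) (hh' : Measurable h')
    (iθ : Integrable (fun ω => supNorm (θ ω)) P) (iθ' : Integrable (fun ω => supNorm (θ' ω)) P)
    (ic : Integrable c P) (ih : Integrable h P') (ih' : Integrable h' P')
    {r : ℕ} {m : Fin r → ℝ} {X : (Fin (r + 1) → unitInterval) → ℝ} (hm : ∀ d, 0 < m d)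
    (hX : Measurable X) :
    |trialFunctional p α (P.map θ) (P'.map h) r m X -
        trialFunctional p α (P.map θ') (P'.map h') r m X - α * ∫ ω, c ω ∂P| ≤
      α * (2 * p - 1 : ℝ) * ∫ ω, supNorm (fun s => θ ω s - θ' ω s - c ω) ∂P +
        ∫ ω, |h ω - h' ω| ∂P' := by
  have hp' : (1 : ℝ) ≤ p := by exact_mod_cast hp
  have hs : ∀ t : Inter p, 0 ≤ supNorm t := fun t => by rw [lipB_supNorm_eq]; exact norm_nonneg _
  have h1 := lipB_poisson (lam := α * p) (by positivity)
    (integral_nonneg fun ω => hs (θ ω)) (integral_nonneg fun ω => abs_nonneg (h ω))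
    (integral_nonneg fun ω => hs (θ' ω)) (integral_nonneg fun ω => abs_nonneg (h' ω))
    (fun K => lipB_bound (K := K) (G := fun θs x => mT r m X (vSite x θs)) P P'
      (lipB_site hm hX) (lipB_site_bound hm hX) hθ hh iθ ih)
    (fun K => lipB_bound (K := K) (G := fun θs x => mT r m X (vSite x θs)) P P'
      (lipB_site hm hX) (lipB_site_bound hm hX) hθ' hh' iθ' ih')
    (fun K => lipB_couple (K := K) (G := fun θs x => mT r m X (vSite x θs)) P P'
      (lipB_site hm hX) (lipB_site_bound hm hX) hθ hθ' hh hh' iθ iθ' ic ih ih')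
  have h2 := lipB_edge_couple hm hX P hθ hθ' iθ iθ' ic
  rw [trial_eq, trial_eq]
  generalize (∑' K : ℕ, poissonWeight (α * p) K * ∫ θs, ∫ x, mT r m X (vSite x θs) ∂(P'.map h)
    ∂(Measure.pi fun _ : Fin K => P.map θ)) = S at h1 ⊢
  generalize (∑' K : ℕ, poissonWeight (α * p) K * ∫ θs, ∫ x, mT r m X (vSite x θs) ∂(P'.map h')
    ∂(Measure.pi fun _ : Fin K => P.map θ')) = S' at h1 ⊢
  generalize ∫ t, mT r m X (vEdge t) ∂(P.map θ) = B at h2 ⊢
  generalize ∫ t, mT r m X (vEdge t) ∂(P.map θ') = B' at h2 ⊢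
  generalize ∫ ω, c ω ∂P = C at h1 h2 ⊢
  generalize ∫ ω, supNorm (fun s => θ ω s - θ' ω s - c ω) ∂P = D at h1 h2 ⊢
  generalize ∫ ω, |h ω - h' ω| ∂P' = H at h1 ⊢
  have h3 : 0 ≤ α * (p - 1 : ℝ) := mul_nonneg hα.le (by linarith)
  have h4 : |α * (p - 1 : ℝ) * (B - B' - C)| ≤ α * (p - 1 : ℝ) * D := by
    rw [abs_mul, abs_of_nonneg h3]
    exact mul_le_mul_of_nonneg_left h2 h3
  have e : Real.log 2 + S - α * (p - 1 : ℝ) * B - (Real.log 2 + S' - α * (p - 1 : ℝ) * B') - α * C
      = (S - S' - α * p * C) - α * (p - 1 : ℝ) * (B - B' - C) := by ring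
  rw [e]
  refine (abs_sub _ _).trans ?_
  linarith

end Crest.Agent.R141
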