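import Mathlib
import Crest.Agent.R141.Basic

/-!
Row 141: generic coupling lemma for functionals that are Lipschitz in the interactions and fields.
-/

set_option autoImplicit false

namespace Crest.Agent.R141

open Finset MeasureTheory Filter Crest.Agent.R153 Crest.ProbabilityR.Diluted

lemma lipP_supNorm_eq_norm {p : ℕ} (θ : Inter p) : supNorm θ = ‖θ‖ := by
  unfold supNorm
  refine le_antisymm (ciSup_le fun s => norm_le_pi_norm θ s) ?_
  have h0 : (0 : ℝ) ≤ ⨆ s : Fin p → Bool, |θ s| := Real.iSup_nonneg fun s => abs_nonneg _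
  exact (pi_norm_le_iff_of_nonneg h0).2 fun s =>
    le_ciSup (f := fun s => |θ s|) (Finite.bddAbove_range _) s

lemma lipP_abs_le_supNorm {p : ℕ} (θ : Inter p) (s : Fin p → Bool) : |θ s| ≤ supNorm θ := by
  rw [lipP_supNorm_eq_norm]; exact norm_le_pi_norm θ s

lemma lipP_supNorm_nonneg {p : ℕ} (θ : Inter p) : 0 ≤ supNorm θ := by
  rw [lipP_supNorm_eq_norm]; exact norm_nonneg _

lemma lipP_continuous_supNorm {p : ℕ} : Continuous (supNorm : Inter p → ℝ) := by
  have : (supNorm : Inter p → ℝ) = fun θ => ‖θ‖ := funext lipP_supNorm_eq_norm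
  rw [this]; exact continuous_norm

lemma lipP_supNorm_sub_le {p : ℕ} (θ θ' : Inter p) (c : ℝ) :
    supNorm (fun s => θ s - θ' s - c) ≤ supNorm θ + supNorm θ' + |c| := by
  refine ciSup_le fun s => ?_
  have h1 := lipP_abs_le_supNorm θ s
  have h2 := lipP_abs_le_supNorm θ' s
  calc |θ s - θ' s - c| ≤ |θ s - θ' s| + |c| := abs_sub _ _
    _ ≤ |θ s| + |θ' s| + |c| := by gcongr; exact abs_sub _ _
    _ ≤ _ := by linarith

lemma lipP_integrable_supNorm_sub {p : ℕ} {Ω : Type} [MeasurableSpace Ω] {P : Measure Ω}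
    {θ θ' : Ω → Inter p} {c : Ω → ℝ} (hθ : Measurable θ) (hθ' : Measurable θ')
    (iθ : Integrable (fun ω => supNorm (θ ω)) P) (iθ' : Integrable (fun ω => supNorm (θ' ω)) P)
    (ic : Integrable c P) :
    Integrable (fun ω => supNorm (fun s => θ ω s - θ' ω s - c ω)) P := by
  refine Integrable.mono' ((iθ.add iθ').add ic.abs) ?_ (Eventually.of_forall fun ω => ?_)
  · refine lipP_continuous_supNorm.comp_aestronglyMeasurable ?_
    refine AEMeasurable.aestronglyMeasurable ?_
    refine aemeasurable_pi_lambda _ fun s => ?_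
    exact (((measurable_pi_apply s).comp hθ).aemeasurable.sub
      ((measurable_pi_apply s).comp hθ').aemeasurable).sub ic.aemeasurable
  · rw [Real.norm_eq_abs, abs_of_nonneg (lipP_supNorm_nonneg _)]
    exact lipP_supNorm_sub_le _ _ _

section Coupling

variable {p : ℕ} {ι κ : Type} [Fintype ι] [Fintype κ]
  {Ω Ω' : Type} [MeasurableSpace Ω] [MeasurableSpace Ω']
  (P : Measure Ω) [IsProbabilityMeasure P] (P' : Measure Ω') [IsProbabilityMeasure P']

/-- The Lipschitz property of a functional of interactions and fields. -/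
def LipFun (G : (ι → Inter p) → (κ → ℝ) → ℝ) : Prop :=
  ∀ (θs θs' : ι → Inter p) (hs hs' : κ → ℝ) (cs : ι → ℝ),
    |G θs hs - G θs' hs' - ∑ k, cs k| ≤
      ∑ k, supNorm (fun s => θs k s - θs' k s - cs k) + ∑ i, |hs i - hs' i|

lemma LipFun.abs_le {G : (ι → Inter p) → (κ → ℝ) → ℝ} (hG : LipFun G) (θs : ι → Inter p)
    (hs : κ → ℝ) : |G θs hs| ≤ |G 0 0| + ∑ k, supNorm (θs k) + ∑ i, |hs i| := by
  have h := hG θs 0 hs 0 0
  simp only [Pi.zero_apply, sub_zero, Finset.sum_const_zero] at h
  have h2 := abs_sub_abs_le_abs_sub (G θs hs) (G 0 0)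
  linarith

lemma LipFun.continuous {G : (ι → Inter p) → (κ → ℝ) → ℝ} (hG : LipFun G) :
    Continuous (Function.uncurry G) := by
  refine (LipschitzWith.of_dist_le_mul (K := (Fintype.card ι + Fintype.card κ : ℕ))
    fun x y => ?_).continuous
  have h := hG x.1 y.1 x.2 y.2 0
  simp only [Pi.zero_apply, sub_zero, Finset.sum_const_zero] at h
  rw [Real.dist_eq]
  refine h.trans ?_
  have h1 : ∀ k, supNorm (fun s => x.1 k s - y.1 k s) ≤ dist x y := fun k => by
    rw [lipP_supNorm_eq_norm]
    calc ‖fun s => x.1 k s - y.1 k s‖ = dist (x.1 k) (y.1 k) := by rw [dist_eq_norm]; rfl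
      _ ≤ dist x.1 y.1 := dist_le_pi_dist _ _ k
      _ ≤ dist x y := by rw [Prod.dist_eq]; exact le_max_left _ _
  have h2 : ∀ i, |x.2 i - y.2 i| ≤ dist x y := fun i => by
    calc |x.2 i - y.2 i| = dist (x.2 i) (y.2 i) := by rw [Real.dist_eq]
      _ ≤ dist x.2 y.2 := dist_le_pi_dist _ _ i
      _ ≤ dist x y := by rw [Prod.dist_eq]; exact le_max_right _ _
  have h3 := Finset.sum_le_sum fun k (_ : k ∈ (univ : Finset ι)) => h1 k
  have h4 := Finset.sum_le_sum fun i (_ : i ∈ (univ : Finset κ)) => h2 i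
  simp only [Finset.sum_const, Finset.card_univ, nsmul_eq_mul] at h3 h4
  push_cast
  linarith

/-- A sum of an integrable function of the first coordinates. -/
lemma lipP_integrable_fst {f : Ω → ℝ} (hf : Integrable f P) (k : ι) :
    Integrable (fun ω : (ι → Ω) × (κ → Ω') => f (ω.1 k))
      ((Measure.pi fun _ : ι => P).prod (Measure.pi fun _ : κ => P')) :=
  ((measurePreserving_eval (fun _ : ι => P) k).comp measurePreserving_fst).integrable_comp_of_integrable
    hf

lemma lipP_integrable_snd {f : Ω' → ℝ} (hf : Integrable f P') (i : κ) :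
    Integrable (fun ω : (ι → Ω) × (κ → Ω') => f (ω.2 i))
      ((Measure.pi fun _ : ι => P).prod (Measure.pi fun _ : κ => P')) :=
  ((measurePreserving_eval (fun _ : κ => P') i).comp measurePreserving_snd).integrable_comp_of_integrable
    hf

lemma lipP_integral_comp {X Y : Type} [MeasurableSpace X] [MeasurableSpace Y] {μ : Measure X}
    {ν : Measure Y} {g : X → Y} (hg : MeasurePreserving g μ ν) {f : Y → ℝ}
    (hf : AEStronglyMeasurable f ν) : ∫ x, f (g x) ∂μ = ∫ y, f y ∂ν := by
  rw [← hg.map_eq] at hf ⊢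
  exact (integral_map hg.measurable.aemeasurable hf).symm

lemma lipP_integral_fst {f : Ω → ℝ} (hf : Integrable f P) (k : ι) :
    ∫ ω : (ι → Ω) × (κ → Ω'), f (ω.1 k)
      ∂((Measure.pi fun _ : ι => P).prod (Measure.pi fun _ : κ => P')) = ∫ ω, f ω ∂P :=
  lipP_integral_comp ((measurePreserving_eval (fun _ : ι => P) k).comp measurePreserving_fst)
    hf.aestronglyMeasurable

lemma lipP_integral_snd {f : Ω' → ℝ} (hf : Integrable f P') (i : κ) :
    ∫ ω : (ι → Ω) × (κ → Ω'), f (ω.2 i)
      ∂((Measure.pi fun _ : ι => P).prod (Measure.pi fun _ : κ => P')) = ∫ ω, f ω ∂P' :=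
  lipP_integral_comp ((measurePreserving_eval (fun _ : κ => P') i).comp measurePreserving_snd)
    hf.aestronglyMeasurable

lemma LipFun.integrable {G : (ι → Inter p) → (κ → ℝ) → ℝ} (hG : LipFun G)
    {θ : Ω → Inter p} {h : Ω' → ℝ} (hθ : Measurable θ) (hh : Measurable h)
    (iθ : Integrable (fun ω => supNorm (θ ω)) P) (ih : Integrable h P') :
    Integrable (fun ω : (ι → Ω) × (κ → Ω') => G (fun k => θ (ω.1 k)) (fun i => h (ω.2 i)))
      ((Measure.pi fun _ : ι => P).prod (Measure.pi fun _ : κ => P')) := by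
  have hb : Integrable (fun ω : (ι → Ω) × (κ → Ω') =>
      |G 0 0| + ∑ k, supNorm (θ (ω.1 k)) + ∑ i, |h (ω.2 i)|)
      ((Measure.pi fun _ : ι => P).prod (Measure.pi fun _ : κ => P')) :=
    ((integrable_const _).add
      (integrable_finsetSum _ fun k _ => lipP_integrable_fst P P' iθ k)).add
      (integrable_finsetSum _ fun i _ => lipP_integrable_snd P P' ih.abs i)
  refine Integrable.mono' hb ?_ (Eventually.of_forall fun ω => hG.abs_le _ _)
  have hm : Measurable fun ω : (ι → Ω) × (κ → Ω') =>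
      ((fun k => θ (ω.1 k), fun i => h (ω.2 i)) : (ι → Inter p) × (κ → ℝ)) := by
    refine Measurable.prodMk ?_ ?_
    · exact measurable_pi_lambda _ fun k => hθ.comp ((measurable_pi_apply k).comp measurable_fst)
    · exact measurable_pi_lambda _ fun i => hh.comp ((measurable_pi_apply i).comp measurable_snd)
  exact (hG.continuous.measurable.comp hm).aestronglyMeasurable

/-- The iterated integral against the product laws, pulled back to the sample spaces. -/
lemma LipFun.integral_eq {G : (ι → Inter p) → (κ → ℝ) → ℝ} (hG : LipFun G)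
    {θ : Ω → Inter p} {h : Ω' → ℝ} (hθ : Measurable θ) (hh : Measurable h)
    (iθ : Integrable (fun ω => supNorm (θ ω)) P) (ih : Integrable h P') :
    ∫ θs, ∫ hs, G θs hs ∂(Measure.pi fun _ : κ => P'.map h) ∂(Measure.pi fun _ : ι => P.map θ) =
      ∫ ω : (ι → Ω) × (κ → Ω'), G (fun k => θ (ω.1 k)) (fun i => h (ω.2 i))
        ∂((Measure.pi fun _ : ι => P).prod (Measure.pi fun _ : κ => P')) := by
  have : IsProbabilityMeasure (P.map θ) := Measure.isProbabilityMeasure_map hθ.aemeasurable
  have : IsProbabilityMeasure (P'.map h) := Measure.isProbabilityMeasure_map hh.aemeasurable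
  have m1 : MeasurePreserving (fun (a : ι → Ω) k => θ (a k)) (Measure.pi fun _ : ι => P)
      (Measure.pi fun _ : ι => P.map θ) :=
    measurePreserving_pi _ _ fun _ => hθ.measurePreserving P
  have m2 : MeasurePreserving (fun (a : κ → Ω') i => h (a i)) (Measure.pi fun _ : κ => P')
      (Measure.pi fun _ : κ => P'.map h) :=
    measurePreserving_pi _ _ fun _ => hh.measurePreserving P'
  have m := m1.prod m2
  have hmeas : AEStronglyMeasurable (Function.uncurry G)
      ((Measure.pi fun _ : ι => P.map θ).prod (Measure.pi fun _ : κ => P'.map h)) :=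
    hG.continuous.measurable.aestronglyMeasurable
  have hint : Integrable (Function.uncurry G)
      ((Measure.pi fun _ : ι => P.map θ).prod (Measure.pi fun _ : κ => P'.map h)) :=
    (m.integrable_comp hmeas).1 (hG.integrable P P' hθ hh iθ ih)
  rw [integral_integral hint]
  exact (lipP_integral_comp m hmeas).symm

/-- Linear bound on the iterated integral. -/
lemma LipFun.abs_integral_le {G : (ι → Inter p) → (κ → ℝ) → ℝ} (hG : LipFun G)
    {θ : Ω → Inter p} {h : Ω' → ℝ} (hθ : Measurable θ) (hh : Measurable h)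
    (iθ : Integrable (fun ω => supNorm (θ ω)) P) (ih : Integrable h P') :
    |∫ θs, ∫ hs, G θs hs ∂(Measure.pi fun _ : κ => P'.map h) ∂(Measure.pi fun _ : ι => P.map θ)| ≤
      |G 0 0| + Fintype.card ι * ∫ ω, supNorm (θ ω) ∂P + Fintype.card κ * ∫ ω, |h ω| ∂P' := by
  rw [hG.integral_eq P P' hθ hh iθ ih]
  have i1 := integrable_finsetSum (univ : Finset ι) fun k _ => lipP_integrable_fst (κ := κ) P P' iθ k
  have i2 := integrable_finsetSum (univ : Finset κ) fun i _ =>
    lipP_integrable_snd (ι := ι) P P' ih.abs i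
  refine (abs_integral_le_integral_abs).trans ?_
  refine (integral_mono (hG.integrable P P' hθ hh iθ ih).abs
    (((integrable_const |G 0 0|).add i1).add i2) fun ω => hG.abs_le _ _).trans (le_of_eq ?_)
  rw [integral_add' ((integrable_const _).add i1) i2, integral_add' (integrable_const _) i1,
    integral_finsetSum _ fun k _ => lipP_integrable_fst P P' iθ k,
    integral_finsetSum _ fun i _ => lipP_integrable_snd P P' ih.abs i]
  simp only [lipP_integral_fst P P' iθ, lipP_integral_snd P P' ih.abs]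
  simp

/-- The coupling lemma. -/
lemma LipFun.coupling {G : (ι → Inter p) → (κ → ℝ) → ℝ} (hG : LipFun G)
    {θ θ' : Ω → Inter p} {c : Ω → ℝ} {h h' : Ω' → ℝ} (hθ : Measurable θ) (hθ' : Measurable θ')
    (hh : Measurable h) (hh' : Measurable h')
    (iθ : Integrable (fun ω => supNorm (θ ω)) P) (iθ' : Integrable (fun ω => supNorm (θ' ω)) P)
    (ic : Integrable c P) (ih : Integrable h P') (ih' : Integrable h' P') :
    |∫ θs, ∫ hs, G θs hs ∂(Measure.pi fun _ : κ => P'.map h) ∂(Measure.pi fun _ : ι => P.map θ) -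
      ∫ θs, ∫ hs, G θs hs ∂(Measure.pi fun _ : κ => P'.map h') ∂(Measure.pi fun _ : ι => P.map θ') -
      Fintype.card ι * ∫ ω, c ω ∂P| ≤
      Fintype.card ι * ∫ ω, supNorm (fun s => θ ω s - θ' ω s - c ω) ∂P +
        Fintype.card κ * ∫ ω, |h ω - h' ω| ∂P' := by
  have id := lipP_integrable_supNorm_sub hθ hθ' iθ iθ' ic
  have ihh : Integrable (fun ω => |h ω - h' ω|) P' := (ih.sub ih').abs
  have j1 := hG.integrable P P' hθ hh iθ ih
  have j2 := hG.integrable P P' hθ' hh' iθ' ih'
  have j3 := integrable_finsetSum (univ : Finset ι) fun k _ => lipP_integrable_fst (κ := κ) P P' ic k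
  have i1 := integrable_finsetSum (univ : Finset ι) fun k _ => lipP_integrable_fst (κ := κ) P P' id k
  have i2 := integrable_finsetSum (univ : Finset κ) fun i _ =>
    lipP_integrable_snd (ι := ι) P P' ihh i
  have e3 : (Fintype.card ι : ℝ) * ∫ ω, c ω ∂P = ∫ ω : (ι → Ω) × (κ → Ω'), ∑ k, c (ω.1 k)
      ∂((Measure.pi fun _ : ι => P).prod (Measure.pi fun _ : κ => P')) := by
    rw [integral_finsetSum _ fun k _ => lipP_integrable_fst P P' ic k]
    simp only [lipP_integral_fst P P' ic]
    simp
  have j12 : Integrable (fun ω : (ι → Ω) × (κ → Ω') =>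
      G (fun k => θ (ω.1 k)) (fun i => h (ω.2 i)) - G (fun k => θ' (ω.1 k)) (fun i => h' (ω.2 i)))
      ((Measure.pi fun _ : ι => P).prod (Measure.pi fun _ : κ => P')) := j1.sub j2
  rw [hG.integral_eq P P' hθ hh iθ ih, hG.integral_eq P P' hθ' hh' iθ' ih', e3,
    ← integral_sub j1 j2, ← integral_sub j12 j3]
  refine (abs_integral_le_integral_abs).trans ?_
  refine (integral_mono (j12.sub j3).abs (i1.add i2) fun ω => hG _ _ _ _ _).trans
    (le_of_eq ?_)
  rw [integral_add' i1 i2, integral_finsetSum _ fun k _ => lipP_integrable_fst P P' id k,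
    integral_finsetSum _ fun i _ => lipP_integrable_snd P P' ihh i]
  simp only [lipP_integral_fst P P' id, lipP_integral_snd P P' ihh]
  simp

end Coupling

/-- Poisson averaging of the coupling bound. -/
lemma lipP_poisson {lam A A' a e₁ e₂ : ℝ} (hlam : 0 ≤ lam) {I I' : ℕ → ℝ}
    (hI : ∀ n, |I n| ≤ A * ((n : ℝ) + 1)) (hI' : ∀ n, |I' n| ≤ A' * ((n : ℝ) + 1))
    (hd : ∀ n : ℕ, |I n - I' n - n * a| ≤ n * e₁ + e₂) :
    |∑' n, poissonWeight lam n * I n - ∑' n, poissonWeight lam n * I' n - lam * a| ≤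
      lam * e₁ + e₂ := by
  have s1 := (summable_poisson_of_linear hlam hI).hasSum
  have s2 := (summable_poisson_of_linear hlam hI').hasSum
  have s3 := (hasSum_poisson_mean lam).mul_right a
  have s4 := ((hasSum_poisson_mean lam).mul_right e₁).add ((hasSum_poisson lam).mul_right e₂)
  rw [one_mul] at s4
  have s5 := (s1.sub s2).sub s3
  have hb : ∀ n : ℕ, |poissonWeight lam n * I n - poissonWeight lam n * I' n -
      poissonWeight lam n * n * a| ≤ poissonWeight lam n * n * e₁ + poissonWeight lam n * e₂ := by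
    intro n
    have hw := poissonWeight_nonneg hlam n
    calc _ = poissonWeight lam n * |I n - I' n - n * a| := by
          rw [← abs_of_nonneg hw, ← abs_mul, abs_of_nonneg hw]; congr 1; ring
      _ ≤ poissonWeight lam n * (n * e₁ + e₂) := mul_le_mul_of_nonneg_left (hd n) hw
      _ = _ := by ring
  refine abs_le.2 ⟨?_, hasSum_le (fun n => (abs_le.1 (hb n)).2) s5 s4⟩
  exact hasSum_le (fun n => (abs_le.1 (hb n)).1) s4.neg s5

end Crest.Agent.R141
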