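import Mathlib
import Crest.Agent.R141.Basic
import Crest.Agent.R141.LipPAux

/-!
Row 141: the pressure is Lipschitz in the disorder.
-/

set_option autoImplicit false

namespace Crest.Agent.R141

open Finset MeasureTheory Filter Crest.Agent.R153 Crest.ProbabilityR.Diluted

lemma lipP_log_sum_exp_le {ι : Type} [Fintype ι] [Nonempty ι] {a b : ι → ℝ} {t : ℝ}
    (h : ∀ i, a i ≤ b i + t) :
    Real.log (∑ i, Real.exp (a i)) ≤ Real.log (∑ i, Real.exp (b i)) + t := by
  have h1 : 0 < ∑ i, Real.exp (a i) := Finset.sum_pos (fun _ _ => Real.exp_pos _) univ_nonempty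
  have h2 : 0 < ∑ i, Real.exp (b i) := Finset.sum_pos (fun _ _ => Real.exp_pos _) univ_nonempty
  rw [Real.log_le_iff_le_exp h1, Real.exp_add, Real.exp_log h2, Finset.sum_mul]
  exact Finset.sum_le_sum fun i _ => by rw [← Real.exp_add]; exact Real.exp_le_exp.2 (h i)

lemma lipP_abs_log_sum_exp {ι : Type} [Fintype ι] [Nonempty ι] {a b : ι → ℝ} {c t : ℝ}
    (h : ∀ i, |a i - b i - c| ≤ t) :
    |Real.log (∑ i, Real.exp (a i)) - Real.log (∑ i, Real.exp (b i)) - c| ≤ t := by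
  have h1 := lipP_log_sum_exp_le (a := a) (b := b) (t := c + t)
    fun i => by linarith [(abs_le.1 (h i)).2]
  have h2 := lipP_log_sum_exp_le (a := b) (b := a) (t := t - c)
    fun i => by linarith [(abs_le.1 (h i)).1]
  exact abs_le.2 ⟨by linarith, by linarith⟩

lemma lipP_logPartition {p N M : ℕ} (idx : Fin M → Fin p → Fin N) :
    LipFun fun (θs : Fin M → Inter p) (hs : Fin N → ℝ) => logPartition N θs idx hs := by
  intro θs θs' hs hs' cs
  unfold logPartition
  refine lipP_abs_log_sum_exp fun σ => ?_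
  have e : (∑ k, θs k (fun ℓ => σ (idx k ℓ)) + ∑ i, hs i * spinVal (σ i)) -
      (∑ k, θs' k (fun ℓ => σ (idx k ℓ)) + ∑ i, hs' i * spinVal (σ i)) - ∑ k, cs k =
      ∑ k, (θs k (fun ℓ => σ (idx k ℓ)) - θs' k (fun ℓ => σ (idx k ℓ)) - cs k) +
        ∑ i, (hs i - hs' i) * spinVal (σ i) := by
    simp only [Finset.sum_sub_distrib, sub_mul]
    ring
  rw [e]
  refine (abs_add_le _ _).trans (add_le_add ?_ ?_)
  · refine (Finset.abs_sum_le_sum_abs _ _).trans (Finset.sum_le_sum fun k _ => ?_)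
    exact lipP_abs_le_supNorm (fun s => θs k s - θs' k s - cs k) _
  · refine (Finset.abs_sum_le_sum_abs _ _).trans (Finset.sum_le_sum fun i _ => ?_)
    rw [abs_mul, abs_spinVal, mul_one]

lemma LipFun.average {p : ℕ} {ι κ J : Type} [Fintype ι] [Fintype κ] [Fintype J] [Nonempty J]
    {G : J → (ι → Inter p) → (κ → ℝ) → ℝ} (hG : ∀ j, LipFun (G j)) :
    LipFun fun θs hs => (Fintype.card J : ℝ)⁻¹ * ∑ j, G j θs hs := by
  intro θs θs' hs hs' cs
  have hc : (0 : ℝ) < Fintype.card J := by exact_mod_cast Fintype.card_pos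
  have e : (Fintype.card J : ℝ)⁻¹ * ∑ j, G j θs hs - (Fintype.card J : ℝ)⁻¹ * ∑ j, G j θs' hs' -
      ∑ k, cs k = (Fintype.card J : ℝ)⁻¹ * ∑ j, (G j θs hs - G j θs' hs' - ∑ k, cs k) := by
    simp only [Finset.sum_sub_distrib, Finset.sum_const, Finset.card_univ, nsmul_eq_mul]
    field_simp
  rw [e, abs_mul, abs_of_pos (inv_pos.2 hc), inv_mul_le_iff₀ hc]
  refine (Finset.abs_sum_le_sum_abs _ _).trans ?_
  refine (Finset.sum_le_sum fun j _ => hG j θs θs' hs hs' cs).trans (le_of_eq ?_)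
  rw [Finset.sum_const, Finset.card_univ, nsmul_eq_mul]

lemma lipP_logPartition_zero {p N M : ℕ} (idx : Fin M → Fin p → Fin N) :
    logPartition N (0 : Fin M → Inter p) idx 0 = N * Real.log 2 := by
  unfold logPartition
  simp

theorem pressure_lip (p : ℕ) {α : ℝ} (hα : 0 < α) {Ω Ω' : Type} [MeasurableSpace Ω] [MeasurableSpace Ω']
    (P : Measure Ω) [IsProbabilityMeasure P] (P' : Measure Ω') [IsProbabilityMeasure P']
    {θ θ' : Ω → Inter p} {c : Ω → ℝ} {h h' : Ω' → ℝ} (hθ : Measurable θ) (hθ' : Measurable θ')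
    (hh : Measurable h) (hh' : Measurable h')
    (iθ : Integrable (fun ω => supNorm (θ ω)) P) (iθ' : Integrable (fun ω => supNorm (θ' ω)) P)
    (ic : Integrable c P) (ih : Integrable h P') (ih' : Integrable h' P')
    {N : ℕ} (hN : 1 ≤ N) :
    |pressure p α (P.map θ) (P'.map h) N - pressure p α (P.map θ') (P'.map h') N -
        α * ∫ ω, c ω ∂P| ≤
      α * ∫ ω, supNorm (fun s => θ ω s - θ' ω s - c ω) ∂P + ∫ ω, |h ω - h' ω| ∂P' := by
  have hN0 : (0 : ℝ) < N := by exact_mod_cast hN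
  have : Nonempty (Fin N) := ⟨⟨0, hN⟩⟩
  have hG : ∀ M : ℕ, LipFun fun (θs : Fin M → Inter p) (hs : Fin N → ℝ) =>
      (Fintype.card (Fin M → Fin p → Fin N) : ℝ)⁻¹ *
        ∑ idx : Fin M → Fin p → Fin N, logPartition N θs idx hs :=
    fun M => LipFun.average fun idx => lipP_logPartition idx
  have hlin : ∀ {θ : Ω → Inter p} {h : Ω' → ℝ}, Measurable θ → Measurable h →
      Integrable (fun ω => supNorm (θ ω)) P → Integrable h P' → ∀ M : ℕ,
      |∫ θs, ∫ hs, ((Fintype.card (Fin M → Fin p → Fin N) : ℝ)⁻¹ *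
        ∑ idx : Fin M → Fin p → Fin N, logPartition N θs idx hs)
        ∂(Measure.pi fun _ : Fin N => P'.map h) ∂(Measure.pi fun _ : Fin M => P.map θ)| ≤
      (N * Real.log 2 + ∫ ω, supNorm (θ ω) ∂P + N * ∫ ω, |h ω| ∂P') * ((M : ℝ) + 1) := by
    intro θ h hθ hh iθ ih M
    refine ((hG M).abs_integral_le P P' hθ hh iθ ih).trans ?_
    have hc : (0 : ℝ) < Fintype.card (Fin M → Fin p → Fin N) := by exact_mod_cast Fintype.card_pos
    have l2 : 0 ≤ (N : ℝ) * Real.log 2 := mul_nonneg hN0.le (Real.log_nonneg one_le_two)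
    have e0 : (Fintype.card (Fin M → Fin p → Fin N) : ℝ)⁻¹ *
        ∑ idx : Fin M → Fin p → Fin N, logPartition N (0 : Fin M → Inter p) idx 0 =
        N * Real.log 2 := by
      simp only [lipP_logPartition_zero, Finset.sum_const, Finset.card_univ, nsmul_eq_mul]
      field_simp
    have a1 : 0 ≤ ∫ ω, supNorm (θ ω) ∂P := integral_nonneg fun ω => lipP_supNorm_nonneg _
    have a2 : 0 ≤ (N : ℝ) * ∫ ω, |h ω| ∂P' :=
      mul_nonneg hN0.le (integral_nonneg fun ω => abs_nonneg _)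
    have hM : (0 : ℝ) ≤ M := Nat.cast_nonneg M
    rw [e0, abs_of_nonneg l2, Fintype.card_fin, Fintype.card_fin]
    nlinarith [mul_nonneg l2 hM, mul_nonneg a2 hM]
  have key := lipP_poisson (lam := α * N) (a := ∫ ω, c ω ∂P)
    (e₁ := ∫ ω, supNorm (fun s => θ ω s - θ' ω s - c ω) ∂P) (e₂ := N * ∫ ω, |h ω - h' ω| ∂P')
    (mul_pos hα hN0).le (hlin hθ hh iθ ih) (hlin hθ' hh' iθ' ih') fun M => by
      have := (hG M).coupling P P' hθ hθ' hh hh' iθ iθ' ic ih ih'
      rwa [Fintype.card_fin, Fintype.card_fin] at this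
  unfold pressure
  generalize (∑' M : ℕ, poissonWeight (α * N) M * ∫ θs, ∫ hs,
    ((Fintype.card (Fin M → Fin p → Fin N) : ℝ)⁻¹ *
        ∑ idx : Fin M → Fin p → Fin N, logPartition N θs idx hs)
      ∂(Measure.pi fun _ : Fin N => P'.map h) ∂(Measure.pi fun _ : Fin M => P.map θ)) = S at key ⊢
  generalize (∑' M : ℕ, poissonWeight (α * N) M * ∫ θs, ∫ hs,
    ((Fintype.card (Fin M → Fin p → Fin N) : ℝ)⁻¹ *
        ∑ idx : Fin M → Fin p → Fin N, logPartition N θs idx hs)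
      ∂(Measure.pi fun _ : Fin N => P'.map h') ∂(Measure.pi fun _ : Fin M => P.map θ')) = S' at key ⊢
  have e : 1 / (N : ℝ) * S - 1 / (N : ℝ) * S' - α * ∫ ω, c ω ∂P =
      (N : ℝ)⁻¹ * (S - S' - α * N * ∫ ω, c ω ∂P) := by
    field_simp
  rw [e, abs_mul, abs_of_pos (inv_pos.2 hN0), inv_mul_le_iff₀ hN0]
  refine key.trans (le_of_eq ?_)
  ring

end Crest.Agent.R141
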