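import Mathlib
import Crest.Agent.R141.Basic

/-!
Row 141: normalisation of the factorized representation.
-/

set_option autoImplicit false

namespace Crest.Agent.R141

open Finset MeasureTheory Filter Crest.Agent.R153 Crest.ProbabilityR.Diluted

theorem measurable_cen {p : ℕ} : Measurable (cen : Inter p → Inter p) := by
  unfold cen av
  fun_prop

lemma norm_measurable_Lg {p : ℕ} :
    Measurable fun q : ℝ × (Fin p → Bool → ℝ) => cen (Lg q.1 q.2) := by
  refine measurable_cen.comp ?_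
  unfold Lg
  fun_prop

lemma norm_cen_add {p : ℕ} (c : ℝ) (θ : Inter p) : cen (fun s => c + θ s) = cen θ := by
  funext s
  simp only [cen, av_add, av_const]
  ring

instance norm_cube_prob (p : ℕ) : IsProbabilityMeasure (cube p) := by
  unfold cube; infer_instance

lemma norm_ae_fst {p : ℕ} {q : unitInterval → Prop} (h : ∀ᵐ u, q u) : ∀ᵐ w ∂(cube p), q w.1 :=
  Measure.quasiMeasurePreserving_fst.ae h

lemma norm_ae_snd {p : ℕ} {q : unitInterval → Prop} (h : ∀ᵐ u, q u) :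
    ∀ᵐ w ∂(cube p), ∀ ℓ, q (w.2 ℓ) :=
  ae_all_iff.2 fun ℓ => ((Measure.quasiMeasurePreserving_eval _ ℓ).comp
    Measure.quasiMeasurePreserving_snd).ae h

/-- Transfer of the representation to independent uniform variables. -/
lemma norm_transfer {p : ℕ} (hp : 1 ≤ p) {μ : Measure (Inter p)} (hfac : HasFactorization p μ) :
    ∃ (b : unitInterval → ℝ) (f : unitInterval → Bool → ℝ), Measurable b ∧ Measurable f ∧
      (∀ n : ℕ, 1 ≤ n → 0 ≤ ∫ u, (-b u) ^ n) ∧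
      (∀ᵐ w ∂(cube p), ∀ s : Fin p → Bool, |b w.1 * ∏ ℓ, f (w.2 ℓ) (s ℓ)| < 1) ∧
      (cube p).map (fun w => cen (Lg (b w.1) fun ℓ => f (w.2 ℓ))) = μ.map cen := by
  obtain ⟨Ω, _, P, _, a, b, f, ha, hb, hf, hi, hid, hbf, hae, hmom, rfl⟩ := hfac
  have := Measure.isProbabilityMeasure_map (μ := P) hb.aemeasurable
  have := Measure.isProbabilityMeasure_map (μ := P) (hf ⟨0, hp⟩).aemeasurable
  obtain ⟨b', hb', eb⟩ := (P.map b).exists_measurable_map_eq
  obtain ⟨f', hf', ef⟩ := (P.map (f ⟨0, hp⟩)).exists_measurable_map_eq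
  have hF : Measurable fun ω ℓ => f ℓ ω := measurable_pi_lambda _ hf
  have hF' : Measurable fun (u : Fin p → unitInterval) ℓ => f' (u ℓ) := by fun_prop
  have hG : Measurable fun ω => (b ω, fun ℓ => f ℓ ω) := hb.prodMk hF
  have hG' : Measurable fun w : unitInterval × (Fin p → unitInterval) =>
      (b' w.1, fun ℓ => f' (w.2 ℓ)) := hb'.prodMap hF'
  have law : (cube p).map (fun w => (b' w.1, fun ℓ => f' (w.2 ℓ))) =
      P.map fun ω => (b ω, fun ℓ => f ℓ ω) := by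
    rw [hbf.map_prod_eq_prod_map_map hb.aemeasurable hF.aemeasurable,
      hi.map_fun_eq_pi_map fun ℓ => (hf ℓ).aemeasurable, ← eb]
    have e : (fun ℓ => P.map (f ℓ)) = fun _ => (volume : Measure unitInterval).map f' :=
      funext fun ℓ => by rw [ef, (hid ℓ).map_eq]
    rw [e, ← Measure.pi_map_pi fun _ => hf'.aemeasurable, Measure.map_prod_map _ _ hb' hF']
    rfl
  refine ⟨b', f', hb', hf', fun n hn => ?_, ?_, ?_⟩
  · have m : Measurable fun x : ℝ => (-x) ^ n := by fun_prop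
    rw [← integral_map hb'.aemeasurable m.aestronglyMeasurable, eb,
      integral_map hb.aemeasurable m.aestronglyMeasurable]
    exact (hmom n hn).2
  · have m : MeasurableSet {q : ℝ × (Fin p → Bool → ℝ) |
        ∀ s : Fin p → Bool, |q.1 * ∏ ℓ, q.2 ℓ (s ℓ)| < 1} := by measurability
    refine (ae_map_iff hG'.aemeasurable m).1 ?_
    rw [law]
    exact (ae_map_iff hG.aemeasurable m).2 (hae.mono fun ω h => h.2)
  · have e := congrArg (Measure.map fun q : ℝ × (Fin p → Bool → ℝ) => cen (Lg q.1 q.2)) law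
    rw [Measure.map_map norm_measurable_Lg hG', Measure.map_map norm_measurable_Lg hG] at e
    rw [Measure.map_map measurable_cen (by fun_prop)]
    refine e.trans (Measure.map_congr (hae.mono fun ω h => ?_))
    simp only [Function.comp_apply]
    rw [← norm_cen_add (Real.log (a ω))]
    congr 1
    funext s
    have := (abs_lt.1 (h.2 s)).1
    rw [Real.log_mul h.1.ne' (by linarith)]
    rfl

lemma norm_ae_le {h : unitInterval → ℝ} {c : ℝ} (H : ∀ x, c < x → ∀ᵐ u, h u ≤ x) :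
    ∀ᵐ u, h u ≤ c := by
  have : ∀ᵐ u, ∀ n : ℕ, h u ≤ c + 1 / ((n : ℝ) + 1) :=
    ae_all_iff.2 fun n => H _ (lt_add_of_pos_right _ Nat.one_div_pos_of_nat)
  refine this.mono fun u hu => le_of_forall_pos_le_add fun ε hε => ?_
  obtain ⟨n, hn⟩ := exists_nat_one_div_lt hε
  linarith [hu n]

lemma norm_key {p : ℕ} {b g : unitInterval → ℝ}
    (H : ∀ᵐ w ∂(cube p), b w.1 * ∏ ℓ, g (w.2 ℓ) < 1) {x y : ℝ} (hx : 0 ≤ x) (hy : 0 ≤ y)
    (h1 : ¬ ∀ᵐ u, g u ≤ x) (h2 : ¬ ∀ᵐ u, b u ≤ y) : y * x ^ p < 1 := by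
  rw [ae_iff] at h1 h2
  have h : cube p ({u | ¬ b u ≤ y} ×ˢ Set.pi Set.univ fun _ => {u | ¬ g u ≤ x}) ≠ 0 := by
    unfold cube
    rw [Measure.prod_prod, Measure.pi_pi]
    exact mul_ne_zero h2 (prod_ne_zero_iff.2 fun _ _ => h1)
  obtain ⟨w, ⟨w1, w2⟩, hw⟩ := Measure.exists_mem_of_measure_ne_zero_of_ae h (ae_restrict_of_ae H)
  refine lt_of_le_of_lt ?_ hw
  simp only [not_le, Set.mem_ofPred_eq, Set.mem_pi, Set.mem_univ, true_imp_iff] at w1 w2
  refine mul_le_mul w1.le ?_ (pow_nonneg hx _) (hy.trans w1.le)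
  calc x ^ p = ∏ _ℓ : Fin p, x := by simp
    _ ≤ _ := prod_le_prod (fun _ _ => hx) fun ℓ _ => (w2 ℓ).le

lemma norm_scale {p : ℕ} (hp : 1 ≤ p) {b g : unitInterval → ℝ}
    (H : ∀ᵐ w ∂(cube p), b w.1 * ∏ ℓ, g (w.2 ℓ) < 1) (h1 : ¬ ∀ᵐ u, g u ≤ 0)
    (h2 : ¬ ∀ᵐ u, b u ≤ 0) : ∃ G : ℝ, 0 < G ∧ (∀ᵐ u, g u ≤ G) ∧ ∀ᵐ u, b u ≤ 1 / G ^ p := by
  obtain ⟨y, hy, hy'⟩ : ∃ y, 0 < y ∧ ¬ ∀ᵐ u, b u ≤ y := by
    by_contra h
    push Not at h
    exact h2 (norm_ae_le h)
  set S := {x : ℝ | 0 ≤ x ∧ ∀ᵐ u, g u ≤ x}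
  have hS : S.Nonempty := by
    have a : 0 < 1 / y := by positivity
    refine ⟨1 / y + 1, by positivity, by_contra fun h => ?_⟩
    have h3 := norm_key H (by positivity) hy.le h hy'
    have h4 : 1 / y + 1 ≤ (1 / y + 1) ^ p := le_self_pow₀ (by linarith) (by omega)
    have h5 := mul_le_mul_of_nonneg_left h4 hy.le
    have h6 : y * (1 / y + 1) = 1 + y := by field_simp
    linarith
  have hB : BddBelow S := ⟨0, fun x hx => hx.1⟩
  have g1 : ∀ᵐ u, g u ≤ sInf S := norm_ae_le fun x hx => by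
    obtain ⟨x', h, h'⟩ := exists_lt_of_csInf_lt hS hx
    exact h.2.mono fun u hu => hu.trans h'.le
  have g2 : 0 < sInf S :=
    lt_of_le_of_ne (le_csInf hS fun x hx => hx.1) fun e => h1 (by rwa [← e] at g1)
  refine ⟨sInf S, g2, g1, norm_ae_le fun z hz => by_contra fun h => ?_⟩
  have z0 : 0 ≤ z := le_trans (by positivity) hz.le
  have c : ContinuousWithinAt (fun x : ℝ => z * x ^ p) (Set.Iio (sInf S)) (sInf S) := by fun_prop
  have : z * sInf S ^ p ≤ 1 := by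
    refine le_of_tendsto c ?_
    filter_upwards [Ioo_mem_nhdsLT g2] with x hx
    exact (norm_key H hx.1.le z0 (fun h' => (csInf_le hB ⟨hx.1.le, h'⟩).not_gt hx.2) h).le
  rw [div_lt_iff₀ (by positivity)] at hz
  linarith

/-- Projection to `[-1, 1]`. -/
noncomputable def normClamp (x : ℝ) : ℝ := max (-1) (min 1 x)

lemma normClamp_le (x : ℝ) : |normClamp x| ≤ 1 :=
  abs_le.2 ⟨le_max_left _ _, max_le (by norm_num) (min_le_left _ _)⟩

lemma normClamp_eq {x : ℝ} (h : |x| ≤ 1) : normClamp x = x := by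
  rw [normClamp, min_eq_right (abs_le.1 h).2, max_eq_right (abs_le.1 h).1]

lemma norm_exists {p : ℕ} (hp : 1 ≤ p) {b : unitInterval → ℝ} {f : unitInterval → Bool → ℝ}
    (hb : Measurable b) (hf : Measurable f) (hm : ∀ n : ℕ, 1 ≤ n → 0 ≤ ∫ u, (-b u) ^ n)
    (H : ∀ᵐ w ∂(cube p), ∀ s : Fin p → Bool, |b w.1 * ∏ ℓ, f (w.2 ℓ) (s ℓ)| < 1) :
    ∃ (b' : unitInterval → ℝ) (f' : unitInterval → Bool → ℝ), Measurable b' ∧ Measurable f' ∧
      (∀ u, |b' u| ≤ 1) ∧ (∀ u s, |f' u s| ≤ 1) ∧ (∀ n : ℕ, 1 ≤ n → 0 ≤ ∫ u, (-b' u) ^ n) ∧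
      ∀ᵐ w ∂(cube p), ∀ s : Fin p → Bool,
        b' w.1 * ∏ ℓ, f' (w.2 ℓ) (s ℓ) = b w.1 * ∏ ℓ, f (w.2 ℓ) (s ℓ) := by
  have hle : ∀ u s, |f u s| ≤ max |f u true| |f u false| := fun u s => by cases s <;> simp
  by_cases h : (∀ᵐ u, max |f u true| |f u false| ≤ 0) ∨ ∀ᵐ u, |b u| ≤ 0
  · refine ⟨0, 0, measurable_zero, measurable_zero, by simp, by simp,
      fun n hn => by simp [show n ≠ 0 by omega], ?_⟩
    rcases h with h | h
    · refine (norm_ae_snd h).mono fun w hw s => ?_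
      have : ∏ ℓ, f (w.2 ℓ) (s ℓ) = 0 :=
        prod_eq_zero (mem_univ ⟨0, hp⟩) (abs_nonpos_iff.1 ((hle _ _).trans (hw _)))
      simp [this]
    · refine (norm_ae_fst h).mono fun w hw s => ?_
      simp [abs_nonpos_iff.1 hw]
  rw [not_or] at h
  obtain ⟨G, hG, g1, g2⟩ := norm_scale hp (b := fun u => |b u|)
    (g := fun u => max |f u true| |f u false|) (H.mono fun w hw => by
      have := hw fun ℓ => decide (|f (w.2 ℓ) false| ≤ |f (w.2 ℓ) true|)
      rw [abs_mul, abs_prod] at this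
      convert this using 3 with ℓ
      by_cases h : |f (w.2 ℓ) false| ≤ |f (w.2 ℓ) true|
      · simp [h]
      · simp [h, le_of_not_ge h]) h.1 h.2
  have e1 : ∀ᵐ u, normClamp (b u * G ^ p) = b u * G ^ p := g2.mono fun u hu => normClamp_eq <| by
    rw [abs_mul, abs_of_pos (pow_pos hG p)]
    exact (le_div_iff₀ (pow_pos hG p)).1 hu
  have e2 : ∀ᵐ u, ∀ s, normClamp (f u s / G) = f u s / G := g1.mono fun u hu s =>
    normClamp_eq <| by
      rw [abs_div, abs_of_pos hG, div_le_one hG]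
      exact (hle u s).trans hu
  refine ⟨fun u => normClamp (b u * G ^ p), fun u s => normClamp (f u s / G), ?_, ?_,
    fun u => normClamp_le _, fun u s => normClamp_le _, fun n hn => ?_, ?_⟩
  · unfold normClamp; fun_prop
  · unfold normClamp; fun_prop
  · have : ∫ u, (-normClamp (b u * G ^ p)) ^ n = ∫ u, (-b u) ^ n * (G ^ p) ^ n :=
      integral_congr_ae (e1.mono fun u hu => by simp only [hu]; ring)
    rw [this, integral_mul_const]
    exact mul_nonneg (hm n hn) (by positivity)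
  · filter_upwards [norm_ae_fst e1, norm_ae_snd e2] with w h1 h2 s
    simp only [h1, h2, prod_div_distrib, prod_const, card_univ, Fintype.card_fin]
    field_simp

theorem normalize_fac {p : ℕ} (hp : 1 ≤ p) {μ : Measure (Inter p)} (hfac : HasFactorization p μ) :
    ∃ (b : unitInterval → ℝ) (f : unitInterval → Bool → ℝ), Measurable b ∧ Measurable f ∧
      (∀ u, |b u| ≤ 1) ∧ (∀ u s, |f u s| ≤ 1) ∧ (∀ n : ℕ, 1 ≤ n → 0 ≤ ∫ u, (-b u) ^ n) ∧
      (∀ᵐ w ∂(cube p), ∀ s : Fin p → Bool, |b w.1 * ∏ ℓ, f (w.2 ℓ) (s ℓ)| < 1) ∧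
      (cube p).map (fun w => cen (Lg (b w.1) fun ℓ => f (w.2 ℓ))) = μ.map cen := by
  obtain ⟨b, f, hb, hf, hm, H, e⟩ := norm_transfer hp hfac
  obtain ⟨b', f', hb', hf', h1, h2, h3, h4⟩ := norm_exists hp hb hf hm H
  refine ⟨b', f', hb', hf', h1, h2, h3, ?_, ?_⟩
  · filter_upwards [H, h4] with w a1 a2 s
    rw [a2]; exact a1 s
  · rw [← e]
    refine Measure.map_congr (h4.mono fun w hw => ?_)
    exact congrArg cen (funext fun s => congrArg (fun x => Real.log (1 + x)) (hw s))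

end Crest.Agent.R141
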