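import Mathlib
import Crest.Agent.R141.Grid
import Crest.Agent.R141.LipP
import Crest.Agent.R141.LipB
import Crest.Agent.R141.Norm

/-!
Row 141: auxiliary facts for the approximation by finite models.
-/

set_option autoImplicit false

namespace Crest.Agent.R141

open Finset MeasureTheory Filter Topology Crest.Agent.R153 Crest.ProbabilityR.Diluted

/-! ### The sup norm and centering -/

lemma Quant_supNorm_eq {p : ℕ} (θ : Inter p) : supNorm θ = ‖θ‖ := by
  refine le_antisymm (ciSup_le fun s => norm_le_pi_norm θ s) ?_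
  have h : ∀ s, |θ s| ≤ supNorm θ := fun s =>
    le_ciSup (f := fun s : Fin p → Bool => |θ s|) (Set.finite_range _).bddAbove s
  exact (pi_norm_le_iff_of_nonneg ((abs_nonneg _).trans (h default))).2 h

lemma Quant_abs_le_norm {p : ℕ} (θ : Inter p) (s : Fin p → Bool) : |θ s| ≤ ‖θ‖ :=
  norm_le_pi_norm θ s

lemma Quant_norm_le {p : ℕ} {θ : Inter p} {c : ℝ} (h : ∀ s, |θ s| ≤ c) : ‖θ‖ ≤ c :=
  (pi_norm_le_iff_of_nonneg ((abs_nonneg _).trans (h default))).2 h

lemma Quant_abs_av_le {p : ℕ} (θ : Inter p) : |av θ| ≤ ‖θ‖ :=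
  (abs_av_le θ).trans (av_le_of_le fun s => Quant_abs_le_norm θ s)

lemma Quant_norm_cen_le {p : ℕ} (θ : Inter p) : ‖cen θ‖ ≤ 2 * ‖θ‖ :=
  Quant_norm_le fun s => (abs_sub _ _).trans (by
    linarith [Quant_abs_le_norm θ s, Quant_abs_av_le θ])

lemma Quant_cen_sub {p : ℕ} (θ θ' : Inter p) : cen θ - cen θ' = cen (θ - θ') := by
  funext s
  have : av (θ - θ') = av θ - av θ' := av_sub θ θ'
  simp only [cen, Pi.sub_apply, this]
  ring

lemma Quant_continuous_av {p : ℕ} : Continuous (fun θ : Inter p => av θ) := by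
  unfold av
  fun_prop

lemma Quant_continuous_cen {p : ℕ} : Continuous (cen : Inter p → Inter p) :=
  continuous_pi fun s => (continuous_apply s).sub Quant_continuous_av

/-- Centering is controlled by the oscillation. -/
lemma Quant_norm_cen_le_of_osc {p : ℕ} {θ θ' : Inter p}
    (h : ∀ s s', |θ' s - θ' s'| ≤ |θ s - θ s'|) : ‖cen θ'‖ ≤ 2 * ‖cen θ‖ := by
  refine Quant_norm_le fun s => ?_
  have e : cen θ' s = av fun s' => θ' s - θ' s' := by rw [av_sub, av_const]; rfl
  rw [e]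
  refine (abs_av_le _).trans (av_le_of_le fun s' => (h s s').trans ?_)
  have e2 : θ s - θ s' = cen θ s - cen θ s' := by unfold cen; ring
  rw [e2]
  exact (abs_sub _ _).trans (by
    linarith [Quant_abs_le_norm (cen θ) s, Quant_abs_le_norm (cen θ) s'])

lemma Quant_log_osc {x y t : ℝ} (hx : |x| < 1) (hy : |y| < 1) (t0 : 0 ≤ t) (t1 : t ≤ 1) :
    |Real.log (1 + t * x) - Real.log (1 + t * y)| ≤ |Real.log (1 + x) - Real.log (1 + y)| := by
  wlog hxy : y ≤ x generalizing x y
  · rw [abs_sub_comm, abs_sub_comm (Real.log (1 + x))]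
    exact this hy hx (le_of_not_ge hxy)
  obtain ⟨x1, x2⟩ := abs_lt.1 hx
  obtain ⟨y1, y2⟩ := abs_lt.1 hy
  have a1 : 0 < 1 + t * y := by nlinarith
  have a2 : 1 + t * y ≤ 1 + t * x := by nlinarith
  have a3 : 0 < 1 + y := by linarith
  have a4 : 0 < 1 + t * x := a1.trans_le a2
  have a5 : 0 < 1 + x := by linarith
  have b1 := Real.log_le_log a1 a2
  have b2 := Real.log_le_log a3 (show 1 + y ≤ 1 + x by linarith)
  rw [abs_of_nonneg (by linarith), abs_of_nonneg (by linarith)]
  have b3 : Real.log ((1 + t * x) * (1 + y)) ≤ Real.log ((1 + x) * (1 + t * y)) :=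
    Real.log_le_log (by positivity) (by nlinarith)
  rw [Real.log_mul a4.ne' a3.ne', Real.log_mul a5.ne' a1.ne'] at b3
  linarith

lemma Quant_log_lip {x y t : ℝ} (hx : |x| ≤ t) (hy : |y| ≤ t) (t1 : t < 1) :
    |Real.log (1 + x) - Real.log (1 + y)| ≤ |x - y| / (1 - t) := by
  wlog hxy : y ≤ x generalizing x y
  · rw [abs_sub_comm, abs_sub_comm x]
    exact this hy hx (le_of_not_ge hxy)
  obtain ⟨x1, x2⟩ := abs_le.1 hx
  obtain ⟨y1, y2⟩ := abs_le.1 hy
  have a3 : 0 < 1 + y := by linarith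
  have a5 : 0 < 1 + x := by linarith
  have a6 : 0 < 1 - t := by linarith
  have b2 := Real.log_le_log a3 (show 1 + y ≤ 1 + x by linarith)
  rw [abs_of_nonneg (by linarith), abs_of_nonneg (by linarith), ← Real.log_div a5.ne' a3.ne']
  refine (Real.log_le_sub_one_of_pos (by positivity)).trans ?_
  rw [show (1 + x) / (1 + y) - 1 = (x - y) / (1 + y) by field_simp; ring]
  exact div_le_div_of_nonneg_left (by linarith) a6 (by linarith)

lemma Quant_abs_prod_le_one {ι : Type} (S : Finset ι) {a : ι → ℝ} (ha : ∀ i, |a i| ≤ 1) :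
    |∏ i ∈ S, a i| ≤ 1 := by
  rw [Finset.abs_prod]
  exact Finset.prod_le_one (fun _ _ => abs_nonneg _) fun i _ => ha i

lemma Quant_mul_sub {x y a b : ℝ} (ha : |a| ≤ 1) (hy : |y| ≤ 1) :
    |x * a - y * b| ≤ |x - y| + |a - b| := by
  rw [show x * a - y * b = (x - y) * a + y * (a - b) by ring]
  refine (abs_add_le _ _).trans ?_
  rw [abs_mul, abs_mul]
  exact add_le_add (mul_le_of_le_one_right (abs_nonneg _) ha)
    (mul_le_of_le_one_left (abs_nonneg _) hy)

lemma Quant_prod_sub {ι : Type} (S : Finset ι) {a a' : ι → ℝ} (ha : ∀ i, |a i| ≤ 1)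
    (ha' : ∀ i, |a' i| ≤ 1) : |∏ i ∈ S, a i - ∏ i ∈ S, a' i| ≤ ∑ i ∈ S, |a i - a' i| := by
  classical
  induction S using Finset.induction_on with
  | empty => simp
  | insert i S hi ih =>
    rw [Finset.prod_insert hi, Finset.prod_insert hi, Finset.sum_insert hi]
    exact (Quant_mul_sub (Quant_abs_prod_le_one S ha) (ha' i)).trans (by linarith)

/-- The distance between two one-spin functions. -/
noncomputable def Quant_dist (f f' : Bool → ℝ) : ℝ := |f true - f' true| + |f false - f' false|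

lemma Quant_le_dist (f f' : Bool → ℝ) (s : Bool) : |f s - f' s| ≤ Quant_dist f f' := by
  unfold Quant_dist
  cases s
  · linarith [abs_nonneg (f true - f' true)]
  · linarith [abs_nonneg (f false - f' false)]

lemma Quant_Lg_lip {p : ℕ} {b b' t : ℝ} {f f' : Fin p → Bool → ℝ} (hb : |b| ≤ t) (hb' : |b'| ≤ t)
    (t1 : t < 1) (hf : ∀ ℓ s, |f ℓ s| ≤ 1) (hf' : ∀ ℓ s, |f' ℓ s| ≤ 1) :
    ‖cen (Lg b f) - cen (Lg b' f')‖ ≤
      2 / (1 - t) * (|b - b'| + ∑ ℓ, Quant_dist (f ℓ) (f' ℓ)) := by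
  have a6 : 0 < 1 - t := by linarith
  rw [Quant_cen_sub]
  refine (Quant_norm_cen_le _).trans ?_
  rw [div_mul_eq_mul_div, mul_div_assoc]
  refine mul_le_mul_of_nonneg_left (Quant_norm_le fun s => ?_) zero_le_two
  have h1 := Quant_abs_prod_le_one univ fun ℓ => hf ℓ (s ℓ)
  have h2 := Quant_abs_prod_le_one univ fun ℓ => hf' ℓ (s ℓ)
  refine (Quant_log_lip (t := t) ?_ ?_ t1).trans (div_le_div_of_nonneg_right ?_ a6.le)
  · rw [abs_mul]; exact (mul_le_of_le_one_right (abs_nonneg _) h1).trans hb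
  · rw [abs_mul]; exact (mul_le_of_le_one_right (abs_nonneg _) h2).trans hb'
  · refine (Quant_mul_sub h1 (hb'.trans t1.le)).trans (add_le_add le_rfl ?_)
    exact (Quant_prod_sub univ (fun ℓ => hf ℓ (s ℓ)) fun ℓ => hf' ℓ (s ℓ)).trans
      (Finset.sum_le_sum fun ℓ _ => Quant_le_dist _ _ _)

lemma Quant_measurable_Lg {p : ℕ} {Ω : Type} [MeasurableSpace Ω] {b : Ω → ℝ}
    {f : Ω → Fin p → Bool → ℝ} (hb : Measurable b) (hf : Measurable f) :
    Measurable fun w => Lg (b w) (f w) := by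
  refine measurable_pi_lambda _ fun s => ?_
  unfold Lg
  refine Measurable.log (measurable_const.add (hb.mul ?_))
  exact Finset.measurable_prod _ fun ℓ _ =>
    (measurable_pi_apply (s ℓ)).comp ((measurable_pi_apply ℓ).comp hf)

/-! ### Closeness -/

lemma Quant_close_trans {p : ℕ} {α : ℝ} {μ μ' μ'' : Measure (Inter p)} {ν ν' ν'' : Measure ℝ}
    {ε ε' : ℝ} (h : Close p α μ ν μ' ν' ε) (h' : Close p α μ' ν' μ'' ν'' ε') :
    Close p α μ ν μ'' ν'' (ε + ε') := by
  obtain ⟨s, h1, h2⟩ := h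
  obtain ⟨s', h1', h2'⟩ := h'
  refine ⟨s + s', fun N hN => ?_, fun r m X hm hX => ?_⟩
  · have a := abs_le.1 (h1 N hN)
    have a' := abs_le.1 (h1' N hN)
    exact abs_le.2 ⟨by linarith [a.1, a'.1], by linarith [a.2, a'.2]⟩
  · have a := abs_le.1 (h2 r m X hm hX)
    have a' := abs_le.1 (h2' r m X hm hX)
    exact abs_le.2 ⟨by linarith [a.1, a'.1], by linarith [a.2, a'.2]⟩

lemma Quant_close_of_coupling {p : ℕ} (hp : 1 ≤ p) {α : ℝ} (hα : 0 < α) {Ω Ω' : Type}
    [MeasurableSpace Ω] [MeasurableSpace Ω']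
    (P : Measure Ω) [IsProbabilityMeasure P] (P' : Measure Ω') [IsProbabilityMeasure P']
    {θ θ' : Ω → Inter p} {c : Ω → ℝ} {h h' : Ω' → ℝ} (hθ : Measurable θ) (hθ' : Measurable θ')
    (hh : Measurable h) (hh' : Measurable h')
    (iθ : Integrable (fun ω => ‖θ ω‖) P) (iθ' : Integrable (fun ω => ‖θ' ω‖) P)
    (ic : Integrable c P) (ih : Integrable h P') (ih' : Integrable h' P') {ε : ℝ}
    (hε : α * (2 * p - 1 : ℝ) * ∫ ω, ‖(fun s => θ ω s - θ' ω s - c ω : Inter p)‖ ∂P +
        ∫ ω, |h ω - h' ω| ∂P' ≤ ε) :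
    Close p α (P.map θ) (P'.map h) (P.map θ') (P'.map h') ε := by
  simp only [← Quant_supNorm_eq] at iθ iθ' hε
  refine ⟨α * ∫ ω, c ω ∂P, fun N hN => ?_, fun r m X hm hX => ?_⟩
  · refine (pressure_lip p hα P P' hθ hθ' hh hh' iθ iθ' ic ih ih' hN).trans (le_trans ?_ hε)
    have h0 : 0 ≤ ∫ ω, supNorm (fun s => θ ω s - θ' ω s - c ω) ∂P :=
      integral_nonneg fun ω => by rw [Quant_supNorm_eq]; exact norm_nonneg _
    have h1 : (1 : ℝ) ≤ p := by exact_mod_cast hp
    have h2 : α ≤ α * (2 * p - 1 : ℝ) := le_mul_of_one_le_right hα.le (by linarith)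
    linarith [mul_le_mul_of_nonneg_right h2 h0]
  · exact (trial_lip hp hα P P' hθ hθ' hh hh' iθ iθ' ic ih ih' (fun d => (hm.2 d).1) hX).trans hε

lemma Quant_close_cen {p : ℕ} (hp : 1 ≤ p) {α : ℝ} (hα : 0 < α) (μ : Measure (Inter p))
    [IsProbabilityMeasure μ] (ν : Measure ℝ) [IsProbabilityMeasure ν]
    (hμ : Integrable (fun θ => ‖θ‖) μ) (hν : Integrable (fun x : ℝ => x) ν) :
    Close p α μ ν (μ.map cen) ν 0 := by
  have h := Quant_close_of_coupling hp hα μ ν (θ := fun θ => θ) (θ' := cen) (c := fun θ => av θ)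
    (h := fun x => x) (h' := fun x => x) measurable_id' Quant_continuous_cen.measurable
    measurable_id' measurable_id' hμ
    ((hμ.const_mul 2).mono' Quant_continuous_cen.norm.aestronglyMeasurable
      (ae_of_all _ fun θ => by rw [norm_norm]; exact Quant_norm_cen_le θ))
    (hμ.mono' Quant_continuous_av.aestronglyMeasurable (ae_of_all _ fun θ => Quant_abs_av_le θ))
    hν hν (ε := 0) (by
      have : ∀ θ : Inter p, (fun s => θ s - cen θ s - av θ : Inter p) = 0 := fun θ => by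
        funext s; simp [cen]
      simp [this])
  simpa only [Measure.map_id'] using h

/-! ### Step functions -/

lemma Quant_integrable_of_bdd {Ω : Type} [MeasurableSpace Ω] (P : Measure Ω)
    [IsProbabilityMeasure P] {F : Ω → ℝ} (hF : Measurable F) (C : ℝ) (h : ∀ w, |F w| ≤ C) :
    Integrable F P := Integrable.of_bound hF.aestronglyMeasurable C (ae_of_all _ h)

lemma Quant_integrable_fin {Ω T : Type} [MeasurableSpace Ω] (P : Measure Ω)
    [IsProbabilityMeasure P] [Finite T] [MeasurableSpace T] [MeasurableSingletonClass T]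
    {D : Ω → T} (hD : Measurable D) (G : T → ℝ) : Integrable (fun w => G (D w)) P :=
  (Integrable.of_finite (μ := P.map D) (f := G)).comp_measurable hD

lemma Quant_measurable_step (n : ℕ) (g : Fin (n + 1) → ℝ) : Measurable fun u => g (digit n u) :=
  (measurable_of_finite g).comp (measurable_digit n)

lemma Quant_grid_clamp {F : unitInterval → ℝ} (hF : Measurable F) (h1 : ∀ u, |F u| ≤ 1) {ε : ℝ}
    (hε : 0 < ε) : ∃ n₀ : ℕ, ∀ n : ℕ, n₀ ≤ n → ∃ g : Fin (n + 1) → ℝ, (∀ i, |g i| ≤ 1) ∧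
      ∫ u, |F u - g (digit n u)| ≤ ε := by
  have iF := Quant_integrable_of_bdd volume hF 1 h1
  obtain ⟨n₀, h⟩ := grid_approx_one iF hε
  refine ⟨n₀, fun n hn => ?_⟩
  obtain ⟨g, hg⟩ := h n hn
  refine ⟨fun i => max (-1) (min 1 (g i)), fun i => abs_le.2 ⟨le_max_left _ _,
    max_le (by norm_num) (min_le_left _ _)⟩, le_trans ?_ hg⟩
  refine integral_mono_of_nonneg (ae_of_all _ fun u => abs_nonneg _)
    (iF.sub (Quant_integrable_fin volume (measurable_digit n) g)).abs (ae_of_all _ fun u => ?_)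
  obtain ⟨a1, a2⟩ := abs_le.1 (h1 u)
  simp only
  rcases le_total (g (digit n u)) (-1) with h2 | h2
  · rw [min_eq_right (by linarith), max_eq_left h2, abs_of_nonneg (by linarith),
      abs_of_nonneg (by linarith)]
    linarith
  · rcases le_total (g (digit n u)) 1 with h3 | h3
    · rw [min_eq_right h3, max_eq_right h2]
    · rw [min_eq_left h3, max_eq_right (by norm_num), abs_of_nonpos (by linarith),
        abs_of_nonpos (by linarith)]
      linarith

lemma Quant_approx_f {f : unitInterval → Bool → ℝ} (hf : Measurable f) (h1 : ∀ u s, |f u s| ≤ 1)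
    {ε : ℝ} (hε : 0 < ε) : ∃ (n : ℕ) (g : Fin (n + 1) → Bool → ℝ), (∀ i s, |g i s| ≤ 1) ∧
      ∫ u, Quant_dist (f u) (g (digit n u)) ≤ ε := by
  have m1 : ∀ s, Measurable fun u => f u s := fun s => (measurable_pi_apply s).comp hf
  obtain ⟨n₁, H₁⟩ := Quant_grid_clamp (m1 true) (fun u => h1 u true) (half_pos hε)
  obtain ⟨n₂, H₂⟩ := Quant_grid_clamp (m1 false) (fun u => h1 u false) (half_pos hε)
  obtain ⟨g₁, a₁, b₁⟩ := H₁ (n₁ + n₂) (Nat.le_add_right _ _)
  obtain ⟨g₂, a₂, b₂⟩ := H₂ (n₁ + n₂) (Nat.le_add_left _ _)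
  refine ⟨n₁ + n₂, fun i s => cond s (g₁ i) (g₂ i), fun i s => by cases s <;> simp [a₁, a₂], ?_⟩
  unfold Quant_dist
  simp only [cond_true, cond_false]
  rw [integral_add]
  · linarith
  · exact ((Quant_integrable_of_bdd volume (m1 true) 1 fun u => h1 u true).sub
      (Quant_integrable_fin volume (measurable_digit _) g₁)).abs
  · exact ((Quant_integrable_of_bdd volume (m1 false) 1 fun u => h1 u false).sub
      (Quant_integrable_fin volume (measurable_digit _) g₂)).abs

lemma Quant_pow_sub_ge {t t' : ℝ} (t0 : 0 ≤ t) (h : t ≤ t') (j : ℕ) :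
    (j + 1) * t ^ j * (t' - t) ≤ t' ^ (j + 1) - t ^ (j + 1) := by
  induction j with
  | zero => simp
  | succ j ih =>
    have h1 : t ^ (j + 1) ≤ t' ^ (j + 1) := pow_le_pow_left₀ t0 h _
    have h2 := mul_le_mul_of_nonneg_left ih t0
    have h3 := mul_le_mul_of_nonneg_right h1 (sub_nonneg.2 h)
    push_cast
    calc _ = t * ((j + 1) * t ^ j * (t' - t)) + t ^ (j + 1) * (t' - t) := by ring
      _ ≤ t * (t' ^ (j + 1) - t ^ (j + 1)) + t' ^ (j + 1) * (t' - t) := add_le_add h2 h3
      _ = _ := by ring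

lemma Quant_av_ind_lt {n k : ℕ} (hk : k ≤ n + 1) :
    av (fun i : Fin (n + 1) => if (i : ℕ) < k then (1 : ℝ) else 0) = k / (n + 1) := by
  unfold av
  rw [Finset.sum_boole, Fin.card_filter_val_lt, min_eq_right hk]
  simp

lemma Quant_approx_b {b : unitInterval → ℝ} (hb : Measurable b) (h1 : ∀ u, |b u| ≤ 1)
    (hm : ∀ n : ℕ, 1 ≤ n → 0 ≤ ∫ u, (-b u) ^ n) {t t' : ℝ} (t0 : 0 ≤ t) (tt : t < t')
    (t1 : t' ≤ 1) {ε : ℝ} (hε : 0 < ε) : ∃ (n : ℕ) (g : Fin (n + 1) → ℝ), (∀ i, |g i| ≤ t') ∧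
      (∀ j : ℕ, 1 ≤ j → 0 ≤ av fun i => (-g i) ^ j) ∧ ∫ u, |t * b u - g (digit n u)| ≤ ε := by
  obtain ⟨L, hL⟩ := exists_nat_one_div_lt (show 0 < ε / 4 by positivity)
  set δ : ℝ := 1 / ((L : ℝ) + 1) with hδ
  have hδ0 : 0 < δ := by positivity
  set e : ℝ := min (ε / 2) (δ * (t' - t)) with he
  have he0 : 0 < e := lt_min (half_pos hε) (mul_pos hδ0 (sub_pos.2 tt))
  obtain ⟨n₀, H⟩ := Quant_grid_clamp hb h1 he0
  obtain ⟨n, hn⟩ : ∃ n, n + 1 = (n₀ + 1) * (L + 1) := ⟨(n₀ + 1) * L + n₀, by ring⟩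
  obtain ⟨g, g1, g2⟩ := H n (by nlinarith [Nat.zero_le (n₀ * L)])
  have hav : av (fun i : Fin (n + 1) => if (i : ℕ) < n₀ + 1 then (1 : ℝ) else 0) = δ := by
    rw [Quant_av_ind_lt (by nlinarith [Nat.zero_le (n₀ * L)])]
    have : (n : ℝ) + 1 = (n₀ + 1) * (L + 1) := by exact_mod_cast hn
    rw [this, hδ]
    push_cast
    field_simp
  have tg : ∀ i, |t * g i| ≤ t := fun i => by
    rw [abs_mul, abs_of_nonneg t0]; exact mul_le_of_le_one_right t0 (g1 i)
  have ib := Quant_integrable_of_bdd volume hb 1 h1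
  have ig : Integrable fun u => |b u - g (digit n u)| :=
    (ib.sub (Quant_integrable_fin volume (measurable_digit n) g)).abs
  refine ⟨n, fun i => if (i : ℕ) < n₀ + 1 then -t' else t * g i, fun i => ?_, fun j hj => ?_, ?_⟩
  · simp only
    split_ifs
    · rw [abs_neg, abs_of_nonneg (t0.trans tt.le)]
    · exact (tg i).trans tt.le
  · obtain ⟨j, rfl⟩ := Nat.exists_eq_add_of_le' hj
    have a1 : -((j + 1 : ℝ) * e) ≤ av fun i => (-g i) ^ (j + 1) := by
      rw [← integral_digit]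
      have ibj : Integrable fun u => (-b u) ^ (j + 1) :=
        Quant_integrable_of_bdd volume (hb.neg.pow_const _) 1 fun u => by
          rw [abs_pow, abs_neg]; exact pow_le_one₀ (abs_nonneg _) (h1 u)
      have a2 : ∫ u, ((-b u) ^ (j + 1) - (j + 1 : ℝ) * |b u - g (digit n u)|) ≤
          ∫ u, (-g (digit n u)) ^ (j + 1) := by
        refine integral_mono (ibj.sub (ig.const_mul _))
          (Quant_integrable_fin volume (measurable_digit n) fun i => (-g i) ^ (j + 1)) fun u => ?_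
        have a3 := abs_pow_sub_pow_le (-b u) (-g (digit n u)) (j + 1)
        have a4 : max |(-b u)| |(-g (digit n u))| ^ j ≤ 1 :=
          pow_le_one₀ (le_max_of_le_left (abs_nonneg _))
            (max_le (by rw [abs_neg]; exact h1 u) (by rw [abs_neg]; exact g1 _))
        have a5 : |(-b u) - (-g (digit n u))| = |b u - g (digit n u)| := by
          rw [← abs_neg]; congr 1; ring
        rw [a5] at a3
        push_cast at a3
        have a6 := mul_le_of_le_one_right
          (show 0 ≤ |b u - g (digit n u)| * (j + 1 : ℝ) by positivity) a4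
        have a7 := le_abs_self ((-b u) ^ (j + 1) - (-g (digit n u)) ^ (j + 1))
        simp only
        linarith
      rw [integral_sub ibj (ig.const_mul _), integral_const_mul] at a2
      have a8 := mul_le_mul_of_nonneg_left g2 (show (0 : ℝ) ≤ j + 1 by positivity)
      linarith [hm (j + 1) hj]
    have a2 : t ^ (j + 1) * av (fun i => (-g i) ^ (j + 1)) + (t' ^ (j + 1) - t ^ (j + 1)) * δ ≤
        av fun i : Fin (n + 1) => (-(if (i : ℕ) < n₀ + 1 then -t' else t * g i)) ^ (j + 1) := by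
      rw [← hav, ← av_const_mul, ← av_const_mul, ← av_add]
      refine av_mono fun i => ?_
      split_ifs
      · have : t ^ (j + 1) * (-g i) ^ (j + 1) ≤ t ^ (j + 1) := by
          refine mul_le_of_le_one_right (pow_nonneg t0 _) ((le_abs_self _).trans ?_)
          rw [abs_pow, abs_neg]; exact pow_le_one₀ (abs_nonneg _) (g1 i)
        rw [neg_neg]; linarith
      · rw [← mul_pow, mul_zero, add_zero, mul_neg]
    refine le_trans ?_ a2
    have a3 := mul_le_mul_of_nonneg_right (Quant_pow_sub_ge t0 tt.le j) hδ0.le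
    have a4 := mul_le_mul_of_nonneg_left a1 (pow_nonneg t0 (j + 1))
    have a5 : t * e ≤ δ * (t' - t) :=
      (mul_le_of_le_one_left he0.le (tt.le.trans t1)).trans (min_le_right _ _)
    have a6 := mul_le_mul_of_nonneg_left a5
      (show 0 ≤ (j + 1 : ℝ) * t ^ j from mul_nonneg (by positivity) (pow_nonneg t0 j))
    have a7 : t ^ (j + 1) * -((j + 1 : ℝ) * e) = -((j + 1 : ℝ) * t ^ j * (t * e)) := by ring
    linarith
  · have a1 : ∫ u, |t * b u - (if ((digit n u : Fin (n + 1)) : ℕ) < n₀ + 1 then -t'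
        else t * g (digit n u))| ≤ ∫ u, (|b u - g (digit n u)| +
          2 * (if ((digit n u : Fin (n + 1)) : ℕ) < n₀ + 1 then (1 : ℝ) else 0)) := by
      refine integral_mono_of_nonneg (ae_of_all _ fun u => abs_nonneg _)
        (ig.add (Quant_integrable_fin volume (measurable_digit n)
          fun i => 2 * (if (i : ℕ) < n₀ + 1 then (1 : ℝ) else 0))) (ae_of_all _ fun u => ?_)
      simp only
      split_ifs
      · have a2 : |t * b u| ≤ 1 := by
          rw [abs_mul, abs_of_nonneg t0]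
          exact mul_le_one₀ (tt.le.trans t1) (abs_nonneg _) (h1 u)
        have a3 := abs_sub (t * b u) (-t')
        rw [abs_neg, abs_of_nonneg (t0.trans tt.le)] at a3
        linarith [abs_nonneg (b u - g (digit n u))]
      · rw [← mul_sub, abs_mul, abs_of_nonneg t0, mul_zero, add_zero]
        exact mul_le_of_le_one_left (abs_nonneg _) (tt.le.trans t1)
    refine a1.trans ?_
    rw [integral_add ig (Quant_integrable_fin volume (measurable_digit n)
      fun i => 2 * (if (i : ℕ) < n₀ + 1 then (1 : ℝ) else 0)),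
      integral_digit n fun i => 2 * (if (i : ℕ) < n₀ + 1 then (1 : ℝ) else 0), av_const_mul, hav]
    linarith [min_le_left (ε / 2) (δ * (t' - t))]

end Crest.Agent.R141
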