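import Mathlib
import Crest.Agent.R141.Grid
import Crest.Agent.R141.LipP
import Crest.Agent.R141.LipB
import Crest.Agent.R141.Norm
import Crest.Agent.R141.QuantAux

/-!
Row 141: approximation of a factorized model by finite models.
-/

set_option autoImplicit false

namespace Crest.Agent.R141

open Finset MeasureTheory Filter Topology Crest.Agent.R153 Crest.ProbabilityR.Diluted

/-- Shrinking `b` slightly changes the centered interaction little in mean. -/
lemma Quant_exists_t {p : ℕ} {Ω : Type} [MeasurableSpace Ω] (P : Measure Ω) {b : Ω → ℝ}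
    {f : Ω → Fin p → Bool → ℝ} (hb : Measurable b) (hf : Measurable f)
    (hae : ∀ᵐ w ∂P, ∀ s : Fin p → Bool, |b w * ∏ ℓ, f w ℓ (s ℓ)| < 1)
    (hi : Integrable (fun w => ‖cen (Lg (b w) (f w))‖) P) {ε : ℝ} (hε : 0 < ε) :
    ∃ t : ℝ, 0 ≤ t ∧ t < 1 ∧
      Integrable (fun w => ‖cen (Lg (b w) (f w)) - cen (Lg (t * b w) (f w))‖) P ∧
      ∫ w, ‖cen (Lg (b w) (f w)) - cen (Lg (t * b w) (f w))‖ ∂P ≤ ε := by
  set t : ℕ → ℝ := fun n => 1 - 1 / ((n : ℝ) + 1) with ht
  have t0 : ∀ n, 0 ≤ t n := fun n => by
    have : 1 / ((n : ℝ) + 1) ≤ 1 := by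
      rw [div_le_one (by positivity)]; linarith [Nat.cast_nonneg (α := ℝ) n]
    simp only [ht]; linarith
  have t1 : ∀ n, t n < 1 := fun n => by
    have : 0 < 1 / ((n : ℝ) + 1) := by positivity
    simp only [ht]; linarith
  have tl : Tendsto t atTop (𝓝 1) := by
    have := (tendsto_one_div_add_atTop_nhds_zero_nat (𝕜 := ℝ)).const_sub 1
    rwa [sub_zero] at this
  have hm : ∀ n, AEStronglyMeasurable
      (fun w => ‖cen (Lg (b w) (f w)) - cen (Lg (t n * b w) (f w))‖) P := fun n =>
    ((measurable_cen.comp (Quant_measurable_Lg hb hf)).sub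
      (measurable_cen.comp (Quant_measurable_Lg (hb.const_mul _) hf))).norm.aestronglyMeasurable
  have hbd : ∀ n, ∀ᵐ w ∂P, ‖‖cen (Lg (b w) (f w)) - cen (Lg (t n * b w) (f w))‖‖ ≤
      3 * ‖cen (Lg (b w) (f w))‖ := fun n => by
    filter_upwards [hae] with w hw
    rw [norm_norm]
    have h2 : ‖cen (Lg (t n * b w) (f w))‖ ≤ 2 * ‖cen (Lg (b w) (f w))‖ :=
      Quant_norm_cen_le_of_osc fun s s' => by
        simp only [Lg, mul_assoc]
        exact Quant_log_osc (hw s) (hw s') (t0 n) (t1 n).le
    linarith [norm_sub_le (cen (Lg (b w) (f w))) (cen (Lg (t n * b w) (f w)))]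
  have hlim : ∀ᵐ w ∂P, Tendsto (fun n => ‖cen (Lg (b w) (f w)) - cen (Lg (t n * b w) (f w))‖)
      atTop (𝓝 0) := by
    filter_upwards [hae] with w hw
    have h1 : ContinuousAt (fun x : ℝ => Lg (x * b w) (f w)) 1 := by
      refine continuousAt_pi.2 fun s => ?_
      unfold Lg
      refine ContinuousAt.log (by fun_prop) ?_
      have := abs_lt.1 (hw s)
      rw [one_mul]
      linarith [this.1]
    have h2 := ((Quant_continuous_cen.continuousAt.tendsto.comp (h1.tendsto.comp tl)).const_sub
      (cen (Lg (b w) (f w)))).norm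
    simpa using h2
  have h := tendsto_integral_of_dominated_convergence _ hm (hi.const_mul 3) hbd hlim
  rw [integral_zero] at h
  obtain ⟨n, hn⟩ := (h.eventually (eventually_le_nhds hε)).exists
  exact ⟨t n, t0 n, t1 n, (hi.const_mul 3).mono' (hm n) (hbd n), hn⟩

instance Quant_cube_prob (p : ℕ) : IsProbabilityMeasure (cube p) := by
  unfold cube; infer_instance

lemma Quant_integral_comp {Ω Ω' : Type} [MeasurableSpace Ω] [MeasurableSpace Ω'] {P : Measure Ω}
    {Q : Measure Ω'} {T : Ω → Ω'} (hT : MeasurePreserving T P Q) {φ : Ω' → ℝ}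
    (hφ : Integrable φ Q) : Integrable (fun w => φ (T w)) P ∧ ∫ w, φ (T w) ∂P = ∫ w, φ w ∂Q := by
  refine ⟨hT.integrable_comp_of_integrable hφ, ?_⟩
  rw [← hT.map_eq, integral_map hT.measurable.aemeasurable]
  rw [hT.map_eq]
  exact hφ.aestronglyMeasurable

lemma Quant_cube_fst (p : ℕ) : MeasurePreserving Prod.fst (cube p) volume := by
  unfold cube; exact measurePreserving_fst

lemma Quant_cube_snd {p : ℕ} (ℓ : Fin p) :
    MeasurePreserving (fun w : unitInterval × (Fin p → unitInterval) => w.2 ℓ) (cube p) volume := by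
  unfold cube
  exact (measurePreserving_eval (fun _ : Fin p => (volume : Measure unitInterval)) ℓ).comp
    measurePreserving_snd

lemma Quant_measurable_digits (p nb nf : ℕ) :
    Measurable fun w : unitInterval × (Fin p → unitInterval) =>
      (digit nb w.1, fun ℓ => digit nf (w.2 ℓ)) :=
  ((measurable_digit nb).comp measurable_fst).prodMk (measurable_pi_lambda _ fun ℓ =>
    (measurable_digit nf).comp ((measurable_pi_apply ℓ).comp measurable_snd))

lemma Quant_map_digits (p nb nf : ℕ) :
    (cube p).map (fun w => (digit nb w.1, fun ℓ => digit nf (w.2 ℓ))) =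
      unifM fun c : Fin (nb + 1) × (Fin p → Fin (nf + 1)) => c := by
  have h1 : Measurable fun (x : Fin p → unitInterval) (ℓ : Fin p) => digit nf (x ℓ) :=
    measurable_pi_lambda _ fun ℓ => (measurable_digit nf).comp (measurable_pi_apply ℓ)
  have h2 := Measure.map_prod_map (volume : Measure unitInterval)
    (Measure.pi fun _ : Fin p => (volume : Measure unitInterval)) (measurable_digit nb) h1
  have : ∀ _ : Fin p, SigmaFinite ((volume : Measure unitInterval).map (digit nf)) := fun _ => by
    infer_instance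
  rw [Measure.pi_map_pi (μ := fun _ : Fin p => (volume : Measure unitInterval))
    (f := fun _ => digit nf) fun _ => (measurable_digit nf).aemeasurable, map_digit, map_digit,
    pi_unifM, prod_unifM] at h2
  exact h2.symm

theorem approx_model {p : ℕ} (hp : 1 ≤ p) {α : ℝ} (hα : 0 < α) (μ : Measure (Inter p))
    [IsProbabilityMeasure μ] (ν : Measure ℝ) [IsProbabilityMeasure ν]
    (hμ : Integrable (fun θ => supNorm θ) μ) (hν : Integrable (fun x : ℝ => x) ν)
    (hfac : HasFactorization p μ) {ε : ℝ} (hε : 0 < ε) :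
    ∃ M : FM, Close p α μ ν (M.mu p) M.nu ε := by
  simp only [Quant_supNorm_eq] at hμ
  have step1 := Quant_close_cen hp hα μ ν hμ hν
  obtain ⟨b, f, hb, hf, b1, f1, hmom, hae, hlaw⟩ := normalize_fac hp hfac
  obtain ⟨η, hη, rfl⟩ := Measure.exists_measurable_map_eq ν
  have p1 : (1 : ℝ) ≤ p := by exact_mod_cast hp
  set K : ℝ := α * (2 * p - 1 : ℝ) with hK
  have K0 : 0 < K := mul_pos hα (by linarith)
  have mb : Measurable fun w : unitInterval × (Fin p → unitInterval) => b w.1 :=
    hb.comp measurable_fst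
  have mf : Measurable fun (w : unitInterval × (Fin p → unitInterval)) (ℓ : Fin p) => f (w.2 ℓ) :=
    measurable_pi_lambda _ fun ℓ => hf.comp ((measurable_pi_apply ℓ).comp measurable_snd)
  have mθ : Measurable fun w : unitInterval × (Fin p → unitInterval) =>
      cen (Lg (b w.1) fun ℓ => f (w.2 ℓ)) := measurable_cen.comp (Quant_measurable_Lg mb mf)
  have iθ : Integrable (fun w : unitInterval × (Fin p → unitInterval) =>
      ‖cen (Lg (b w.1) fun ℓ => f (w.2 ℓ))‖) (cube p) := by
    refine Integrable.comp_measurable (g := fun θ : Inter p => ‖θ‖) ?_ mθ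
    rw [hlaw]
    refine (integrable_map_measure continuous_norm.aestronglyMeasurable
      measurable_cen.aemeasurable).2 ?_
    exact (hμ.const_mul 2).mono' Quant_continuous_cen.norm.aestronglyMeasurable
      (ae_of_all _ fun θ => by
        simp only [Function.comp_apply, norm_norm]; exact Quant_norm_cen_le θ)
  have iη : Integrable η := hν.comp_measurable hη
  obtain ⟨t, t0, t1, it, ht⟩ := Quant_exists_t (cube p) mb mf hae iθ
    (show 0 < ε / (4 * K) by positivity)
  set t' : ℝ := (1 + t) / 2 with ht'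
  have tt : t < t' := by rw [ht']; linarith
  have t'1 : t' < 1 := by rw [ht']; linarith
  have a6 : 0 < 1 - t' := by linarith
  set e : ℝ := ε / (4 * K) * ((1 - t') / 2) / (p + 1) with he
  have e0 : 0 < e := by positivity
  obtain ⟨nb, gb, gb1, gb2, gb3⟩ := Quant_approx_b hb b1 hmom t0 tt t'1.le e0
  obtain ⟨nf, gf, gf1, gf2⟩ := Quant_approx_f hf f1 e0
  obtain ⟨nh, hnh⟩ := grid_approx_one iη (half_pos hε)
  obtain ⟨gh, gh1⟩ := hnh nh le_rfl
  let M : FM := ⟨nb, nf, nh, gb, gf, gh, t', ‖gh‖, t0.trans tt.le, t'1, gb1, gf1,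
    fun v => norm_le_pi_norm gh v, gb2⟩
  refine ⟨M, ?_⟩
  have mD := Quant_measurable_digits p nb nf
  have mG : Measurable fun (c : M.Cl p) (s : Fin p → Bool) => Real.log (M.cw c s) :=
    measurable_of_finite _
  have e1 : M.mu p = (cube p).map fun w =>
      Lg (gb (digit nb w.1)) fun ℓ => gf (digit nf (w.2 ℓ)) := by
    have := Measure.map_map (μ := cube p) mG mD
    rw [Quant_map_digits, map_unifM _ mG] at this
    exact this
  have e2 : M.nu = (volume : Measure unitInterval).map fun u => gh (digit nh u) := by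
    have := Measure.map_map (μ := (volume : Measure unitInterval)) (measurable_of_finite gh)
      (measurable_digit nh)
    rw [map_digit, map_unifM _ (measurable_of_finite gh)] at this
    exact this
  have step2 : Close p α (μ.map cen) (volume.map η) (M.mu p) M.nu ε := by
    rw [e1, e2, ← hlaw]
    refine Quant_close_of_coupling hp hα (cube p) volume
      (c := fun w => -av (Lg (gb (digit nb w.1)) fun ℓ => gf (digit nf (w.2 ℓ)))) mθ (mG.comp mD)
      hη (Quant_measurable_step nh gh) iθ
      (Quant_integrable_fin (cube p) mD fun c => ‖Lg (gb c.1) fun ℓ => gf (c.2 ℓ)‖)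
      (Quant_integrable_fin (cube p) mD fun c => -av (Lg (gb c.1) fun ℓ => gf (c.2 ℓ)))
      iη (Quant_integrable_fin volume (measurable_digit nh) gh) ?_
    have j1 := Quant_integral_comp (Quant_cube_fst p) (φ := fun u => |t * b u - gb (digit nb u)|)
      (((Quant_integrable_of_bdd volume hb 1 b1).const_mul t).sub
        (Quant_integrable_fin volume (measurable_digit nb) gb)).abs
    have j2 := fun ℓ : Fin p => Quant_integral_comp (Quant_cube_snd ℓ)
      (φ := fun u => Quant_dist (f u) (gf (digit nf u)))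
      (((Quant_integrable_of_bdd volume ((measurable_pi_apply true).comp hf) 1
          fun u => f1 u true).sub
        (Quant_integrable_fin volume (measurable_digit nf) fun i => gf i true)).abs.add
      ((Quant_integrable_of_bdd volume ((measurable_pi_apply false).comp hf) 1
          fun u => f1 u false).sub
        (Quant_integrable_fin volume (measurable_digit nf) fun i => gf i false)).abs)
    have j3 : Integrable (fun w : unitInterval × (Fin p → unitInterval) =>
        ∑ ℓ, Quant_dist (f (w.2 ℓ)) (gf (digit nf (w.2 ℓ)))) (cube p) :=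
      integrable_finsetSum _ fun ℓ _ => (j2 ℓ).1
    have j4 : Integrable (fun w : unitInterval × (Fin p → unitInterval) =>
        2 / (1 - t') * (|t * b w.1 - gb (digit nb w.1)| +
          ∑ ℓ, Quant_dist (f (w.2 ℓ)) (gf (digit nf (w.2 ℓ))))) (cube p) :=
      (j1.1.add j3).const_mul _
    have k1 : ∫ w, ‖(fun s => cen (Lg (b w.1) fun ℓ => f (w.2 ℓ)) s -
        Lg (gb (digit nb w.1)) (fun ℓ => gf (digit nf (w.2 ℓ))) s -
        -av (Lg (gb (digit nb w.1)) fun ℓ => gf (digit nf (w.2 ℓ))) : Inter p)‖ ∂(cube p) ≤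
        ∫ w, (‖cen (Lg (b w.1) fun ℓ => f (w.2 ℓ)) - cen (Lg (t * b w.1) fun ℓ => f (w.2 ℓ))‖ +
          2 / (1 - t') * (|t * b w.1 - gb (digit nb w.1)| +
          ∑ ℓ, Quant_dist (f (w.2 ℓ)) (gf (digit nf (w.2 ℓ))))) ∂(cube p) := by
      refine integral_mono_of_nonneg (ae_of_all _ fun w => norm_nonneg _) (it.add j4)
        (ae_of_all _ fun w => ?_)
      have l1 : (fun s => cen (Lg (b w.1) fun ℓ => f (w.2 ℓ)) s -
          Lg (gb (digit nb w.1)) (fun ℓ => gf (digit nf (w.2 ℓ))) s -
          -av (Lg (gb (digit nb w.1)) fun ℓ => gf (digit nf (w.2 ℓ))) : Inter p) =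
          cen (Lg (b w.1) fun ℓ => f (w.2 ℓ)) -
            cen (Lg (gb (digit nb w.1)) fun ℓ => gf (digit nf (w.2 ℓ))) := by
        funext s
        simp only [cen, Pi.sub_apply]
        ring
      have l2 : |t * b w.1| ≤ t' := by
        rw [abs_mul, abs_of_nonneg t0]
        exact (mul_le_of_le_one_right t0 (b1 _)).trans tt.le
      simp only [l1]
      exact (norm_sub_le_norm_sub_add_norm_sub _ (cen (Lg (t * b w.1) fun ℓ => f (w.2 ℓ))) _).trans
        (add_le_add le_rfl (Quant_Lg_lip l2 (gb1 _) t'1 (fun ℓ s => f1 _ s) fun ℓ s => gf1 _ s))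
    rw [integral_add it j4, integral_const_mul, integral_add j1.1 j3,
      integral_finsetSum _ fun ℓ _ => (j2 ℓ).1, j1.2] at k1
    simp only [fun ℓ => (j2 ℓ).2, Finset.sum_const, Finset.card_univ, Fintype.card_fin,
      nsmul_eq_mul] at k1
    have k2 : 2 / (1 - t') * ((∫ u, |t * b u - gb (digit nb u)|) +
        p * ∫ u, Quant_dist (f u) (gf (digit nf u))) ≤ ε / (4 * K) := by
      have l1 := mul_le_mul_of_nonneg_left gf2 (show (0 : ℝ) ≤ p by positivity)
      refine (mul_le_mul_of_nonneg_left (add_le_add gb3 l1) (by positivity)).trans (le_of_eq ?_)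
      rw [he]
      field_simp
      ring
    have k3 := mul_le_mul_of_nonneg_left (k1.trans (add_le_add ht k2)) K0.le
    have k4 : K * (ε / (4 * K) + ε / (4 * K)) = ε / 2 := by field_simp; ring
    rw [k4] at k3
    exact (add_le_add k3 gh1).trans (le_of_eq (add_halves ε))
  simpa using Quant_close_trans step1 step2

end Crest.Agent.R141
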