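import Mathlib
import Crest.Agent.R141.FinThm
import Crest.Agent.R141.Quant

/-!
Row 141: the theorem.
-/

set_option autoImplicit false

namespace Crest.Agent.R141

open MeasureTheory Filter Topology Crest.ProbabilityR.Diluted

theorem main (p : ℕ) (hp : Even p) (hp2 : 2 ≤ p) (α : ℝ) (hα : 0 < α) (μ : Measure (Inter p))
    [IsProbabilityMeasure μ] (ν : Measure ℝ) [IsProbabilityMeasure ν]
    (hμ : Integrable (fun θ => supNorm θ) μ) (hν : Integrable (fun x : ℝ => x) ν)
    (hfac : HasFactorization p μ) :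
    ∃ F : ℝ, Tendsto (pressure p α μ ν) atTop (nhds F) ∧
      IsGLB {B : ℝ | ∃ (r : ℕ) (m : Fin r → ℝ) (X : (Fin (r + 1) → unitInterval) → ℝ),
        AdmissibleExponents m ∧ Measurable X ∧ B = trialFunctional p α μ ν r m X} F := by
  have hp1 : 1 ≤ p := by omega
  set S := {B : ℝ | ∃ (r : ℕ) (m : Fin r → ℝ) (X : (Fin (r + 1) → unitInterval) → ℝ),
    AdmissibleExponents m ∧ Measurable X ∧ B = trialFunctional p α μ ν r m X} with hS
  have hne : S.Nonempty := ⟨_, 0, Fin.elim0, fun _ => 0,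
    ⟨fun a => a.elim0, fun a => a.elim0⟩, measurable_const, rfl⟩
  have hbdd : BddBelow S := by
    obtain ⟨M, s, -, h2⟩ := approx_model hp1 hα μ ν hμ hν hfac one_pos
    obtain ⟨C, hC⟩ := fin_bdd M hp1 hα
    refine ⟨C + s - 1, ?_⟩
    rintro B ⟨r, m, X, hm, hX, rfl⟩
    have := abs_le.1 (h2 r m X hm hX)
    linarith [hC r m X hm hX, this.1]
  have hglb := isGLB_csInf hne hbdd
  refine ⟨sInf S, ?_, hglb⟩
  rw [tendsto_order]
  constructor
  · intro a ha
    set δ := (sInf S - a) / 4 with hδ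
    have hδ0 : 0 < δ := by rw [hδ]; linarith
    obtain ⟨M, s, h1, h2⟩ := approx_model hp1 hα μ ν hμ hν hfac hδ0
    have hl := fin_lower M hp2 hα (L := sInf S - s - δ) (fun r m X hm hX => by
      have := abs_le.1 (h2 r m X hm hX)
      have h3 := hglb.1 (show _ ∈ S from ⟨r, m, X, hm, hX, rfl⟩)
      linarith [this.2]) hδ0
    filter_upwards [hl, eventually_ge_atTop 1] with N h3 hN
    have := abs_le.1 (h1 N hN)
    linarith [this.1]
  · intro a ha
    set δ := (a - sInf S) / 5 with hδ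
    have hδ0 : 0 < δ := by rw [hδ]; linarith
    obtain ⟨B, ⟨r, m, X, hm, hX, rfl⟩, hB⟩ := exists_lt_of_csInf_lt hne
      (show sInf S < sInf S + δ by linarith)
    obtain ⟨M, s, h1, h2⟩ := approx_model hp1 hα μ ν hμ hν hfac hδ0
    filter_upwards [fin_upper M hp hp2 hα hm hX hδ0, eventually_ge_atTop 1] with N h3 hN
    have a1 := abs_le.1 (h1 N hN)
    have a2 := abs_le.1 (h2 r m X hm hX)
    linarith [a1.2, a2.1]

end Crest.Agent.R141
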